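import Claimed.Agent.R285.Dg.Defs
import Claimed.Agent.R285.Rdo.Ker

/-!
# ROW 285, unit BC2, file Dg/Mode: the first cosine (contract R6 of `Read/BC2.lean`), leaf L-DG-MODE.  No sorry.
`Dg/Lat.lean` cites `dgl_mode_numerics`.
-/

set_option autoImplicit false

namespace Claimed.Agent.R285.BC2

open scoped BigOperators ENNReal NNReal
open MeasureTheory ProbabilityTheory Polynomial Filter Topology
open Claimed.Agent.R285.RG Claimed.Agent.R285.B8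

noncomputable section

/-- the numerics of the first mode: `m = M²`, `16 ≤ λ m ≤ 40`, `100 v ≤ m`, `1/2 ≤ τ ≤ 1` -/
theorem dgl_num (m v s τ lam : ℝ) (hm : 0 < m) (hv : 0 < v) (hmv : 100 * v ≤ m) (hs : |s| ≤ 1 / 4)
    (hτ0 : 1 / 2 ≤ τ) (hτ1 : τ ≤ 1) (hl0 : 16 ≤ lam * m) (hl1 : lam * m ≤ 40) :
    |(1 - s * v * lam) * (τ / lam) + v| ≤ m / 8 ∧
    m / 125 ≤ (1 - s * v * lam) ^ 2 * (τ / lam) + v * (1 - s * v * lam) ∧
    (1 - s * v * lam) ^ 2 * (τ / lam) + v * (1 - s * v * lam) ≤ m / 10 := by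
  have hlam : 0 < lam := by
    by_contra h
    push Not at h
    nlinarith
  obtain ⟨r, hr⟩ : ∃ r : ℝ, r = τ / lam := ⟨_, rfl⟩
  obtain ⟨k, hk⟩ : ∃ k : ℝ, k = 1 - s * v * lam := ⟨_, rfl⟩
  rw [← hr, ← hk]
  have hr0 : m / 80 ≤ r := by
    rw [hr, le_div_iff₀ hlam]
    nlinarith
  have hr1 : r ≤ m / 16 := by
    rw [hr, div_le_iff₀ hlam]
    nlinarith
  have hvl : v * lam ≤ 2 / 5 := by
    have h1 : v * lam * m ≤ 2 / 5 * m := by nlinarith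
    exact le_of_mul_le_mul_right h1 hm
  have hvl0 : 0 < v * lam := by positivity
  obtain ⟨hs1, hs2⟩ := abs_le.1 hs
  have hk0 : 9 / 10 ≤ k := by
    rw [hk]
    nlinarith
  have hk1 : k ≤ 11 / 10 := by
    rw [hk]
    nlinarith
  have hrpos : 0 < r := by linarith
  have hkr0 : 9 / 10 * r ≤ k * r := mul_le_mul_of_nonneg_right hk0 hrpos.le
  have hkr1 : k * r ≤ 11 / 10 * r := mul_le_mul_of_nonneg_right hk1 hrpos.le
  have hkk0 : 81 / 100 ≤ k ^ 2 := by nlinarith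
  have hkk1 : k ^ 2 ≤ 121 / 100 := by nlinarith
  have hkkr0 : 81 / 100 * r ≤ k ^ 2 * r := mul_le_mul_of_nonneg_right hkk0 hrpos.le
  have hkkr1 : k ^ 2 * r ≤ 121 / 100 * r := mul_le_mul_of_nonneg_right hkk1 hrpos.le
  have hvk0 : 0 ≤ v * k := by positivity
  have hvk1 : v * k ≤ v * (11 / 10) := mul_le_mul_of_nonneg_left hk1 hv.le
  refine ⟨?_, ?_, ?_⟩
  · rw [abs_of_nonneg (by nlinarith)]
    linarith
  · linarith
  · linarith

/-- `16 ≤ M² λ₁ ≤ 40` -/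
theorem dgl_lam1 (n : ℕ) (hn : 2 ≤ n) : 16 ≤ Rdo.lam1 n * (n : ℝ) ^ 2 ∧ Rdo.lam1 n * (n : ℝ) ^ 2 ≤ 40 := by
  have hn' : (2 : ℝ) ≤ n := by exact_mod_cast hn
  have hn0 : (0 : ℝ) < n := by linarith
  have hpi := Real.pi_pos
  have hx0 : 0 ≤ Real.pi / n := by positivity
  have hx1 : Real.pi / n ≤ Real.pi / 2 := by gcongr
  have h1 : 2 / Real.pi * (Real.pi / n) ≤ Real.sin (Real.pi / n) := Real.mul_le_sin hx0 hx1
  have h2 : Real.sin (Real.pi / n) ≤ Real.pi / n := Real.sin_le hx0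
  have e1 : 2 / Real.pi * (Real.pi / n) = 2 / n := by field_simp
  rw [e1] at h1
  have h3 : 2 ≤ Real.sin (Real.pi / n) * n := by rwa [div_le_iff₀ hn0] at h1
  have h4 : Real.sin (Real.pi / n) * n ≤ Real.pi := by rwa [le_div_iff₀ hn0] at h2
  have e2 : Rdo.lam1 n * (n : ℝ) ^ 2 = 4 * (Real.sin (Real.pi / n) * n) ^ 2 := by
    unfold Rdo.lam1
    ring
  rw [e2]
  have hpi2 : Real.pi < 3.15 := Real.pi_lt_d2
  constructor
  · nlinarith
  · nlinarith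

theorem dgl_mode_numerics (v : ℝ) (hv : 0 < v) (u : ℕ) (hu : 1 ≤ u) : ∃ M0 : ℕ, ∀ G : Geom, G.bc = BC.per → M0 ≤ G.M → ∀ C1 : Matrix G.V G.V ℝ, IsRef G u C1 →
    ∀ s : ℝ, |s| ≤ 1 / 4 → ∀ a : ℝ,
      (∑ x, a * cos1 G x = 0) ∧
      (∃ b : ℝ, |b| ≤ |a| * (G.M : ℝ) ^ 2 / 8 ∧ bgV G v s C1 (fun x => a * cos1 G x) = fun x => b * cos1 G x) ∧
      a ^ 2 * (G.M : ℝ) ^ 4 / 500 ≤ enE G v s C1 (fun x => a * cos1 G x) ∧ enE G v s C1 (fun x => a * cos1 G x) ≤ a ^ 2 * (G.M : ℝ) ^ 4 / 40 := by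
  obtain ⟨C, hC⟩ := Rdo.rdo_pG
  obtain ⟨N1, hN1⟩ := exists_nat_ge (2 * C * (u : ℝ) ^ 2)
  obtain ⟨N2, hN2⟩ := exists_nat_ge (100 * v)
  refine ⟨max (max N1 N2) (max (2 * u) 3), fun G hG hM C1 hC1 s hs a => ?_⟩
  have hM1 : N1 ≤ G.M := le_trans (le_trans (le_max_left _ _) (le_max_left _ _)) hM
  have hM2 : N2 ≤ G.M := le_trans (le_trans (le_max_right _ _) (le_max_left _ _)) hM
  have hMu : 2 * u ≤ G.M := le_trans (le_trans (le_max_left _ _) (le_max_right _ _)) hM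
  have hM3 : 3 ≤ G.M := le_trans (le_trans (le_max_right _ _) (le_max_right _ _)) hM
  have hM3' : (3 : ℝ) ≤ G.M := by exact_mod_cast hM3
  have hMpos : (0 : ℝ) < G.M := by linarith
  have hMsq : (G.M : ℝ) ≤ (G.M : ℝ) ^ 2 := by nlinarith
  have hm : (0 : ℝ) < (G.M : ℝ) ^ 2 := by positivity
  obtain ⟨q, hq⟩ : ∃ q : G.V → ℝ, q = cos1 G := ⟨_, rfl⟩
  obtain ⟨lam, hlam⟩ : ∃ l : ℝ, l = Rdo.lam1 G.M := ⟨_, rfl⟩
  obtain ⟨τ, hτ⟩ : ∃ t : ℝ, t = (Fam.entry.termP u).eval lam := ⟨_, rfl⟩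
  obtain ⟨hτ0, hτ1, hτ2⟩ := hC G.M u hu hMu
  rw [← hlam, ← hτ] at hτ0 hτ1 hτ2
  have hτh : 1 / 2 ≤ τ := by
    have h1 : C * ((u : ℝ) / G.M) ^ 2 ≤ 1 / 2 := by
      rw [div_pow, ← mul_div_assoc, div_le_iff₀ hm]
      have : 2 * C * (u : ℝ) ^ 2 ≤ (G.M : ℝ) ^ 2 := by
        have : (N1 : ℝ) ≤ G.M := by exact_mod_cast hM1
        linarith
      linarith
    linarith
  have hmv : 100 * v ≤ (G.M : ℝ) ^ 2 := by
    have : (N2 : ℝ) ≤ G.M := by exact_mod_cast hM2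
    linarith
  obtain ⟨hl0, hl1⟩ := dgl_lam1 G.M (by omega)
  rw [← hlam] at hl0 hl1
  have hlpos : 0 < lam := by
    rw [hlam]
    exact Rdo.rdo_lam1_pos _ (by omega)
  obtain ⟨n1, n2, n3⟩ := dgl_num _ v s τ lam hm hv hmv hs hτh hτ1 hl0 hl1
  obtain ⟨k, hk⟩ : ∃ k : ℝ, k = 1 - s * v * lam := ⟨_, rfl⟩
  rw [← hk] at n1 n2 n3
  obtain ⟨Γ, hΓ, hΓe⟩ := hC1.mulVec_eq
  obtain ⟨hmean, hsq⟩ := Rdo.rdo_cos_sums (G := G) hM3
  rw [← hq] at hmean hsq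
  have hlap : (lap G).mulVec q = lam • q := by
    rw [hq, hlam]
    exact Rdo.rdo_lap_cos hG
  have heig : Γ.mulVec q = (τ / lam) • q := by
    have h1 := Rdo.rdo_term_eig hG (by omega) Fam.entry u Γ hΓ
    rw [← hq, ← hlam, ← hτ] at h1
    funext x
    have h2 := congrFun h1 x
    simp only [Pi.smul_apply, smul_eq_mul] at h2 ⊢
    field_simp
    linarith
  have hf : (fun x => a * cos1 G x) = a • q := by
    rw [hq]
    rfl
  have hqq : q ⬝ᵥ q = (G.M : ℝ) ^ 2 / 2 := by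
    rw [← hsq]
    simp only [dotProduct, sq]
  have heta : etaV G v s (a • q) = (k * a) • q := by
    unfold etaV
    rw [Matrix.mulVec_smul, hlap, hk]
    funext x
    simp only [Pi.sub_apply, Pi.smul_apply, smul_eq_mul]
    ring
  have hCe : C1.mulVec ((k * a) • q) = (k * a * (τ / lam)) • q := by
    rw [hΓe _ (by simp only [Pi.smul_apply, smul_eq_mul, ← Finset.mul_sum, hmean, mul_zero]),
      Matrix.mulVec_smul, heig, smul_smul]
  rw [hf]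
  refine ⟨?_, ⟨a * (k * (τ / lam) + v), ?_, ?_⟩, ?_⟩
  · simp only [Pi.smul_apply, smul_eq_mul, ← Finset.mul_sum, hmean, mul_zero]
  · rw [abs_mul, mul_div_assoc]
    exact mul_le_mul_of_nonneg_left n1 (abs_nonneg a)
  · unfold bgV
    rw [heta, hCe, ← hq]
    funext x
    simp only [Pi.add_apply, Pi.smul_apply, smul_eq_mul]
    ring
  · have hE : enE G v s C1 (a • q) = a ^ 2 * ((G.M : ℝ) ^ 2 / 4) * (k ^ 2 * (τ / lam) + v * k) := by
      unfold enE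
      rw [heta, hCe, Matrix.mulVec_smul, hlap]
      simp only [smul_dotProduct, dotProduct_smul, smul_eq_mul, hqq]
      rw [hk]
      ring
    rw [hE]
    have ha : 0 ≤ a ^ 2 * ((G.M : ℝ) ^ 2 / 4) := by positivity
    have e4 : (G.M : ℝ) ^ 4 = (G.M : ℝ) ^ 2 * (G.M : ℝ) ^ 2 := by ring
    constructor
    · have := mul_le_mul_of_nonneg_left n2 ha
      rw [e4]
      linarith
    · have := mul_le_mul_of_nonneg_left n3 ha
      rw [e4]
      linarith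

end

end Claimed.Agent.R285.BC2
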