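import Claimed.Agent.R285.Dg.Defs
import Claimed.Agent.R285.F4a.EnC
import Claimed.Agent.R285.Bc.Tor
import Claimed.Agent.R285.Dg.Mode

/-!
# ROW 285, unit BC2, file Dg/Lat: the lattice side (contracts R3, R4, R6 of `Read/BC2.lean`; R5 = `var_of_cosh` is in `Dg/Pure.lean`).      Architect helper12.   Leaves L-DG-PIN, L-DG-BRIDGE, L-DG-MODE.
Prove IN PLACE, helper lemmas just above (prefix `dgl_`), statements verbatim.
-/

set_option autoImplicit false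

namespace Claimed.Agent.R285.BC2

open scoped BigOperators ENNReal NNReal
open MeasureTheory ProbabilityTheory Polynomial Filter Topology
open Claimed.Agent.R285.RG Claimed.Agent.R285.B8

noncomputable section

variable {G : Geom}

theorem dgl_neZero (G : Geom) : NeZero G.M := ⟨G.hM.ne'⟩

/-- `Fin M ≃ ZMod M` -/
def dglE (G : Geom) : Fin G.M ≃ ZMod G.M :=
  haveI := dgl_neZero G
  { toFun := fun v => ((v : ℕ) : ZMod G.M)
    invFun := fun z => ⟨z.val, ZMod.val_lt z⟩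
    left_inv := fun v => Fin.ext (ZMod.val_natCast_of_lt v.2)
    right_inv := fun z => ZMod.natCast_zmod_val z }

theorem dgl_E_val (G : Geom) (v : Fin G.M) : (dglE G v).val = (v : ℕ) := ZMod.val_natCast_of_lt v.2

theorem dgl_E_fold (hG : G.bc = BC.per) (x : ℤ) : dglE G (G.fold x) = (x : ZMod G.M) := by
  have h0 : (0 : ℤ) < G.M := by exact_mod_cast G.hM
  have h1 : ((G.fold x : Fin G.M) : ℕ) = (x % G.M).toNat := by
    unfold Geom.fold
    split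
    · rfl
    · rename_i h
      rw [hG] at h
      exact absurd h (by simp)
  show (((G.fold x : Fin G.M) : ℕ) : ZMod G.M) = _
  rw [h1]
  have h2 : (((x % G.M).toNat : ℕ) : ℤ) = x % G.M := Int.toNat_of_nonneg (Int.emod_nonneg x h0.ne')
  have h3 : (((x % G.M).toNat : ℕ) : ZMod G.M) = (((x % G.M).toNat : ℤ) : ZMod G.M) := (Int.cast_natCast _).symm
  rw [h3, h2, ZMod.intCast_mod]

/-- the vertices -/
def dglV (G : Geom) : G.V ≃ ZMod G.M × ZMod G.M := Equiv.prodCongr (dglE G) (dglE G)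

theorem dgl_V_org (G : Geom) : dglV G (org G) = (0, 0) := by
  show (((0 : ℕ) : ZMod G.M), ((0 : ℕ) : ZMod G.M)) = _
  simp

theorem dgl_V_stp (hG : G.bc = BC.per) (v : G.V) (d : Bool) :
    haveI := dgl_neZero G
    (torus G.M).tgt (dglV G v, d) = dglV G (F4a.stp v d) := by
  have := dgl_neZero G
  have e1 : ∀ w : Fin G.M, dglE G w = (((w : ℕ) : ℤ) : ZMod G.M) := fun w => (Int.cast_natCast _).symm
  cases d
  · show (dglE G v.1, dglE G v.2 + 1) = (dglE G (G.fold (((v.1 : ℕ) : ℤ) + 0)), dglE G (G.fold (((v.2 : ℕ) : ℤ) + 1)))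
    rw [dgl_E_fold hG, dgl_E_fold hG, e1, e1]
    push_cast
    simp
  · show (dglE G v.1 + 1, dglE G v.2) = (dglE G (G.fold (((v.1 : ℕ) : ℤ) + 1)), dglE G (G.fold (((v.2 : ℕ) : ℤ) + 0)))
    rw [dgl_E_fold hG, dgl_E_fold hG, e1, e1]
    push_cast
    simp

/-- the configurations -/
def dglC (G : Geom) : haveI := dgl_neZero G; (torus G.M).Conf {((0 : ZMod G.M), (0 : ZMod G.M))} ≃ Pin G :=
  haveI := dgl_neZero G
  { toFun := fun h => ⟨fun v => h.1 (dglV G v), h.2 _ (dgl_V_org G)⟩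
    invFun := fun h => ⟨fun z => h.1 ((dglV G).symm z), fun z hz => by
      have hz' : z = dglV G (org G) := by rw [dgl_V_org]; exact hz
      show h.1 ((dglV G).symm z) = 0
      rw [hz', Equiv.symm_apply_apply]
      exact h.2⟩
    left_inv := fun h => Subtype.ext (funext fun z => congrArg h.1 ((dglV G).apply_symm_apply z))
    right_inv := fun h => Subtype.ext (funext fun v => congrArg h.1 ((dglV G).symm_apply_apply v)) }

theorem dgl_C_apply (G : Geom) (h) (v : G.V) : (dglC G h).1 v = h.1 (dglV G v) := rfl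

/-- the weights agree -/
theorem dgl_wt (hG : G.bc = BC.per) (κ : ℝ) (h) :
    haveI := dgl_neZero G
    BC1.wtW (torus G.M) (BC1.dg κ) h.1 = dgW G κ (dglC G h).1 := by
  have := dgl_neZero G
  unfold BC1.wtW dgW enZ BC1.dg
  rw [F4a.enc_dirichlet, ← Real.exp_sum]
  congr 1
  rw [Finset.mul_sum]
  have e := (Equiv.prodCongr (dglV G) (Equiv.refl Bool)).sum_comp
    (fun e : (ZMod G.M × ZMod G.M) × Bool => -κ * ((h.1 ((torus G.M).tgt e) - h.1 ((torus G.M).src e) : ℤ) : ℝ) ^ 2 / 2)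
  refine e.symm.trans (Finset.sum_congr rfl fun e _ => ?_)
  obtain ⟨v, d⟩ := e
  show -κ * ((h.1 ((torus G.M).tgt (dglV G v, d)) - h.1 (dglV G v) : ℤ) : ℝ) ^ 2 / 2 = _
  rw [dgl_V_stp hG]
  simp only [dgl_C_apply]
  push_cast
  ring

/-- linear tests -/
theorem dgl_lin (G : Geom) (t : G.V → ℝ) (h) :
    ∑ z : ZMod G.M × ZMod G.M, t ((dglV G).symm z) * (h.1 z : ℝ) = ∑ x, t x * (((dglC G h).1 x : ℤ) : ℝ) := by
  rw [← (dglV G).sum_comp]
  refine Finset.sum_congr rfl fun x _ => ?_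
  rw [Equiv.symm_apply_apply, dgl_C_apply]

/-- second moments are summable -/
theorem dgl_summable (hG : G.bc = BC.per) (κ : ℝ) (hκ : 0 < κ) (t : G.V → ℝ) :
    Summable fun h : Pin G => (1 + (∑ x, t x * (h.1 x : ℝ)) ^ 2) * dgW G κ h.1 := by
  have := dgl_neZero G
  have h1 := BC1.bc1_summable (BC1.dg κ) (fun k => (BC1.bc1_dg_pos κ k).le) (BC1.bc1_dg_moments κ hκ) (torus G.M)
    {((0 : ZMod G.M), (0 : ZMod G.M))} (BC1.bc1_torus_anchored G.M) (fun z => t ((dglV G).symm z))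
  rw [← (dglC G).summable_iff]
  refine h1.congr fun h => ?_
  show _ = (1 + (∑ x, t x * (((dglC G h).1 x : ℤ) : ℝ)) ^ 2) * dgW G κ (dglC G h).1
  rw [← dgl_wt hG, ← dgl_lin]
  rfl

/-- the exponential of a rank one kernel is PSD -/
theorem dgl_psd_exp {α : Type*} (f : α → ℝ) (c : ℝ) (hc : 0 ≤ c) :
    (Matrix.of fun a d => Real.exp (c * (f a * f d))).PosSemidef := by
  refine ⟨?_, fun x => ?_⟩
  · ext a d
    simp [Matrix.conjTranspose_apply, mul_comm]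
  · simp only [Finsupp.sum, Matrix.of_apply, star_trivial]
    have h1 : ∀ i j, HasSum (fun n : ℕ => x i * ((c * (f i * f j)) ^ n / (n.factorial : ℝ)) * x j)
        (x i * Real.exp (c * (f i * f j)) * x j) := fun i j => by
      have h0 := NormedSpace.expSeries_div_hasSum_exp (c * (f i * f j))
      rw [← Real.exp_eq_exp_ℝ] at h0
      exact (h0.mul_left _).mul_right _
    have h2 := hasSum_sum (s := x.support) fun i _ => hasSum_sum (s := x.support) fun j _ => h1 i j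
    refine h2.nonneg fun n => ?_
    have e : ∑ i ∈ x.support, ∑ j ∈ x.support, x i * ((c * (f i * f j)) ^ n / (n.factorial : ℝ)) * x j
        = c ^ n / (n.factorial : ℝ) * (∑ i ∈ x.support, x i * f i ^ n) ^ 2 := by
      rw [sq, Finset.sum_mul_sum, Finset.mul_sum]
      refine Finset.sum_congr rfl fun i _ => ?_
      rw [Finset.mul_sum]
      refine Finset.sum_congr rfl fun j _ => ?_
      rw [mul_pow, mul_pow]
      ring
    rw [e]
    positivity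

/-- sum and difference of pinned heights -/
def dglAdd (h h' : Pin G) : Pin G := ⟨fun v => h.1 v + h'.1 v, by simp [h.2, h'.2]⟩

def dglSub (h h' : Pin G) : Pin G := ⟨fun v => h.1 v - h'.1 v, by simp [h.2, h'.2]⟩

def dglRot (p : Pin G × Pin G) : Pin G × Pin G := (dglAdd p.1 p.2, dglSub p.1 p.2)

theorem dgl_rot_injective : Function.Injective (dglRot (G := G)) := by
  rintro ⟨h, h'⟩ ⟨k, k'⟩ hh
  simp only [dglRot, Prod.mk.injEq] at hh
  obtain ⟨h1, h2⟩ := hh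
  have a1 : ∀ v, h.1 v + h'.1 v = k.1 v + k'.1 v := fun v => congrFun (congrArg Subtype.val h1) v
  have a2 : ∀ v, h.1 v - h'.1 v = k.1 v - k'.1 v := fun v => congrFun (congrArg Subtype.val h2) v
  refine Prod.ext (Subtype.ext (funext fun v => ?_)) (Subtype.ext (funext fun v => ?_))
  · have := a1 v; have := a2 v; show h.1 v = k.1 v; omega
  · have := a1 v; have := a2 v; show h'.1 v = k'.1 v; omega

/-- the rows -/
def dglY (Rw : Matrix G.V G.V ℝ) (o : G.V) (h : G.V → ℤ) : ℝ := ∑ x, Rw o x * (h x : ℝ)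

/-- the diagonal factor -/
def dglF (κ : ℝ) (Rw : Matrix G.V G.V ℝ) (h : G.V → ℤ) : ℝ :=
  Real.exp (-κ / 4 * enZ G h - (∑ o, dglY Rw o h ^ 2) / 8)

/-- the doubled kernel -/
def dglK (κ : ℝ) (Rw : Matrix G.V G.V ℝ) (t : G.V → ℝ) (a d : Pin G) : ℝ :=
  (BC1.linX t a.1 * dglF κ Rw a.1) * (BC1.linX t d.1 * dglF κ Rw d.1) * (∏ v, BC1.parK (a.1 v) (d.1 v)) *
    ∏ o, Real.exp (1 / 4 * (dglY Rw o a.1 * dglY Rw o d.1))

theorem dgl_eqns_cite : True := by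
  have := @dglE.eq_1; have := @dglV.eq_1; have := @dglC.eq_1; have := @dglAdd.eq_1; have := @dglSub.eq_1
  have := @dglRot.eq_1; have := @dglY.eq_1; have := @dglF.eq_1; have := @dglK.eq_1
  trivial

theorem dgl_K_psd (κ : ℝ) (Rw : Matrix G.V G.V ℝ) (t : G.V → ℝ) : (Matrix.of (dglK κ Rw t)).PosSemidef := by
  have h1 := BC1.bc1_psd_rank_one (fun a : Pin G => BC1.linX t a.1 * dglF κ Rw a.1)
  have h2 := BC1.bc1_psd_prod (α := Pin G) Finset.univ
    (fun v : G.V => (Matrix.of BC1.parK).submatrix (fun a : Pin G => a.1 v) (fun a : Pin G => a.1 v))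
    (fun v _ => BC1.bc1_psd_parK.submatrix _)
  have h3 := BC1.bc1_psd_prod (α := Pin G) Finset.univ
    (fun o : G.V => Matrix.of fun a d : Pin G => Real.exp (1 / 4 * (dglY Rw o a.1 * dglY Rw o d.1)))
    (fun o _ => dgl_psd_exp (fun a : Pin G => dglY Rw o a.1) (1 / 4) (by norm_num))
  have h4 := (h1.hadamard h2).hadamard h3
  refine (congrArg Matrix.PosSemidef ?_).mp h4
  ext a d
  simp [dglK, Matrix.hadamard_apply]

theorem dgl_enZ_par (h h' : G.V → ℤ) :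
    enZ G (fun v => h v + h' v) + enZ G (fun v => h v - h' v) = 2 * enZ G h + 2 * enZ G h' := by
  unfold enZ
  have e1 : (fun v => (((h v + h' v : ℤ)) : ℝ)) = (fun v => (h v : ℝ)) + fun v => (h' v : ℝ) := by
    funext v
    simp
  have e2 : (fun v => (((h v - h' v : ℤ)) : ℝ)) = (fun v => (h v : ℝ)) - fun v => (h' v : ℝ) := by
    funext v
    simp
  rw [e1, e2, Matrix.mulVec_add, Matrix.mulVec_sub, add_dotProduct, sub_dotProduct, dotProduct_add, dotProduct_add,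
    dotProduct_sub, dotProduct_sub]
  ring

theorem dgl_Y_add (Rw : Matrix G.V G.V ℝ) (o : G.V) (h h' : G.V → ℤ) :
    dglY Rw o (fun v => h v + h' v) = dglY Rw o h + dglY Rw o h' := by
  simp [dglY, mul_add, Finset.sum_add_distrib]

theorem dgl_Y_sub (Rw : Matrix G.V G.V ℝ) (o : G.V) (h h' : G.V → ℤ) :
    dglY Rw o (fun v => h v - h' v) = dglY Rw o h - dglY Rw o h' := by
  simp [dglY, mul_sub, Finset.sum_sub_distrib]

theorem dgl_K_rot (κ : ℝ) (Rw : Matrix G.V G.V ℝ) (t : G.V → ℝ) (p : Pin G × Pin G) :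
    dglK κ Rw t (dglRot p).1 (dglRot p).2 = (BC1.linX t p.1.1 ^ 2 - BC1.linX t p.2.1 ^ 2) *
      (dgW G κ p.1.1 * (dgW G κ p.2.1 * Real.exp (-(1 / 2) * ∑ o, (∑ x, Rw o x * (p.2.1 x : ℝ)) ^ 2))) := by
  obtain ⟨h, h'⟩ := p
  simp only [dglK, dglRot, dglAdd, dglSub]
  rw [BC1.bc1_linX_rot]
  have e1 : ∏ v, BC1.parK (h.1 v + h'.1 v) (h.1 v - h'.1 v) = 1 := by
    refine Finset.prod_eq_one fun v _ => ?_
    unfold BC1.parK
    rw [if_pos (by omega)]
  rw [e1, mul_one, ← Real.exp_sum]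
  have e2 : dglF κ Rw (fun v => h.1 v + h'.1 v) * dglF κ Rw (fun v => h.1 v - h'.1 v) *
      Real.exp (∑ o, 1 / 4 * (dglY Rw o (fun v => h.1 v + h'.1 v) * dglY Rw o (fun v => h.1 v - h'.1 v)))
      = dgW G κ h.1 * (dgW G κ h'.1 * Real.exp (-(1 / 2) * ∑ o, (∑ x, Rw o x * (h'.1 x : ℝ)) ^ 2)) := by
    unfold dglF dgW
    rw [← Real.exp_add, ← Real.exp_add, ← Real.exp_add, ← Real.exp_add]
    congr 1
    have e3 := dgl_enZ_par h.1 h'.1
    simp only [dgl_Y_add, dgl_Y_sub]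
    have e4 : ∑ o, (∑ x, Rw o x * (h'.1 x : ℝ)) ^ 2 = ∑ o, dglY Rw o h'.1 ^ 2 := rfl
    rw [e4]
    have e5 : (∑ o, (dglY Rw o h.1 + dglY Rw o h'.1) ^ 2) = ∑ o, dglY Rw o h.1 ^ 2 + 2 * ∑ o, dglY Rw o h.1 * dglY Rw o h'.1
        + ∑ o, dglY Rw o h'.1 ^ 2 := by
      rw [Finset.mul_sum, ← Finset.sum_add_distrib, ← Finset.sum_add_distrib]
      exact Finset.sum_congr rfl fun o _ => by ring
    have e6 : (∑ o, (dglY Rw o h.1 - dglY Rw o h'.1) ^ 2) = ∑ o, dglY Rw o h.1 ^ 2 - 2 * ∑ o, dglY Rw o h.1 * dglY Rw o h'.1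
        + ∑ o, dglY Rw o h'.1 ^ 2 := by
      rw [Finset.mul_sum, ← Finset.sum_sub_distrib, ← Finset.sum_add_distrib]
      exact Finset.sum_congr rfl fun o _ => by ring
    have e7 : (∑ o, 1 / 4 * ((dglY Rw o h.1 + dglY Rw o h'.1) * (dglY Rw o h.1 - dglY Rw o h'.1)))
        = 1 / 4 * (∑ o, dglY Rw o h.1 ^ 2 - ∑ o, dglY Rw o h'.1 ^ 2) := by
      rw [← Finset.sum_sub_distrib, Finset.mul_sum]
      exact Finset.sum_congr rfl fun o _ => by ring
    rw [e5, e6, e7]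
    linear_combination (-κ / 4) * e3
  rw [← e2]
  ring

theorem dgl_K_support (κ : ℝ) (Rw : Matrix G.V G.V ℝ) (t : G.V → ℝ) :
    Function.support (fun q : Pin G × Pin G => dglK κ Rw t q.1 q.2) ⊆ Set.range dglRot := by
  rintro ⟨a, d⟩ hq
  simp only [Function.mem_support, dglK] at hq
  have hp : ∀ v, (a.1 v - d.1 v) % 2 = 0 := by
    intro v
    by_contra hv
    apply hq
    have : ∏ v, BC1.parK (a.1 v) (d.1 v) = 0 := Finset.prod_eq_zero (Finset.mem_univ v) (by simp [BC1.parK, hv])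
    rw [this]
    ring
  refine ⟨(⟨fun v => (a.1 v + d.1 v) / 2, by simp [a.2, d.2]⟩, ⟨fun v => (a.1 v - d.1 v) / 2, by simp [a.2, d.2]⟩), ?_⟩
  refine Prod.ext (Subtype.ext (funext fun v => ?_)) (Subtype.ext (funext fun v => ?_))
  · have := hp v
    show (a.1 v + d.1 v) / 2 + (a.1 v - d.1 v) / 2 = a.1 v
    omega
  · have := hp v
    show (a.1 v + d.1 v) / 2 - (a.1 v - d.1 v) / 2 = d.1 v
    omega

/-- **(R3) additional Gaussian precision decreases second moments** (duplication `a = h + h'`, `d = h - h'`; the kernel `exp (-|R (a - d)|²/8)` is PSD; lemmas of `R285/Bc/Comp.lean`) -/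
theorem pin_compare (hG : G.bc = BC.per) (κ : ℝ) (hκ : 0 < κ) (Rw : Matrix G.V G.V ℝ) (t : G.V → ℝ) :
    pE G (fun h => dgW G κ h * Real.exp (-(1 / 2) * ∑ o, (∑ x, Rw o x * (h x : ℝ)) ^ 2)) (fun h => (∑ x, t x * (h x : ℝ)) ^ 2)
      ≤ pE G (dgW G κ) fun h => (∑ x, t x * (h x : ℝ)) ^ 2 := by
  have p₁ : ∀ h : Pin G, 0 < dgW G κ h.1 := fun h => Real.exp_pos _
  have p₂ : ∀ h : Pin G, 0 < dgW G κ h.1 * Real.exp (-(1 / 2) * ∑ o, (∑ x, Rw o x * (h.1 x : ℝ)) ^ 2) := fun h =>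
    mul_pos (p₁ h) (Real.exp_pos _)
  have s₁ : Summable fun h : Pin G => (1 + BC1.linX t h.1 ^ 2) * dgW G κ h.1 := dgl_summable hG κ hκ t
  have hle : ∀ h : Pin G, dgW G κ h.1 * Real.exp (-(1 / 2) * ∑ o, (∑ x, Rw o x * (h.1 x : ℝ)) ^ 2) ≤ dgW G κ h.1 := fun h => by
    refine mul_le_of_le_one_right (p₁ h).le (Real.exp_le_one_iff.2 ?_)
    have : 0 ≤ ∑ o, (∑ x, Rw o x * (h.1 x : ℝ)) ^ 2 := Finset.sum_nonneg fun o _ => sq_nonneg _
    linarith
  have s₂ : Summable fun h : Pin G => (1 + BC1.linX t h.1 ^ 2) *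
      (dgW G κ h.1 * Real.exp (-(1 / 2) * ∑ o, (∑ x, Rw o x * (h.1 x : ℝ)) ^ 2)) :=
    Summable.of_nonneg_of_le (fun h => mul_nonneg (by positivity) (p₂ h).le)
      (fun h => mul_le_mul_of_nonneg_left (hle h) (by positivity)) s₁
  have key := BC1.bc1_cross_abs (fun h : Pin G => BC1.linX t h.1) (fun h => dgW G κ h.1)
    (fun h => dgW G κ h.1 * Real.exp (-(1 / 2) * ∑ o, (∑ x, Rw o x * (h.1 x : ℝ)) ^ 2))
    p₁ p₂ s₁ s₂ (dglK κ Rw t) (dgl_K_psd κ Rw t) dglRot dgl_rot_injective (dgl_K_support κ Rw t) (dgl_K_rot κ Rw t)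
  have b₁ : Summable fun h : Pin G => dgW G κ h.1 :=
    Summable.of_nonneg_of_le (fun a => (p₁ _).le)
      (fun a => le_mul_of_one_le_left (p₁ _).le (by linarith [sq_nonneg (BC1.linX t a.1)])) s₁
  have b₂ : Summable fun h : Pin G => dgW G κ h.1 * Real.exp (-(1 / 2) * ∑ o, (∑ x, Rw o x * (h.1 x : ℝ)) ^ 2) :=
    Summable.of_nonneg_of_le (fun a => (p₂ _).le) hle b₁
  have q₁ : 0 < ∑' h : Pin G, dgW G κ h.1 := b₁.tsum_pos (fun h => (p₁ h).le) ⟨fun _ => 0, rfl⟩ (p₁ _)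
  have q₂ : 0 < ∑' h : Pin G, dgW G κ h.1 * Real.exp (-(1 / 2) * ∑ o, (∑ x, Rw o x * (h.1 x : ℝ)) ^ 2) :=
    b₂.tsum_pos (fun h => (p₂ h).le) ⟨fun _ => 0, rfl⟩ (p₂ _)
  unfold pE
  rw [div_le_div_iff₀ q₂ q₁]
  exact key

/-- **(R4) bridge** to `BC1.dgTorVar` (`ZMod n × ZMod n` against `Fin n × Fin n`; `∑_e (∇_e h)² = (h, A h)`; the mean vanishes by `h ↦ -h`) -/
theorem dgTorVar_eq (hG : G.bc = BC.per) (κ : ℝ) (hκ : 0 < κ) : BC1.dgTorVar κ G.M = pE G (dgW G κ) fun h => Xc G h ^ 2 := by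
  have := dgl_neZero G
  have hM : (G.M : ℝ) ≠ 0 := by exact_mod_cast G.hM.ne'
  unfold BC1.dgTorVar
  rw [dif_neg G.hM.ne']
  unfold BC1.VrW
  have hc : BC1.ExW (torus G.M) (BC1.dg κ) {((0 : ZMod G.M), (0 : ZMod G.M))} (fun h =>
      (G.M : ℝ)⁻¹ ^ 2 * ∑ v : ZMod G.M × ZMod G.M, h v * Real.cos (2 * Real.pi * (v.1.val : ℝ) / G.M)) = 0 := by
    have := BC1.bc1_centred (BC1.dg κ) (BC1.bc1_dg_neg κ) (torus G.M) {((0 : ZMod G.M), (0 : ZMod G.M))}
      (fun v => (G.M : ℝ)⁻¹ ^ 2 * Real.cos (2 * Real.pi * (v.1.val : ℝ) / G.M))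
    rw [← this]
    congr 1
    funext h
    rw [Finset.mul_sum]
    exact Finset.sum_congr rfl fun v _ => by ring
  rw [hc]
  unfold BC1.ExW BC1.ZW pE
  rw [← (dglC G).tsum_eq, ← (dglC G).tsum_eq (fun h : Pin G => dgW G κ h.1)]
  have hX : ∀ h : (torus G.M).Conf {((0 : ZMod G.M), (0 : ZMod G.M))},
      (G.M : ℝ)⁻¹ ^ 2 * ∑ v : ZMod G.M × ZMod G.M, (2 * Real.pi * (h.1 v : ℝ)) * Real.cos (2 * Real.pi * (v.1.val : ℝ) / G.M)
        = Xc G (dglC G h).1 := fun h => by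
    unfold Xc
    congr 1
    rw [← (dglV G).sum_comp]
    refine Finset.sum_congr rfl fun x _ => ?_
    rw [dgl_C_apply]
    congr 1
    unfold cos1
    show Real.cos (2 * Real.pi * ((dglE G x.1).val : ℝ) / G.M) = _
    rw [dgl_E_val]
  simp only [hX, dgl_wt hG, one_mul]
  ring

/-- **(R6) the first cosine**: eigenvector of `A` (`λ₁ = 4 sin² (π/M)`, `16 ≤ M² λ₁ ≤ 4π²`) and of `C₁` (`τ(λ₁)/λ₁`, `τ(λ₁) → 1`), `∑ cos² = M²/2`. -/
theorem mode_numerics (v : ℝ) (hv : 0 < v) (u : ℕ) (hu : 1 ≤ u) : ∃ M0 : ℕ, ∀ G : Geom, G.bc = BC.per → M0 ≤ G.M → ∀ C1 : Matrix G.V G.V ℝ, IsRef G u C1 →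
    ∀ s : ℝ, |s| ≤ 1 / 4 → ∀ a : ℝ,
      (∑ x, a * cos1 G x = 0) ∧
      (∃ b : ℝ, |b| ≤ |a| * (G.M : ℝ) ^ 2 / 8 ∧ bgV G v s C1 (fun x => a * cos1 G x) = fun x => b * cos1 G x) ∧
      a ^ 2 * (G.M : ℝ) ^ 4 / 500 ≤ enE G v s C1 (fun x => a * cos1 G x) ∧ enE G v s C1 (fun x => a * cos1 G x) ≤ a ^ 2 * (G.M : ℝ) ^ 4 / 40 :=
  dgl_mode_numerics v hv u hu
end

end Claimed.Agent.R285.BC2
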