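import Claimed.Agent.R285.Dg.Defs
import Claimed.Agent.R285.Reg.Gauss
import Claimed.Agent.R285.Hol.Gs

/-!
# ROW 285, unit BC2, file Dg/RefG: proof of (R2) `ref_gauss` (helper35; architect helper12).   No sorry.

`refW σ = refW 0 · exp (-(σ, Q σ)/2)`, `Q = A (1 - s τ(A)) d(A)⁻¹`, `d = v λ (1 - s τ) + τ`, `Q = κ' A + Rw²`.
* s1 `dgr_mul_mul`: product rule of the multiplier calculus `Ker.HasMul` (Lagrange interpolation on the spectrum).
* s2 `dgr_shift`: ONE Cameron-Martin shift (`Hol.gauss_shift_integral`) by `a = C₁ η`; if `b = σ - a = v (η - s A a)` and `∑ b = 0` then the inner integral at `σ` is `exp (-(b, σ)/(2v))` times the one at `0`, for every `t`.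
* s3 symbols; s4 integrability (`dgr_exp_integrable`: `E exp (s (φ, A φ)/2) < ∞` by `Reg.reg_gauss_quad`; `dgr_prod_integrable`: the integrand of `refW` is integrable in `(φ, t)`; `dgr_refW_pos`).
* s5 `η = K σ`, `K = A d(A)⁻¹`; the mean of `σ` is absorbed by the integral over `t` (`dgr_refW_const`).
-/

set_option autoImplicit false

namespace Claimed.Agent.R285.BC2

open scoped BigOperators ENNReal NNReal
open MeasureTheory ProbabilityTheory Polynomial Filter Topology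
open Claimed.Agent.R285.RG Claimed.Agent.R285.B8

noncomputable section

variable {G : Geom}

/-! ## 1. product rule of the multiplier calculus -/

/-- every operator with a multiplier is a polynomial of the Laplacian (Lagrange interpolation on the spectrum) -/
theorem dgr_mul_poly {Γ : Matrix G.V G.V ℝ} {m : ℝ → ℝ} (h : Ker.HasMul G Γ m) :
    ∃ P : ℝ[X], Γ = cov G P ∧ ∀ k, P.eval (Ker.lam (Ker.per G) k) = m (Ker.lam (Ker.per G) k) := by
  classical
  obtain ⟨S, hS⟩ : ∃ S : Finset ℝ, S = Finset.univ.image (Ker.lam (Ker.per G)) := ⟨_, rfl⟩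
  have hP : ∀ k, (Lagrange.interpolate S id m).eval (Ker.lam (Ker.per G) k) = m (Ker.lam (Ker.per G) k) := by
    intro k
    have hk : Ker.lam (Ker.per G) k ∈ S := by rw [hS]; exact Finset.mem_image_of_mem _ (Finset.mem_univ _)
    generalize Ker.lam (Ker.per G) k = x at hk ⊢
    have h1 := Lagrange.eval_interpolate_at_node (s := S) (v := id) m (Function.injective_id.injOn) hk
    rwa [id] at h1
  exact ⟨_, Ker.ker_mul_ext h (Ker.ker_cov_mul G _) fun k => (hP k).symm, hP⟩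

theorem dgr_mul_mul {Γ Γ' : Matrix G.V G.V ℝ} {m m' : ℝ → ℝ} (h : Ker.HasMul G Γ m) (h' : Ker.HasMul G Γ' m') :
    Ker.HasMul G (Γ * Γ') (fun t => m t * m' t) := by
  obtain ⟨P, rfl, hP⟩ := dgr_mul_poly h
  exact Ker.ker_mul_congr (Ker.ker_mul_cov h' P) fun k => by rw [hP]

/-! ## 2. the Cameron-Martin shift -/

theorem dgr_prod_gden (v : ℝ) (y : G.V → ℝ) :
    ∏ x, gden v (y x) = Real.exp (-(∑ x, y x ^ 2) / (2 * v)) * ((Real.sqrt (2 * Real.pi * v)) ^ Fintype.card G.V)⁻¹ := by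
  unfold gden
  rw [Finset.prod_div_distrib, ← Real.exp_sum, Finset.prod_const, Finset.card_univ, div_eq_mul_inv]
  congr 2
  rw [← Finset.sum_neg_distrib, Finset.sum_div]

theorem dgr_lap_symm (G : Geom) (x y : G.V → ℝ) : x ⬝ᵥ (lap G).mulVec y = (lap G).mulVec x ⬝ᵥ y := by
  rw [Matrix.dotProduct_mulVec, ← Matrix.mulVec_transpose, Ker.ker_mul_symm (Ker.ker_lap_mul G)]

theorem dgr_enR_add (G : Geom) (ζ a : G.V → ℝ) :
    enR G (ζ + a) = enR G ζ + 2 * ((lap G).mulVec a ⬝ᵥ ζ) + enR G a := by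
  unfold enR
  rw [Matrix.mulVec_add, add_dotProduct, dotProduct_add, dotProduct_add, dgr_lap_symm G a ζ, dotProduct_comm ζ ((lap G).mulVec a)]
  ring

theorem dgr_shift (C1 : Matrix G.V G.V ℝ) (hC : C1.PosSemidef) (v s : ℝ) (hv : 0 < v) (σ η : G.V → ℝ)
    (hb : σ - C1.mulVec η = v • (η - s • (lap G).mulVec (C1.mulVec η))) (hb0 : ∑ x, (σ - C1.mulVec η) x = 0) (t : ℝ) :
    ∫ φ, Real.exp (s / 2 * enR G φ) * ∏ x, gden v (σ x - φ x - t) ∂(gauss G C1)
      = Real.exp (-((σ - C1.mulVec η) ⬝ᵥ σ) / (2 * v))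
        * ∫ φ, Real.exp (s / 2 * enR G φ) * ∏ x, gden v ((0 : G.V → ℝ) x - φ x - t) ∂(gauss G C1) := by
  obtain ⟨a, ha⟩ : ∃ a, a = C1.mulVec η := ⟨_, rfl⟩
  obtain ⟨b, hbd⟩ : ∃ b, b = σ - a := ⟨_, rfl⟩
  rw [← ha] at hb hb0 ⊢
  rw [← hbd] at hb hb0 ⊢
  have key := Hol.gauss_shift_integral C1 hC η (fun ζ => Real.exp (-(η ⬝ᵥ ζ) + (η ⬝ᵥ a) / 2)
    * (Real.exp (s / 2 * enR G ζ) * ∏ x, gden v (σ x - ζ x - t)))
  rw [← ha] at key
  rw [← integral_const_mul]
  calc ∫ φ, Real.exp (s / 2 * enR G φ) * ∏ x, gden v (σ x - φ x - t) ∂(gauss G C1)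
      = ∫ ζ, Real.exp (η ⬝ᵥ ζ - (η ⬝ᵥ a) / 2) • (Real.exp (-(η ⬝ᵥ ζ) + (η ⬝ᵥ a) / 2)
          * (Real.exp (s / 2 * enR G ζ) * ∏ x, gden v (σ x - ζ x - t))) ∂(gauss G C1) := by
        refine integral_congr_ae (Eventually.of_forall fun ζ => ?_)
        simp only [smul_eq_mul]
        rw [← mul_assoc, ← Real.exp_add]
        have : η ⬝ᵥ ζ - (η ⬝ᵥ a) / 2 + (-(η ⬝ᵥ ζ) + (η ⬝ᵥ a) / 2) = 0 := by ring
        rw [this, Real.exp_zero, one_mul]
    _ = _ := key.symm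
    _ = _ := by
        refine integral_congr_ae (Eventually.of_forall fun ζ => ?_)
        simp only []
        rw [dgr_prod_gden, dgr_prod_gden, ← mul_assoc, ← mul_assoc, ← mul_assoc, ← mul_assoc, ← Real.exp_add, ← Real.exp_add,
          ← Real.exp_add, ← Real.exp_add]
        congr 2
        have e1 : ∑ x, (σ x - (ζ + a) x - t) ^ 2 = b ⬝ᵥ b - 2 * (b ⬝ᵥ ζ) - 2 * t * ∑ x, b x + ∑ x, ((0 : G.V → ℝ) x - ζ x - t) ^ 2 := by
          simp only [dotProduct, Finset.mul_sum]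
          rw [← Finset.sum_sub_distrib, ← Finset.sum_sub_distrib, ← Finset.sum_add_distrib]
          refine Finset.sum_congr rfl fun x _ => ?_
          rw [hbd]
          simp only [Pi.add_apply, Pi.sub_apply, Pi.zero_apply]
          ring
        have e2 : b ⬝ᵥ ζ = v * (η ⬝ᵥ ζ - s * ((lap G).mulVec a ⬝ᵥ ζ)) := by
          rw [hb, smul_dotProduct, sub_dotProduct, smul_dotProduct]
          simp only [smul_eq_mul]
        have e3 : b ⬝ᵥ a = v * (η ⬝ᵥ a - s * enR G a) := by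
          rw [hb, smul_dotProduct, sub_dotProduct, smul_dotProduct, enR, dgr_lap_symm]
          simp only [smul_eq_mul]
        have e4 : b ⬝ᵥ σ = b ⬝ᵥ a + b ⬝ᵥ b := by
          rw [← dotProduct_add, hbd]
          congr 1
          abel
        rw [e1, hb0, dgr_enR_add, dotProduct_add, e4]
        have e5 : b ⬝ᵥ ζ / v = η ⬝ᵥ ζ - s * ((lap G).mulVec a ⬝ᵥ ζ) := by rw [e2]; field_simp
        have e6 : b ⬝ᵥ a / v = η ⬝ᵥ a - s * enR G a := by rw [e3]; field_simp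
        obtain ⟨S0, hS0⟩ : ∃ S0 : ℝ, S0 = ∑ x, ((0 : G.V → ℝ) x - ζ x - t) ^ 2 := ⟨_, rfl⟩
        rw [← hS0]
        have e7 : -(b ⬝ᵥ b - 2 * (b ⬝ᵥ ζ) - 2 * t * 0 + S0) / (2 * v) = -(b ⬝ᵥ b) / (2 * v) + b ⬝ᵥ ζ / v - S0 / (2 * v) := by
          field_simp
          ring
        have e8 : -(b ⬝ᵥ a + b ⬝ᵥ b) / (2 * v) = -(b ⬝ᵥ a / v) / 2 - (b ⬝ᵥ b) / (2 * v) := by
          field_simp
          ring
        rw [e7, e8, e5, e6]
        ring

/-! ## 3. the symbols -/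

theorem dgr_tau (u : ℕ) (hu : 1 ≤ u) (x : ℝ) (h0 : 0 ≤ x) (h8 : x ≤ 8) :
    0 ≤ (Fam.entry.termP u).eval x ∧ (Fam.entry.termP u).eval x ≤ 1 := by
  have hT : (Fam.entry.termP u).eval x = Ker.qq 64 u x := by
    rw [Ker.ker_termP_eval]
    simp [Fam.entry]
  rw [hT]
  exact ⟨Ker.ker_qq_nonneg 64 u x, Ker.ker_qq_le_one 64 (by norm_num) u hu x h0 h8⟩

/-- the multiplier of a reference covariance -/
theorem dgr_ref_mul {u : ℕ} {C1 : Matrix G.V G.V ℝ} (h : IsRef G u C1) :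
    ∃ c : ℝ, 0 ≤ c ∧ Ker.HasMul G C1 (fun t => Ker.tm Fam.entry u t + if t = 0 then c else 0) := by
  obtain ⟨Γ, c, hΓ, hc, rfl⟩ := h
  exact ⟨c, hc, Ker.ker_mul_add (Ker.ker_terminal_mul Ker.ker_entry_adm u hΓ) (Ker.ker_cmat_mul G c)⟩

theorem dgr_sq_sum {Γ : Matrix G.V G.V ℝ} {m : ℝ → ℝ} (h : Ker.HasMul G Γ m) (σ : G.V → ℝ) :
    ∑ o, (Γ.mulVec σ o) ^ 2 = σ ⬝ᵥ (Γ * Γ).mulVec σ := by
  have h1 : ∑ o, (Γ.mulVec σ o) ^ 2 = Γ.mulVec σ ⬝ᵥ Γ.mulVec σ := by
    unfold dotProduct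
    exact Finset.sum_congr rfl fun i _ => sq _
  rw [h1, ← Matrix.mulVec_mulVec, Matrix.dotProduct_mulVec σ, ← Matrix.mulVec_transpose, Ker.ker_mul_symm h]

/-! ## 4. integrability -/

theorem dgr_enR_nonneg (G : Geom) (φ : G.V → ℝ) : 0 ≤ enR G φ :=
  Ker.ker_quad_nonneg (Ker.ker_lap_mul G) (fun k => Ker.ker_lam_nonneg _ k) φ

theorem dgr_enR_cont (G : Geom) : Continuous (enR G) := by
  unfold enR
  fun_prop

theorem dgr_exp_integrable (u : ℕ) (hu : 1 ≤ u) (C1 : Matrix G.V G.V ℝ) (hC : IsRef G u C1) (s : ℝ) (hs : |s| ≤ 1 / 4) :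
    Integrable (fun φ => Real.exp (s / 2 * enR G φ)) (gauss G C1) := by
  obtain ⟨c, hc, hm⟩ := dgr_ref_mul hC
  obtain ⟨S, hS⟩ := Ker.ker_exists_mul G Real.sqrt
  have hSS : S * S = lap G := Ker.ker_mul_ext (dgr_mul_mul hS hS) (Ker.ker_lap_mul G) fun k =>
    Real.mul_self_sqrt (Ker.ker_lam_nonneg _ k)
  have hen : ∀ ζ : G.V → ℝ, ∑ o, (S o ⬝ᵥ ζ) ^ 2 = enR G ζ := by
    intro ζ
    have := dgr_sq_sum hS ζ
    rw [hSS] at this
    exact this
  have hSt := Ker.ker_mul_symm hS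
  have hq := Reg.reg_gauss_quad (Γ := C1) hC.psd (fun o => S o) (Λ := 1) (τ := ∑ k, Reg.regQf C1 (S k)) (a := 1 / 8) (by
      intro w
      have h1 : ∑ k, w k • S k = S.mulVec w := by
        funext i
        rw [Finset.sum_apply]
        unfold Matrix.mulVec dotProduct
        refine Finset.sum_congr rfl fun k _ => ?_
        have : S k i = S i k := by
          have := congrFun (congrFun hSt i) k
          rwa [Matrix.transpose_apply] at this
        simp [this, mul_comm]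
      rw [h1]
      unfold Reg.regQf
      have h2 : S.mulVec w ⬝ᵥ C1.mulVec (S.mulVec w) = w ⬝ᵥ (S * (C1 * S)).mulVec w := by
        rw [← Matrix.mulVec_mulVec, ← Matrix.mulVec_mulVec, Matrix.dotProduct_mulVec w, ← Matrix.mulVec_transpose, hSt]
      rw [h2]
      refine (Ker.ker_quad_le (dgr_mul_mul hS (dgr_mul_mul hm hS)) 1 (fun k => ?_) w).trans (le_of_eq ?_)
      · have h0 := Ker.ker_lam_nonneg (Ker.per G) k
        have h8 := Ker.ker_lam_le (Ker.per G) k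
        generalize Ker.lam (Ker.per G) k = x at h0 h8 ⊢
        by_cases hx : x = 0
        · subst hx
          simp
        · simp only [Ker.tm, hx, if_false, add_zero]
          have := Real.mul_self_sqrt h0
          have e : Real.sqrt x * ((Fam.entry.termP u).eval x / x * Real.sqrt x) = (Fam.entry.termP u).eval x * ((Real.sqrt x * Real.sqrt x) / x) := by ring
          rw [e, this, div_self hx, mul_one]
          exact (dgr_tau u hu x h0 h8).2
      · congr 1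
        unfold dotProduct
        exact Finset.sum_congr rfl fun i _ => (sq _).symm) le_rfl (by norm_num) (by norm_num)
  simp only [hen] at hq
  have hI : Integrable (fun φ => Real.exp (1 / 8 * enR G φ)) (gauss G C1) := by
    refine ⟨((Real.continuous_exp.comp (continuous_const.mul (dgr_enR_cont G)))).aestronglyMeasurable, ?_⟩
    rw [hasFiniteIntegral_iff_ofReal (Eventually.of_forall fun _ => (Real.exp_pos _).le)]
    exact lt_of_le_of_lt hq ENNReal.ofReal_lt_top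
  refine hI.mono' ((Real.continuous_exp.comp (continuous_const.mul (dgr_enR_cont G)))).aestronglyMeasurable
    (Eventually.of_forall fun φ => ?_)
  rw [Real.norm_eq_abs, abs_of_pos (Real.exp_pos _)]
  refine Real.exp_le_exp.2 (mul_le_mul_of_nonneg_right ?_ (dgr_enR_nonneg G φ))
  have := (abs_le.1 hs).2
  linarith

theorem dgr_gden_cont (v : ℝ) : Continuous (gden v) := by
  unfold gden
  fun_prop

theorem dgr_gden_pos (v : ℝ) (hv : 0 < v) (x : ℝ) : 0 < gden v x := by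
  unfold gden
  have := Real.pi_pos
  positivity

/-- the integrand of `refW` is integrable on the product -/
theorem dgr_prod_integrable (u : ℕ) (hu : 1 ≤ u) (C1 : Matrix G.V G.V ℝ) (hC : IsRef G u C1) (v s : ℝ) (hv : 0 < v) (hs : |s| ≤ 1 / 4)
    (σ : G.V → ℝ) :
    Integrable (fun p : (G.V → ℝ) × ℝ => Real.exp (s / 2 * enR G p.1) * ∏ x, gden v (σ x - p.1 x - p.2))
      ((gauss G C1).prod volume) := by
  have hcont : Continuous (fun p : (G.V → ℝ) × ℝ => Real.exp (s / 2 * enR G p.1) * ∏ x, gden v (σ x - p.1 x - p.2)) := by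
    have h1 := dgr_enR_cont G
    have h2 := dgr_gden_cont v
    fun_prop
  obtain ⟨cst, hcst⟩ : ∃ cst : ℝ, cst = ((Real.sqrt (2 * Real.pi * v)) ^ Fintype.card G.V)⁻¹ := ⟨_, rfl⟩
  have hcst0 : 0 ≤ cst := by rw [hcst]; positivity
  have hb : 0 < 1 / (2 * v) := by positivity
  have hg0 : Integrable (fun t : ℝ => Real.exp (-(1 / (2 * v)) * t ^ 2)) volume := integrable_exp_neg_mul_sq hb
  obtain ⟨I0, hI0⟩ : ∃ I0 : ℝ, I0 = ∫ t : ℝ, Real.exp (-(1 / (2 * v)) * t ^ 2) := ⟨_, rfl⟩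
  -- the bound
  have hbound : ∀ (φ : G.V → ℝ) (t : ℝ), Real.exp (s / 2 * enR G φ) * ∏ x, gden v (σ x - φ x - t)
      ≤ Real.exp (s / 2 * enR G φ) * cst * Real.exp (-(1 / (2 * v)) * (t - (σ (org G) - φ (org G))) ^ 2) := by
    intro φ t
    rw [dgr_prod_gden, ← hcst, mul_assoc, mul_comm cst]
    refine mul_le_mul_of_nonneg_left (mul_le_mul_of_nonneg_right (Real.exp_le_exp.2 ?_) hcst0) (Real.exp_pos _).le
    have h1 : (σ (org G) - φ (org G) - t) ^ 2 ≤ ∑ x, (σ x - φ x - t) ^ 2 :=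
      Finset.single_le_sum (f := fun x => (σ x - φ x - t) ^ 2) (fun x _ => sq_nonneg _) (Finset.mem_univ (org G))
    have h2 : -(∑ x, (σ x - φ x - t) ^ 2) / (2 * v) = -(1 / (2 * v)) * ∑ x, (σ x - φ x - t) ^ 2 := by ring
    rw [h2]
    have h3 : (t - (σ (org G) - φ (org G))) ^ 2 = (σ (org G) - φ (org G) - t) ^ 2 := by ring
    rw [h3]
    have := mul_le_mul_of_nonneg_left h1 hb.le
    linarith
  have hpos : ∀ (φ : G.V → ℝ) (t : ℝ), 0 ≤ Real.exp (s / 2 * enR G φ) * ∏ x, gden v (σ x - φ x - t) := fun φ t =>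
    mul_nonneg (Real.exp_pos _).le (Finset.prod_nonneg fun x _ => (dgr_gden_pos v hv _).le)
  have hgt : ∀ φ : G.V → ℝ, Integrable (fun t : ℝ => Real.exp (s / 2 * enR G φ) * cst
      * Real.exp (-(1 / (2 * v)) * (t - (σ (org G) - φ (org G))) ^ 2)) volume := fun φ =>
    (hg0.comp_sub_right (σ (org G) - φ (org G))).const_mul _
  have hsec : ∀ φ : G.V → ℝ, Integrable (fun t : ℝ => Real.exp (s / 2 * enR G φ) * ∏ x, gden v (σ x - φ x - t)) volume := by
    intro φ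
    refine (hgt φ).mono' ?_ (Eventually.of_forall fun t => ?_)
    · exact (hcont.comp (Continuous.prodMk_right φ)).aestronglyMeasurable
    · rw [Real.norm_eq_abs, abs_of_nonneg (hpos φ t)]
      exact hbound φ t
  rw [integrable_prod_iff hcont.aestronglyMeasurable]
  refine ⟨Eventually.of_forall hsec, ?_⟩
  refine ((dgr_exp_integrable u hu C1 hC s hs).mul_const (cst * I0)).mono' ?_ (Eventually.of_forall fun φ => ?_)
  · exact (hcont.norm.aestronglyMeasurable (μ := (gauss G C1).prod volume)).integral_prod_right'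
  · rw [Real.norm_eq_abs, abs_of_nonneg (integral_nonneg fun t => norm_nonneg _)]
    calc ∫ t : ℝ, ‖Real.exp (s / 2 * enR G φ) * ∏ x, gden v (σ x - φ x - t)‖
        ≤ ∫ t : ℝ, Real.exp (s / 2 * enR G φ) * cst * Real.exp (-(1 / (2 * v)) * (t - (σ (org G) - φ (org G))) ^ 2) := by
          refine integral_mono (hsec φ).norm (hgt φ) fun t => ?_
          simp only []
          rw [Real.norm_eq_abs, abs_of_nonneg (hpos φ t)]
          exact hbound φ t
      _ = Real.exp (s / 2 * enR G φ) * (cst * I0) := by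
          rw [integral_const_mul, integral_sub_right_eq_self (fun t : ℝ => Real.exp (-(1 / (2 * v)) * t ^ 2)), ← hI0, mul_assoc]

theorem dgr_refW_pos (u : ℕ) (hu : 1 ≤ u) (C1 : Matrix G.V G.V ℝ) (hC : IsRef G u C1) (v s : ℝ) (hv : 0 < v) (hs : |s| ≤ 1 / 4)
    (σ : G.V → ℝ) : 0 < refW G v s C1 σ := by
  have hI := dgr_prod_integrable u hu C1 hC v s hv hs σ
  have h1 := integral_prod_symm _ hI
  unfold refW
  simp only [] at h1
  rw [← h1, integral_pos_iff_support_of_nonneg (fun p => mul_nonneg (Real.exp_pos _).le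
    (Finset.prod_nonneg fun x _ => (dgr_gden_pos v hv _).le)) hI]
  have hs : Function.support (fun p : (G.V → ℝ) × ℝ => Real.exp (s / 2 * enR G p.1) * ∏ x, gden v (σ x - p.1 x - p.2)) = Set.univ := by
    ext p
    simp only [Function.mem_support, Set.mem_univ, iff_true]
    exact (mul_pos (Real.exp_pos _) (Finset.prod_pos fun x _ => dgr_gden_pos v hv _)).ne'
  rw [hs, ← Set.univ_prod_univ, Measure.prod_prod, measure_univ, one_mul, Real.volume_univ]
  exact ENNReal.zero_lt_top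

/-! ## 5. the theorem -/

/-- the free constant absorbs the mean of `σ` -/
theorem dgr_refW_const (v s : ℝ) (C1 : Matrix G.V G.V ℝ) (σ : G.V → ℝ) (m : ℝ) :
    refW G v s C1 (fun x => σ x - m) = refW G v s C1 σ := by
  unfold refW
  rw [← integral_add_right_eq_self (fun t : ℝ => ∫ φ, Real.exp (s / 2 * enR G φ) * ∏ x, gden v (σ x - φ x - t) ∂(gauss G C1)) m]
  refine integral_congr_ae (Eventually.of_forall fun t => ?_)
  simp only []
  refine integral_congr_ae (Eventually.of_forall fun φ => ?_)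
  simp only []
  congr 1
  refine Finset.prod_congr rfl fun x _ => ?_
  congr 1
  ring

/-- scalar facts: `d = v x (1 - s τ) + τ > 0`, `κ' x ≤ x (1 - s τ)/d` -/
theorem dgr_scal (v s τ x : ℝ) (hv : 0 < v) (hs : |s| ≤ 1 / 4) (hτ0 : 0 ≤ τ) (hτ1 : τ ≤ 1) (hx0 : 0 < x) (hx8 : x ≤ 8) :
    0 < v * x * (1 - s * τ) + τ ∧ 1 / (2 * (12 * v + 1)) * x ≤ x * (1 - s * τ) / (v * x * (1 - s * τ) + τ) := by
  obtain ⟨hs1, hs2⟩ := abs_le.1 hs
  have h1 : 3 / 4 ≤ 1 - s * τ := by nlinarith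
  have h2 : 1 - s * τ ≤ 5 / 4 := by nlinarith
  have hvx : 0 < v * x := mul_pos hv hx0
  have hd : 0 < v * x * (1 - s * τ) + τ := by
    have : 0 < v * x * (1 - s * τ) := mul_pos hvx (by linarith)
    linarith
  refine ⟨hd, ?_⟩
  have hd2 : v * x * (1 - s * τ) + τ ≤ 10 * v + 1 := by
    have e1 : v * x * (1 - s * τ) ≤ v * x * (5 / 4) := mul_le_mul_of_nonneg_left h2 hvx.le
    have e2 : v * x ≤ v * 8 := mul_le_mul_of_nonneg_left hx8 hv.le
    linarith
  rw [le_div_iff₀ hd, div_mul_eq_mul_div, div_mul_eq_mul_div, div_le_iff₀ (by positivity)]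
  have e3 : 1 * x * (v * x * (1 - s * τ) + τ) ≤ 1 * x * (10 * v + 1) := mul_le_mul_of_nonneg_left hd2 (by linarith)
  have e4 : x * (3 / 4) * (2 * (12 * v + 1)) ≤ x * (1 - s * τ) * (2 * (12 * v + 1)) :=
    mul_le_mul_of_nonneg_right (mul_le_mul_of_nonneg_left h1 hx0.le) (by positivity)
  nlinarith

theorem dgr_scal1 (v s τ x d : ℝ) (hx : x ≠ 0) (hd : d ≠ 0) (hdd : d = v * x * (1 - s * τ) + τ) :
    1 - τ / x * (x / d) = v * (x / d - s * (x * (τ / x * (x / d)))) := by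
  have e : τ / x * (x / d) = τ / d := by field_simp
  rw [e]
  field_simp
  rw [hdd]
  ring

theorem dgr_scal2 (v s τ x d κ' : ℝ) (hx : x ≠ 0) (hd : d ≠ 0) (hdd : d = v * x * (1 - s * τ) + τ) :
    1 - τ / x * (x / d) = v * (κ' * x + (x * (1 - s * τ) / d - κ' * x)) := by
  have e : τ / x * (x / d) = τ / d := by field_simp
  rw [e]
  field_simp
  rw [hdd]
  ring

theorem ref_gauss_pf (_hG : G.bc = BC.per) (u : ℕ) (hu : 1 ≤ u) (C1 : Matrix G.V G.V ℝ) (hC : IsRef G u C1) (v s : ℝ) (hv : 0 < v) (hs : |s| ≤ 1 / 4) :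
    0 < refW G v s C1 0 ∧ ∃ Rw : Matrix G.V G.V ℝ, ∀ σ : G.V → ℝ,
      refW G v s C1 σ = refW G v s C1 0 * Real.exp (-(1 / (2 * (12 * v + 1))) / 2 * enR G σ - (1 / 2) * ∑ o, (Rw.mulVec σ o) ^ 2) := by
  refine ⟨dgr_refW_pos u hu C1 hC v s hv hs 0, ?_⟩
  obtain ⟨c, hc, hm⟩ := dgr_ref_mul hC
  obtain ⟨τ, hτ⟩ : ∃ τ : ℝ → ℝ, τ = fun x => (Fam.entry.termP u).eval x := ⟨_, rfl⟩
  obtain ⟨κ', hκ'⟩ : ∃ κ' : ℝ, κ' = 1 / (2 * (12 * v + 1)) := ⟨_, rfl⟩
  obtain ⟨K, hK⟩ := Ker.ker_exists_mul G (fun x => x / (v * x * (1 - s * τ x) + τ x))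
  obtain ⟨Rw, hRw⟩ := Ker.ker_exists_mul G (fun x => Real.sqrt (x * (1 - s * τ x) / (v * x * (1 - s * τ x) + τ x) - κ' * x))
  have hCK := dgr_mul_mul hm hK
  have hB := Ker.ker_mul_sub (Ker.ker_mul_sub (Ker.ker_mul_one G) (Ker.ker_cmat_mul G 1)) hCK
  -- (M1)
  have M1 : 1 - Ker.cmat G 1 - C1 * K = v • (K - s • (lap G * (C1 * K))) := by
    refine Ker.ker_mul_ext hB (Ker.ker_mul_smul v (Ker.ker_mul_sub hK (Ker.ker_mul_smul s (Ker.ker_mul_lap hCK)))) fun k => ?_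
    have h0 := Ker.ker_lam_nonneg (Ker.per G) k
    have h8 := Ker.ker_lam_le (Ker.per G) k
    generalize Ker.lam (Ker.per G) k = x at h0 h8 ⊢
    by_cases hx : x = 0
    · subst hx
      simp
    · have ht := dgr_tau u hu x h0 h8
      have hd := (dgr_scal v s (τ x) x hv hs (by rw [hτ]; exact ht.1) (by rw [hτ]; exact ht.2) (lt_of_le_of_ne h0 (Ne.symm hx)) h8).1
      simp only [Ker.tm, hx, if_false, add_zero, sub_zero]
      have e : (Fam.entry.termP u).eval x = τ x := by rw [hτ]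
      rw [e]
      exact dgr_scal1 v s (τ x) x _ hx hd.ne' rfl
  -- (M2)
  have M2 : 1 - Ker.cmat G 1 - C1 * K = v • (κ' • lap G + Rw * Rw) := by
    refine Ker.ker_mul_ext hB (Ker.ker_mul_smul v (Ker.ker_mul_add (Ker.ker_mul_smul κ' (Ker.ker_lap_mul G)) (dgr_mul_mul hRw hRw))) fun k => ?_
    have h0 := Ker.ker_lam_nonneg (Ker.per G) k
    have h8 := Ker.ker_lam_le (Ker.per G) k
    generalize Ker.lam (Ker.per G) k = x at h0 h8 ⊢
    by_cases hx : x = 0
    · subst hx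
      simp
    · have ht := dgr_tau u hu x h0 h8
      obtain ⟨hd, hq⟩ := dgr_scal v s (τ x) x hv hs (by rw [hτ]; exact ht.1) (by rw [hτ]; exact ht.2) (lt_of_le_of_ne h0 (Ne.symm hx)) h8
      simp only [Ker.tm, hx, if_false, add_zero, sub_zero]
      rw [Real.mul_self_sqrt (by rw [hκ']; linarith)]
      have e : (Fam.entry.termP u).eval x = τ x := by rw [hτ]
      rw [e]
      exact dgr_scal2 v s (τ x) x _ κ' hx hd.ne' rfl
  have hB1 : (1 - Ker.cmat G 1 - C1 * K).mulVec (fun _ => 1) = 0 := Ker.ker_mulVec_one_of_zero hB (by simp)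
  have hBs := Ker.ker_mul_symm hB
  refine ⟨Rw, fun σ => ?_⟩
  obtain ⟨B, hBd⟩ : ∃ B, B = 1 - Ker.cmat G 1 - C1 * K := ⟨_, rfl⟩
  rw [← hBd] at M1 M2 hB1 hBs
  obtain ⟨m, hmd⟩ : ∃ m : ℝ, m = 1 / (G.M : ℝ) ^ 2 * ∑ x, σ x := ⟨_, rfl⟩
  obtain ⟨σ0, hσ0⟩ : ∃ σ0 : G.V → ℝ, σ0 = fun x => σ x - m := ⟨_, rfl⟩
  have hBσ : σ0 - C1.mulVec (K.mulVec σ) = B.mulVec σ := by
    rw [hBd, Matrix.sub_mulVec, Matrix.sub_mulVec, Matrix.one_mulVec, Ker.ker_cmat_mulVec, ← hmd, Matrix.mulVec_mulVec, hσ0]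
    rfl
  have hsum : ∑ x, B.mulVec σ x = 0 := by
    have h1 : ∑ x, B.mulVec σ x = (fun _ => (1 : ℝ)) ⬝ᵥ B.mulVec σ := by simp [dotProduct]
    rw [h1, Matrix.dotProduct_mulVec, ← Matrix.mulVec_transpose, hBs, hB1, zero_dotProduct]
  have hsh := dgr_shift C1 hC.psd v s hv σ0 (K.mulVec σ) (by
      rw [hBσ, M1, Matrix.smul_mulVec, Matrix.sub_mulVec, Matrix.smul_mulVec, ← Matrix.mulVec_mulVec, ← Matrix.mulVec_mulVec]) (by
      rw [hBσ]; exact hsum)
  rw [hBσ] at hsh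
  have hexp : -(B.mulVec σ ⬝ᵥ σ0) / (2 * v) = -(1 / (2 * (12 * v + 1))) / 2 * enR G σ - (1 / 2) * ∑ o, (Rw.mulVec σ o) ^ 2 := by
    have h1 : B.mulVec σ ⬝ᵥ σ0 = B.mulVec σ ⬝ᵥ σ := by
      have : σ0 = σ - m • (fun _ => (1 : ℝ)) := by
        rw [hσ0]; funext x; simp
      rw [this, dotProduct_sub, dotProduct_smul]
      have h2 : B.mulVec σ ⬝ᵥ (fun _ => (1 : ℝ)) = 0 := by
        rw [← hsum]; simp [dotProduct]
      rw [h2]; simp
    rw [h1, dgr_sq_sum hRw, dotProduct_comm, M2, Matrix.smul_mulVec, Matrix.add_mulVec, Matrix.smul_mulVec, dotProduct_smul, dotProduct_add,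
      dotProduct_smul, ← hκ', enR]
    simp only [smul_eq_mul]
    field_simp
    ring
  rw [← dgr_refW_const v s C1 σ m, ← hσ0, ← hexp, mul_comm]
  unfold refW
  rw [← integral_const_mul]
  exact integral_congr_ae (Eventually.of_forall fun t => hsh t)

end

end Claimed.Agent.R285.BC2
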