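import Claimed.Agent.R285.Dg.Defs
import Claimed.Agent.R285.Ker.Cac

/-!
# ROW 285, unit BC2, file Dg/RefInt: integrability of the reference integrand (contract U3 `Z0_integrable` of `Dg/Ref.lean`)            (architect + prover helper90)

`|Z₀ (φ + ζ)| ≤ (1 + dw)^{|V|} e^{|s| (φ, Aφ)} e^{|s| (ζ, Aζ)}`, `(ζ, Aζ) = ∑_k ⟨B_k, ζ⟩²` (`B_k` = normalised gradients), and `E e^{a ∑_k ⟨B_k,ζ⟩²} < ∞` for `4 a ≤ 1` by `Reg.reg_gauss_quad` with `Λ = 1`: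
`Cov (⟨B_k, ζ⟩)_k ≤ 1` follows from `C A C ≤ C` (`Ker.kcac_gag_mul`, `Ker.kcac_sym`) and Cauchy-Schwarz; the constant mode of `C₁` is not seen by gradients.   No sorry.
-/

set_option autoImplicit false

namespace Claimed.Agent.R285.BC2

open scoped BigOperators ENNReal NNReal
open MeasureTheory ProbabilityTheory Polynomial Filter Topology Matrix
open Claimed.Agent.R285.RG Claimed.Agent.R285.B8

noncomputable section

variable {G : Geom}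

/-- the normalised gradient functionals -/
def zgB (G : Geom) (k : G.V × Fin 4) : G.V → ℝ := (Real.sqrt 2)⁻¹ • (Pi.single (Reg.regNb G k.1 k.2) 1 - Pi.single k.1 1)

theorem zgB_forced (G : Geom) (k : G.V × Fin 4) :
    zgB G k = (Real.sqrt 2)⁻¹ • (Pi.single (Reg.regNb G k.1 k.2) 1 - Pi.single k.1 1) := zgB.eq_1 G k

theorem zg_dot (k : G.V × Fin 4) (g : G.V → ℝ) : zgB G k ⬝ᵥ g = (Real.sqrt 2)⁻¹ * (g (Reg.regNb G k.1 k.2) - g k.1) := by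
  unfold zgB
  rw [smul_dotProduct, sub_dotProduct, single_dotProduct, single_dotProduct]
  simp

theorem zg_sum_zero (k : G.V × Fin 4) : ∑ x, zgB G k x = 0 := by
  have h := zg_dot k (fun _ => (1 : ℝ))
  simp only [sub_self, mul_zero] at h
  rw [← h]
  simp [dotProduct]

/-- the Dirichlet form is the sum of the squares of the gradients -/
theorem zg_sq_sum (g : G.V → ℝ) : ∑ k, (zgB G k ⬝ᵥ g) ^ 2 = g ⬝ᵥ (lap G).mulVec g := by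
  rw [Obs.ov_lap_form, Fintype.sum_prod_type, Finset.mul_sum]
  refine Finset.sum_congr rfl fun v _ => ?_
  rw [Finset.mul_sum]
  refine Finset.sum_congr rfl fun e _ => ?_
  rw [zg_dot, mul_pow, inv_pow, Real.sq_sqrt (by norm_num)]
  ring

/-- `C A C ≤ C` for a terminal covariance of the entry family -/
theorem zg_cac (u : ℕ) (hu : 1 ≤ u) {Γ : Matrix G.V G.V ℝ} (hT : IsTerminal G Fam.entry u Γ) (x : G.V → ℝ) :
    (Γ.mulVec x) ⬝ᵥ (lap G).mulVec (Γ.mulVec x) ≤ x ⬝ᵥ Γ.mulVec x := by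
  have hΓ := Ker.ker_terminal_mul Ker.ker_entry_adm u hT
  have h1 := Ker.ker_mul_sub hΓ (Ker.kcac_gag_mul hT)
  have hpsd := Ker.ker_psd h1 (fun k => (Ker.kcac_sym u hu _ (Ker.ker_lam_nonneg _ k) (Ker.ker_lam_le _ k)).1)
  have h2 := Reg.reg_qf_nonneg hpsd x
  unfold Reg.regQf at h2
  rw [Matrix.sub_mulVec, dotProduct_sub] at h2
  have hs : Γᵀ = Γ := Ker.ker_mul_symm hΓ
  have e : x ⬝ᵥ (Γ * lap G * Γ).mulVec x = (Γ.mulVec x) ⬝ᵥ (lap G).mulVec (Γ.mulVec x) := by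
    rw [← Matrix.mulVec_mulVec, ← Matrix.mulVec_mulVec, Matrix.dotProduct_mulVec, ← Matrix.mulVec_transpose, hs]
  linarith

/-- the covariance of the gradients of the smooth field is at most `1` -/
theorem zg_op (u : ℕ) (hu : 1 ≤ u) {C1 : Matrix G.V G.V ℝ} (hC : IsRef G u C1) (c : G.V × Fin 4 → ℝ) :
    Reg.regQf C1 (∑ k, c k • zgB G k) ≤ 1 * ∑ k, c k ^ 2 := by
  obtain ⟨Γ, hT, hΓ⟩ := hC.mulVec_eq
  set b : G.V → ℝ := ∑ k, c k • zgB G k with hb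
  have hb0 : ∑ x, b x = 0 := by
    rw [hb]
    simp only [Finset.sum_apply, Pi.smul_apply, smul_eq_mul]
    rw [Finset.sum_comm]
    refine Finset.sum_eq_zero fun k _ => ?_
    rw [← Finset.mul_sum, zg_sum_zero, mul_zero]
  have e1 : Reg.regQf C1 b = b ⬝ᵥ Γ.mulVec b := by
    unfold Reg.regQf; rw [hΓ b hb0]
  have e2 : b ⬝ᵥ Γ.mulVec b = ∑ k, c k * (zgB G k ⬝ᵥ Γ.mulVec b) := by
    conv_lhs => rw [hb]
    rw [sum_dotProduct]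
    exact Finset.sum_congr rfl fun k _ => smul_dotProduct _ _ _
  have cs : (∑ k, c k * (zgB G k ⬝ᵥ Γ.mulVec b)) ^ 2 ≤ (∑ k, c k ^ 2) * ∑ k, (zgB G k ⬝ᵥ Γ.mulVec b) ^ 2 :=
    Finset.sum_mul_sq_le_sq_mul_sq _ _ _
  have cac := zg_cac u hu hT b
  have q0 : 0 ≤ b ⬝ᵥ Γ.mulVec b := Reg.reg_qf_nonneg hT.psd b
  have U0 : 0 ≤ ∑ k, c k ^ 2 := Finset.sum_nonneg fun _ _ => sq_nonneg _
  rw [zg_sq_sum, ← e2] at cs
  have h3 : (b ⬝ᵥ Γ.mulVec b) ^ 2 ≤ (∑ k, c k ^ 2) * (b ⬝ᵥ Γ.mulVec b) := cs.trans (mul_le_mul_of_nonneg_left cac U0)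
  rw [e1, one_mul]
  by_contra hlt
  push Not at hlt
  have hq : 0 < b ⬝ᵥ Γ.mulVec b := lt_of_le_of_lt U0 hlt
  have := mul_lt_mul_of_pos_right hlt hq
  nlinarith

/-- exponential moments of the Dirichlet form -/
theorem zg_exp_moment (u : ℕ) (hu : 1 ≤ u) {C1 : Matrix G.V G.V ℝ} (hC : IsRef G u C1) (a : ℝ) (ha : 0 ≤ a) (ha4 : a ≤ 1 / 4) :
    ∫⁻ ζ, ENNReal.ofReal (Real.exp (a * ∑ k, (zgB G k ⬝ᵥ ζ) ^ 2)) ∂(gauss G C1) ≠ ⊤ := by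
  have h := Reg.reg_gauss_quad hC.psd (zgB G) (Λ := 1) (τ := ∑ k, Reg.regQf C1 (zgB G k)) (a := a) (zg_op u hu hC) le_rfl ha (by linarith)
  exact ne_top_of_le_ne_top ENNReal.ofReal_ne_top h

theorem zg_enC_real (ψ : G.V → ℝ) : enC G (toC ψ) = ((∑ k, (zgB G k ⬝ᵥ ψ) ^ 2 : ℝ) : ℂ) := by
  rw [zg_sq_sum, Obs.ov_lap_form]
  unfold enC
  push_cast
  congr 1
  refine Finset.sum_congr rfl fun v _ => Finset.sum_congr rfl fun e _ => ?_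
  congr 1
  unfold dif Geom.lift Reg.regNb toC
  rw [Ker.ker_pi_iota]

theorem zg_add_le (φ ζ : G.V → ℝ) :
    ∑ k, (zgB G k ⬝ᵥ (φ + ζ)) ^ 2 ≤ 2 * ∑ k, (zgB G k ⬝ᵥ φ) ^ 2 + 2 * ∑ k, (zgB G k ⬝ᵥ ζ) ^ 2 := by
  rw [Finset.mul_sum, Finset.mul_sum, ← Finset.sum_add_distrib]
  refine Finset.sum_le_sum fun k _ => ?_
  rw [dotProduct_add]
  nlinarith [sq_nonneg (zgB G k ⬝ᵥ φ - zgB G k ⬝ᵥ ζ)]

/-- **(U3)** integrability of the reference integrand -/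
theorem zg_Z0_integrable (u : ℕ) (hu : 1 ≤ u) (C1 : Matrix G.V G.V ℝ) (hC : IsRef G u C1) (ω : ℝ) (h0 : ℝ≥0) (dw : ℝ)
    (w : ℂ → ℂ) (hw : SiteOK ω h0 dw w) (s : ℝ) (hs : |s| ≤ 1 / 4) (φ : G.V → ℝ) :
    Integrable (fun ζ => Z0 G w s (toC φ + toC ζ)) (gauss G C1) := by
  have hz : Continuous (fun ζ : G.V → ℝ => toC φ + toC ζ) := continuous_const.add Hol.toC_continuous
  have hE : Continuous (enC G) := by
    unfold enC dif Geom.lift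
    fun_prop
  have hP : Continuous (fun z : G.V → ℂ => ∏ x, w (z x)) :=
    continuous_finsetProd _ fun x _ => hw.hol.continuous.comp (continuous_apply x)
  have hZ : Continuous (Z0 G w s) := by
    unfold Z0
    exact (Complex.continuous_exp.comp (continuous_const.mul hE)).mul hP
  refine ⟨(hZ.comp hz).aestronglyMeasurable, ?_⟩
  set K : ℝ := Real.exp (|s| * ∑ k, (zgB G k ⬝ᵥ φ) ^ 2) * (1 + dw) ^ Fintype.card G.V with hK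
  have hw1 : ∀ y : ℝ, ‖w (y : ℂ)‖ ≤ 1 + dw := fun y => by
    have h1 := hw.small (y : ℂ) (by simp)
    calc ‖w (y : ℂ)‖ = ‖1 + (w (y : ℂ) - 1)‖ := by congr 1; ring
      _ ≤ ‖(1 : ℂ)‖ + ‖w (y : ℂ) - 1‖ := norm_add_le _ _
      _ ≤ 1 + dw := by rw [norm_one]; linarith
  have hbd : ∀ ζ : G.V → ℝ, ‖Z0 G w s (toC φ + toC ζ)‖ ≤ K * Real.exp (|s| * ∑ k, (zgB G k ⬝ᵥ ζ) ^ 2) := by
    intro ζ
    have e : toC φ + toC ζ = toC (φ + ζ) := (Hol.toC_add φ ζ).symm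
    rw [e]
    unfold Z0
    rw [norm_mul, zg_enC_real, Complex.norm_exp, norm_prod]
    have h1 : ((s : ℂ) / 2 * ((∑ k, (zgB G k ⬝ᵥ (φ + ζ)) ^ 2 : ℝ) : ℂ)).re = s / 2 * ∑ k, (zgB G k ⬝ᵥ (φ + ζ)) ^ 2 := by
      have : (s : ℂ) / 2 * ((∑ k, (zgB G k ⬝ᵥ (φ + ζ)) ^ 2 : ℝ) : ℂ) = ((s / 2 * ∑ k, (zgB G k ⬝ᵥ (φ + ζ)) ^ 2 : ℝ) : ℂ) := by
        push_cast; ring
      rw [this, Complex.ofReal_re]
    rw [h1]
    have hQ0 : 0 ≤ ∑ k, (zgB G k ⬝ᵥ (φ + ζ)) ^ 2 := Finset.sum_nonneg fun _ _ => sq_nonneg _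
    have h2 : s / 2 * ∑ k, (zgB G k ⬝ᵥ (φ + ζ)) ^ 2 ≤ |s| * ∑ k, (zgB G k ⬝ᵥ φ) ^ 2 + |s| * ∑ k, (zgB G k ⬝ᵥ ζ) ^ 2 := by
      have h3 := zg_add_le φ ζ
      have h4 : s / 2 * ∑ k, (zgB G k ⬝ᵥ (φ + ζ)) ^ 2 ≤ |s| / 2 * ∑ k, (zgB G k ⬝ᵥ (φ + ζ)) ^ 2 :=
        mul_le_mul_of_nonneg_right (by linarith [le_abs_self s]) hQ0
      have h5 : |s| / 2 * ∑ k, (zgB G k ⬝ᵥ (φ + ζ)) ^ 2 ≤ |s| / 2 * (2 * ∑ k, (zgB G k ⬝ᵥ φ) ^ 2 + 2 * ∑ k, (zgB G k ⬝ᵥ ζ) ^ 2) :=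
        mul_le_mul_of_nonneg_left h3 (by positivity)
      linarith
    have h6 : ∏ x, ‖w (toC (φ + ζ) x)‖ ≤ (1 + dw) ^ Fintype.card G.V := by
      calc ∏ x, ‖w (toC (φ + ζ) x)‖ ≤ ∏ _x : G.V, (1 + dw) :=
            Finset.prod_le_prod (fun _ _ => norm_nonneg _) fun x _ => hw1 _
        _ = (1 + dw) ^ Fintype.card G.V := by rw [Finset.prod_const, Finset.card_univ]
    calc Real.exp (s / 2 * ∑ k, (zgB G k ⬝ᵥ (φ + ζ)) ^ 2) * ∏ x, ‖w (toC (φ + ζ) x)‖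
        ≤ Real.exp (|s| * ∑ k, (zgB G k ⬝ᵥ φ) ^ 2 + |s| * ∑ k, (zgB G k ⬝ᵥ ζ) ^ 2) * (1 + dw) ^ Fintype.card G.V :=
          mul_le_mul (Real.exp_le_exp.2 h2) h6 (Finset.prod_nonneg fun _ _ => norm_nonneg _) (Real.exp_pos _).le
      _ = K * Real.exp (|s| * ∑ k, (zgB G k ⬝ᵥ ζ) ^ 2) := by rw [Real.exp_add, hK]; ring
  have hK0 : 0 ≤ K := by
    have h1 : 0 ≤ 1 + dw := le_trans (norm_nonneg _) (hw1 0)
    positivity
  have hfin := zg_exp_moment u hu hC |s| (abs_nonneg s) hs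
  show ∫⁻ ζ, ‖Z0 G w s (toC φ + toC ζ)‖ₑ ∂(gauss G C1) < ⊤
  calc ∫⁻ ζ, ‖Z0 G w s (toC φ + toC ζ)‖ₑ ∂(gauss G C1)
      ≤ ∫⁻ ζ, ENNReal.ofReal K * ENNReal.ofReal (Real.exp (|s| * ∑ k, (zgB G k ⬝ᵥ ζ) ^ 2)) ∂(gauss G C1) := by
        refine lintegral_mono fun ζ => ?_
        rw [← ofReal_norm, ← ENNReal.ofReal_mul hK0]
        exact ENNReal.ofReal_le_ofReal (hbd ζ)
    _ = ENNReal.ofReal K * ∫⁻ ζ, ENNReal.ofReal (Real.exp (|s| * ∑ k, (zgB G k ⬝ᵥ ζ) ^ 2)) ∂(gauss G C1) := by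
        refine lintegral_const_mul _ ?_
        refine ENNReal.measurable_ofReal.comp (Real.measurable_exp.comp (measurable_const.mul ?_))
        refine Finset.measurable_sum _ fun k _ => ?_
        have : Continuous fun ζ : G.V → ℝ => zgB G k ⬝ᵥ ζ := by
          unfold dotProduct; fun_prop
        exact (this.pow 2).measurable
    _ < ⊤ := ENNReal.mul_lt_top ENNReal.ofReal_lt_top (lt_top_iff_ne_top.2 hfin)

end

end Claimed.Agent.R285.BC2
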