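import Claimed.Agent.R285.Dg.Src

/-!
# ROW 285, unit BC2 (`b_c < oo`), file Dg/SrcTop: the GLUE of `ref_source` (R1) from the leaves of `Dg/Src.lean`, `Dg/Pure2.lean`      (helper12)
No sorry in this file.
-/

set_option autoImplicit false

namespace Claimed.Agent.R285.BC2

open scoped BigOperators ENNReal NNReal
open MeasureTheory ProbabilityTheory Polynomial Filter Topology
open Claimed.Agent.R285.RG Claimed.Agent.R285.B8

noncomputable section

variable {G : Geom}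

/-- the master identity -/
theorem dgs_master (v ω s : ℝ) (hv : 0 < v) (hω : 0 < ω) (C1 : Matrix G.V G.V ℝ) (hC : C1.PosSemidef) (f : G.V → ℝ) (hf : ∑ x, f x = 0)
    (hint : ∀ ψ : G.V → ℝ, Integrable (fun ζ => Z0 G (wt1 v ω) (s : ℂ) (toC ψ + toC ζ)) (gauss G C1)) :
    ∑' h : Pin G, ENNReal.ofReal (Real.exp (∑ x, f x * (ω * (h.1 x : ℝ)))) * ∫⁻ t, rIn G v s C1 0 (fun x => ω * (h.1 x : ℝ)) t
      = ENNReal.ofReal (Real.exp (enE G v s C1 f)) * ((ENNReal.ofReal (ω ^ Fintype.card G.V))⁻¹ *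
        ∫⁻ t in Set.Ioc 0 ω, ENNReal.ofReal ((conv C1 (Z0 G (wt1 v ω) (s : ℂ)) (toC fun x => bgV G v s C1 f x + t)).re)) := by
  have h1 : ∀ h : G.V → ℤ, ENNReal.ofReal (Real.exp (∑ x, f x * (ω * (h x : ℝ)))) * ∫⁻ t, rIn G v s C1 0 (fun x => ω * (h x : ℝ)) t
      = ENNReal.ofReal (Real.exp (enE G v s C1 f)) * ∫⁻ t, rIn G v s C1 (bgV G v s C1 f) (fun x => ω * (h x : ℝ)) t := by
    intro h
    rw [← lintegral_const_mul' _ _ ENNReal.ofReal_ne_top, ← lintegral_const_mul' _ _ ENNReal.ofReal_ne_top]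
    exact lintegral_congr fun t => dgs_cm v s hv C1 hC f hf _ t
  simp_rw [h1]
  rw [ENNReal.tsum_mul_left]
  congr 1
  have hN : (ENNReal.ofReal (ω ^ Fintype.card G.V))⁻¹ ≠ ∞ := by
    rw [Ne, ENNReal.inv_eq_top, ENNReal.ofReal_eq_zero, not_le]
    positivity
  rw [dgq_unfold (org G) ω hω (fun h t => rIn G v s C1 (bgV G v s C1 f) (fun x => ω * (h x : ℝ)) t) ?_]
  · rw [← lintegral_tsum fun h => (dgs_meas v s C1 _ _).aemeasurable, ← lintegral_const_mul' _ _ hN]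
    exact lintegral_congr fun t => dgs_comb v ω hv hω s C1 _ t (hint _)
  · intro h n t
    unfold rIn
    refine lintegral_congr fun φ => ?_
    congr 2
    refine Finset.prod_congr rfl fun x _ => ?_
    congr 1
    push_cast
    ring

/-- the interaction integral of the comb is nonnegative -/
theorem dgs_conv_nonneg (v ω : ℝ) (hv : 0 < v) (hω : 0 < ω) (s : ℝ) (C1 : Matrix G.V G.V ℝ) (ψ : G.V → ℝ) :
    0 ≤ (conv C1 (Z0 G (wt1 v ω) (s : ℂ)) (toC ψ)).re := by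
  have h1 : conv C1 (Z0 G (wt1 v ω) (s : ℂ)) (toC ψ) = ((∫ ζ, Zr G v ω s (ψ + ζ) ∂(gauss G C1) : ℝ) : ℂ) := by
    unfold conv
    refine Eq.trans ?_ integral_complex_ofReal
    refine integral_congr_ae (Filter.Eventually.of_forall fun ζ => ?_)
    have h2 : toC ψ + toC ζ = toC (ψ + ζ) := by
      funext x
      simp [toC]
    simp only [h2]
    exact dgs_Z0_real v ω hv hω s (ψ + ζ)
  rw [h1, Complex.ofReal_re]
  exact integral_nonneg fun ζ => dgs_Zr_nonneg v ω hω s _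

/-- **(R1)** with the two integrability facts as hypotheses -/
theorem ref_source_pf (C1 : Matrix G.V G.V ℝ) (hC : C1.PosSemidef) (v ω s : ℝ) (hv : 0 < v) (hω : 0 < ω)
    (hfin : ∫⁻ φ, ENNReal.ofReal (Real.exp (s / 2 * enR G φ)) ∂(gauss G C1) ≠ ∞)
    (hint : ∀ ψ : G.V → ℝ, Integrable (fun ζ => Z0 G (wt1 v ω) (s : ℂ) (toC ψ + toC ζ)) (gauss G C1))
    (f : G.V → ℝ) (hf : ∑ x, f x = 0) (lo hi : ℝ)
    (H : ∀ t : ℝ, lo ≤ (conv C1 (Z0 G (wt1 v ω) s) (toC fun x => bgV G v s C1 f x + t)).re ∧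
      (conv C1 (Z0 G (wt1 v ω) s) (toC fun x => bgV G v s C1 f x + t)).re ≤ hi) :
    Summable (fun h : Pin G => Real.exp (∑ x, f x * (ω * (h.1 x : ℝ))) * refW G v s C1 fun x => ω * (h.1 x : ℝ)) ∧
    Real.exp (enE G v s C1 f) * (ω * (ω ^ Fintype.card G.V)⁻¹) * lo
      ≤ ∑' h : Pin G, Real.exp (∑ x, f x * (ω * (h.1 x : ℝ))) * refW G v s C1 (fun x => ω * (h.1 x : ℝ)) ∧
    ∑' h : Pin G, Real.exp (∑ x, f x * (ω * (h.1 x : ℝ))) * refW G v s C1 (fun x => ω * (h.1 x : ℝ))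
      ≤ Real.exp (enE G v s C1 f) * (ω * (ω ^ Fintype.card G.V)⁻¹) * hi := by
  have hM := dgs_master v ω s hv hω C1 hC f hf hint
  obtain ⟨a, ha⟩ : ∃ a : Pin G → ℝ≥0∞, a = fun h => ENNReal.ofReal (Real.exp (∑ x, f x * (ω * (h.1 x : ℝ)))) *
      ∫⁻ t, rIn G v s C1 0 (fun x => ω * (h.1 x : ℝ)) t := ⟨_, rfl⟩
  obtain ⟨I, hI⟩ : ∃ I : ℝ≥0∞, I = ∫⁻ t in Set.Ioc 0 ω,
      ENNReal.ofReal ((conv C1 (Z0 G (wt1 v ω) (s : ℂ)) (toC fun x => bgV G v s C1 f x + t)).re) := ⟨_, rfl⟩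
  have hT : ∀ h : Pin G, Real.exp (∑ x, f x * (ω * (h.1 x : ℝ))) * refW G v s C1 (fun x => ω * (h.1 x : ℝ)) = (a h).toReal := by
    intro h
    rw [ha, ENNReal.toReal_mul, ENNReal.toReal_ofReal (Real.exp_pos _).le, dgs_refW_eq v s hv C1 hfin]
  have hhi0 : 0 ≤ hi := (dgs_conv_nonneg v ω hv hω s C1 _).trans (H 0).2
  have hvol : volume (Set.Ioc 0 ω) = ENNReal.ofReal ω := by rw [Real.volume_Ioc, sub_zero]
  have hIhi : I ≤ ENNReal.ofReal hi * ENNReal.ofReal ω := by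
    rw [hI, ← hvol, ← setLIntegral_const]
    exact lintegral_mono fun t => ENNReal.ofReal_le_ofReal (H t).2
  have hIlo : ENNReal.ofReal lo * ENNReal.ofReal ω ≤ I := by
    rw [hI, ← hvol, ← setLIntegral_const]
    exact lintegral_mono fun t => ENNReal.ofReal_le_ofReal (H t).1
  have hItop : I ≠ ∞ := ne_top_of_le_ne_top (ENNReal.mul_ne_top ENNReal.ofReal_ne_top ENNReal.ofReal_ne_top) hIhi
  have hN : (ENNReal.ofReal (ω ^ Fintype.card G.V))⁻¹ ≠ ∞ := by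
    rw [Ne, ENNReal.inv_eq_top, ENNReal.ofReal_eq_zero, not_le]
    positivity
  have hS : ∑' h, a h = ENNReal.ofReal (Real.exp (enE G v s C1 f)) * ((ENNReal.ofReal (ω ^ Fintype.card G.V))⁻¹ * I) := by
    rw [ha, hI]; exact hM
  have hStop : ∑' h, a h ≠ ∞ := by
    rw [hS]
    exact ENNReal.mul_ne_top ENNReal.ofReal_ne_top (ENNReal.mul_ne_top hN hItop)
  have hsum : ∑' h : Pin G, (a h).toReal = Real.exp (enE G v s C1 f) * ((ω ^ Fintype.card G.V)⁻¹ * I.toReal) := by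
    rw [← ENNReal.tsum_toReal_eq (ENNReal.ne_top_of_tsum_ne_top hStop), hS, ENNReal.toReal_mul, ENNReal.toReal_mul,
      ENNReal.toReal_ofReal (Real.exp_pos _).le, ENNReal.toReal_inv, ENNReal.toReal_ofReal (by positivity)]
  have hI1 : I.toReal ≤ hi * ω := by
    have := ENNReal.toReal_mono (ENNReal.mul_ne_top ENNReal.ofReal_ne_top ENNReal.ofReal_ne_top) hIhi
    rwa [ENNReal.toReal_mul, ENNReal.toReal_ofReal hhi0, ENNReal.toReal_ofReal hω.le] at this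
  have hI2 : lo * ω ≤ I.toReal := by
    have := ENNReal.toReal_mono hItop hIlo
    rw [ENNReal.toReal_mul, ENNReal.toReal_ofReal hω.le] at this
    refine le_trans (mul_le_mul_of_nonneg_right ?_ hω.le) this
    rw [ENNReal.toReal_ofReal']
    exact le_max_left _ _
  simp_rw [hT]
  rw [hsum]
  have hpos : 0 ≤ Real.exp (enE G v s C1 f) * (ω ^ Fintype.card G.V)⁻¹ := by positivity
  refine ⟨ENNReal.summable_toReal hStop, ?_, ?_⟩
  · have := mul_le_mul_of_nonneg_left hI2 hpos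
    calc Real.exp (enE G v s C1 f) * (ω * (ω ^ Fintype.card G.V)⁻¹) * lo
        = Real.exp (enE G v s C1 f) * (ω ^ Fintype.card G.V)⁻¹ * (lo * ω) := by ring
      _ ≤ Real.exp (enE G v s C1 f) * (ω ^ Fintype.card G.V)⁻¹ * I.toReal := this
      _ = _ := by ring
  · have := mul_le_mul_of_nonneg_left hI1 hpos
    calc Real.exp (enE G v s C1 f) * ((ω ^ Fintype.card G.V)⁻¹ * I.toReal)
        = Real.exp (enE G v s C1 f) * (ω ^ Fintype.card G.V)⁻¹ * I.toReal := by ring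
      _ ≤ Real.exp (enE G v s C1 f) * (ω ^ Fintype.card G.V)⁻¹ * (hi * ω) := this
      _ = _ := by ring

end

end Claimed.Agent.R285.BC2
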