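import Claimed.Agent.R285.Dg.Defs
import Claimed.Agent.R285.Dg.RefInt
import Claimed.Agent.R285.Dg.RefG
import Claimed.Agent.R285.Dg.SrcTop

/-!
# ROW 285, unit BC2, file Dg/Ref: the reference lattice Gaussian (contracts U3, R1, R2 of `Read/BC2.lean`; v2: `IsRef` instead of `IsTerminal`).      Architect helper12.
-/

set_option autoImplicit false

namespace Claimed.Agent.R285.BC2

open scoped BigOperators ENNReal NNReal
open MeasureTheory ProbabilityTheory Polynomial Filter Topology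
open Claimed.Agent.R285.RG Claimed.Agent.R285.B8

noncomputable section

variable {G : Geom}

/-- **(U3)** integrability of the reference integrand (`0 ≤ A^{1/2} C₁ A^{1/2} ≤ 1`, `|s| ≤ 1/4`) -/
theorem Z0_integrable (hG : G.bc = BC.per) (u : ℕ) (hu : 1 ≤ u) (C1 : Matrix G.V G.V ℝ) (hC : IsRef G u C1) (ω : ℝ) (h0 : ℝ≥0) (dw : ℝ)
    (w : ℂ → ℂ) (hw : SiteOK ω h0 dw w) (s : ℝ) (hs : |s| ≤ 1 / 4) (φ : G.V → ℝ) :
    Integrable (fun ζ => Z0 G w s (toC φ + toC ζ)) (gauss G C1) :=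
  zg_Z0_integrable u hu C1 hC ω h0 dw w hw s hs φ

/-- the exponential moment of the compensation (`Z0_integrable` with `w = 1`) -/
theorem dgs_exp_fin (hG : G.bc = BC.per) (u : ℕ) (hu : 1 ≤ u) (C1 : Matrix G.V G.V ℝ) (hC : IsRef G u C1) (s : ℝ) (hs : |s| ≤ 1 / 4) :
    ∫⁻ φ, ENNReal.ofReal (Real.exp (s / 2 * enR G φ)) ∂(gauss G C1) ≠ ∞ := by
  have hw : SiteOK 1 0 1 (fun _ : ℂ => (1 : ℂ)) :=
    ⟨differentiable_const _, fun _ => rfl, fun _ => rfl, fun _ => (map_one _).symm, fun _ => by simp, fun _ _ => by simp⟩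
  have h := (Z0_integrable hG u hu C1 hC 1 0 1 _ hw s hs 0).2
  rw [HasFiniteIntegral] at h
  refine ne_of_lt (lt_of_le_of_lt (le_of_eq ?_) h)
  refine lintegral_congr fun ζ => ?_
  have e : toC (0 : G.V → ℝ) + toC ζ = toC ζ := by
    funext x
    simp [toC]
  rw [e, Z0, dgs_enC_toC]
  simp only [Finset.prod_const_one, mul_one]
  rw [← ofReal_norm_eq_enorm, Complex.norm_exp]
  congr 2
  have : (s : ℂ) / 2 * ((enR G ζ : ℝ) : ℂ) = ((s / 2 * enR G ζ : ℝ) : ℂ) := by push_cast; ring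
  rw [this, Complex.ofReal_re]

/-- **(R1) completion of the square + unfolding of the pin** (REAL sources only).  One Cameron-Martin shift by `C₁ η`, `η = f - s v A f` (`B4.gauss_shift`), pointwise in `(h, t)`:
`e^{(f,σ)} e^{s(φ,Aφ)/2} ∏ g(σ - φ - t) ↦ e^{E(f)} e^{s(φ+F,A(φ+F))/2} ∏ g(σ - φ - F - t)`, `F = C₁ η + v f`; then `∑_{h pinned} ∫_ℝ dt = ∑_{h ∈ ℤ^V} ∫_0^ω dt` and `∑_h ∏_x = ∏_x ∑_n` (Tonelli; all terms `≥ 0`).
Stated as a sandwich, so that no measurability in `t` is exported. -/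
theorem ref_source (hG : G.bc = BC.per) (u : ℕ) (hu : 1 ≤ u) (C1 : Matrix G.V G.V ℝ) (hC : IsRef G u C1) (v ω s : ℝ) (hv : 0 < v) (hω : 0 < ω)
    (hs : |s| ≤ 1 / 4) (f : G.V → ℝ) (hf : ∑ x, f x = 0) (lo hi : ℝ)
    (H : ∀ t : ℝ, lo ≤ (conv C1 (Z0 G (wt1 v ω) s) (toC fun x => bgV G v s C1 f x + t)).re ∧
      (conv C1 (Z0 G (wt1 v ω) s) (toC fun x => bgV G v s C1 f x + t)).re ≤ hi) :
    Summable (fun h : Pin G => Real.exp (∑ x, f x * (ω * (h.1 x : ℝ))) * refW G v s C1 fun x => ω * (h.1 x : ℝ)) ∧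
    Real.exp (enE G v s C1 f) * (ω * (ω ^ Fintype.card G.V)⁻¹) * lo
      ≤ ∑' h : Pin G, Real.exp (∑ x, f x * (ω * (h.1 x : ℝ))) * refW G v s C1 (fun x => ω * (h.1 x : ℝ)) ∧
    ∑' h : Pin G, Real.exp (∑ x, f x * (ω * (h.1 x : ℝ))) * refW G v s C1 (fun x => ω * (h.1 x : ℝ))
      ≤ Real.exp (enE G v s C1 f) * (ω * (ω ^ Fintype.card G.V)⁻¹) * hi := by
  obtain ⟨dw, hw⟩ := dgq_wtP_site v ω hv hω
  exact ref_source_pf C1 hC.psd v ω s hv hω (dgs_exp_fin hG u hu C1 hC s hs)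
    (fun ψ => Z0_integrable hG u hu C1 hC ω 0 dw _ hw s hs ψ) f hf lo hi H

/-- **(R2) the reference weight is a lattice Gaussian with MORE precision than the nearest neighbour discrete Gaussian** of precision `κ' = 1/(2 (12 v + 1))` (in units of `σ`).
`τ = termP u`, `d = v λ (1 - s τ) + τ > 0` on `[0,8]`, `N = d(A)⁻¹`, `Q = (1 - s τ(A)) A N`; Cameron-Martin shift by `C₁ η₁`, `η₁ = A N σ`; `Q - κ' A = (λ d ((1 - sτ) - κ' d))(A)` conjugated by `N`, PSD. -/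
theorem ref_gauss (hG : G.bc = BC.per) (u : ℕ) (hu : 1 ≤ u) (C1 : Matrix G.V G.V ℝ) (hC : IsRef G u C1) (v s : ℝ) (hv : 0 < v) (hs : |s| ≤ 1 / 4) :
    0 < refW G v s C1 0 ∧ ∃ Rw : Matrix G.V G.V ℝ, ∀ σ : G.V → ℝ,
      refW G v s C1 σ = refW G v s C1 0 * Real.exp (-(1 / (2 * (12 * v + 1))) / 2 * enR G σ - (1 / 2) * ∑ o, (Rw.mulVec σ o) ^ 2) :=
  ref_gauss_pf hG u hu C1 hC v s hv hs
end

end Claimed.Agent.R285.BC2
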