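import Claimed.Agent.R285.Dg.Defs
import Claimed.Agent.R285.Map.WSym

/-!
# ROW 285, unit DG, (S2): consequences of `WeakOK` (no cosine) for ONE step                                   (helper136)

`dg_step_t` (`|t₊ - t| ≤ C ‖R‖`), `dg_step_rho` (`‖R₊‖ ≤ θ ‖R‖ + C size²`), `dg_step_lip` (full Lipschitz bound), `dg_step_real` (real states stay real, up to norm zero).
Only the fields `proj`, `contr`, `quad`, `lip`, `conj`, `add`, `smul` of `WeakOK` are used.
-/

set_option autoImplicit false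

namespace Claimed.Agent.R285.BC2

open scoped BigOperators ENNReal NNReal
open MeasureTheory ProbabilityTheory Polynomial Filter Topology
open Claimed.Agent.R285.RG Claimed.Agent.R285.B8

noncomputable section

variable {G : Geom} {D0 ℓ : ℕ} {c : Geo} {p : Par} {gs : Grid G} {S : Step G D0 ℓ} {θ C ε0 : ℝ≥0}

theorem dg_phi_fst (x : ℂ × ℂ × Act S.P.g) : (S.Phi c p.ω false x).1 = x.1 + S.Pt c p.ω x.2.2 := rfl

theorem dg_phi_z (x : ℂ × ℂ × Act S.P.g) : (S.Phi c p.ω false x).2.1 = 0 := rfl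

/-- `|t₊ - t| ≤ C ‖R‖` -/
theorem dg_step_t (hW : WeakOK c p gs S false θ C ε0) (x : ℂ × ℂ × Act S.P.g) (hx : Adm p c gs x.2.2) :
    (‖(S.Phi c p.ω false x).1 - x.1‖₊ : ℝ≥0∞) ≤ C * actNorm p S.P.g S.Vf x.2.2 := by
  rw [dg_phi_fst, add_sub_cancel_left]
  exact le_trans le_self_add (hW.proj x.2.2 hx)

/-- `‖R₊‖ ≤ θ ‖R‖ + C size²` -/
theorem dg_step_rho (hW : WeakOK c p gs S false θ C ε0) (x : ℂ × ℂ × Act S.P.g) (hx : Adm p c gs x.2.2) (hz : x.2.1 = 0)
    (hs : size3 p S.P.g S.Vf x ≤ ε0) :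
    actNorm p S.P.g' S.Vc (S.Phi c p.ω false x).2.2 ≤ θ * actNorm p S.P.g S.Vf x.2.2 + C * size3 p S.P.g S.Vf x ^ 2 := by
  have e : (S.Phi c p.ω false x).2.2 = S.Clin c p.ω false x.2.2 + ((S.Phi c p.ω false x).2.2 - S.Clin c p.ω false x.2.2) := by abel
  rw [e]
  exact (w_actNorm_add_le _ _ _ _ _).trans (add_le_add (hW.contr _ hx) (hW.quad x hx (fun _ => hz) hs))

theorem dg_fin_of_size {g : Grid G} {V : Extra g} {x : ℂ × ℂ × Act g} (hs : size3 p g V x ≤ ε0) : actNorm p g V x.2.2 ≠ ⊤ :=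
  ne_top_of_le_ne_top ENNReal.coe_ne_top ((w_actNorm_le_size3 p g V x).trans hs)

/-- linearity on differences -/
theorem dg_lin_sub (hW : WeakOK c p gs S false θ C ε0) (R R' : Act S.P.g) (hR : Adm p c gs R) (hR' : Adm p c gs R')
    (hf : actNorm p S.P.g S.Vf R ≠ ⊤) (hf' : actNorm p S.P.g S.Vf R' ≠ ⊤) :
    S.Pt c p.ω (R - R') = S.Pt c p.ω R - S.Pt c p.ω R' ∧
    EqOn p.h0 (S.Clin c p.ω false (R - R')) (S.Clin c p.ω false R - S.Clin c p.ω false R') := by
  have hn : Adm p c gs ((-1 : ℂ) • R') := w_cls_smul p c.col c.R gs (-1) hR'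
  have hfn : actNorm p S.P.g S.Vf ((-1 : ℂ) • R') ≠ ⊤ :=
    ne_top_of_le_ne_top (ENNReal.mul_ne_top ENNReal.coe_ne_top hf') (w_actNorm_smul_le _ _ _ _ _)
  obtain ⟨a1, -, a3⟩ := hW.add R ((-1 : ℂ) • R') hR hn hf hfn
  obtain ⟨s1, -, s3⟩ := hW.smul (-1) R' hR' hf'
  have e : R - R' = R + (-1 : ℂ) • R' := by rw [neg_one_smul, sub_eq_add_neg]
  constructor
  · rw [e, a1, s1]; ring
  · rw [e]
    refine a3.trans' ?_
    have e2 : S.Clin c p.ω false R - S.Clin c p.ω false R' = S.Clin c p.ω false R + (-1 : ℂ) • S.Clin c p.ω false R' := by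
      rw [neg_one_smul, sub_eq_add_neg]
    rw [e2]
    exact (EqOn.rfl' _ _).add' s3

/-- **the full Lipschitz bound of one step** -/
theorem dg_step_lip (hW : WeakOK c p gs S false θ C ε0) (x y : ℂ × ℂ × Act S.P.g) (hx : Adm p c gs x.2.2) (hy : Adm p c gs y.2.2)
    (hxz : x.2.1 = 0) (hyz : y.2.1 = 0) (hxs : size3 p S.P.g S.Vf x ≤ ε0) (hys : size3 p S.P.g S.Vf y ≤ ε0) :
    size3 p S.P.g' S.Vc (S.Phi c p.ω false x - S.Phi c p.ω false y) ≤ (1 + C + θ + 2 * C * ε0) * size3 p S.P.g S.Vf (x - y) := by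
  obtain ⟨l1, l2⟩ := dg_lin_sub hW x.2.2 y.2.2 hx hy (dg_fin_of_size hxs) (dg_fin_of_size hys)
  have hd : Adm p c gs (x.2.2 - y.2.2) := w_cls_sub p c.col c.R gs hx hy
  set σ := size3 p S.P.g S.Vf (x - y) with hσ
  have hR : actNorm p S.P.g S.Vf (x.2.2 - y.2.2) ≤ σ := w_actNorm_le_size3 p S.P.g S.Vf (x - y)
  have ht : (‖x.1 - y.1‖₊ : ℝ≥0∞) ≤ σ := w_t_le_size3 p S.P.g S.Vf (x - y)
  -- first component
  have h1 : (‖(S.Phi c p.ω false x - S.Phi c p.ω false y).1‖₊ : ℝ≥0∞) ≤ σ + C * σ := by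
    have e : (S.Phi c p.ω false x - S.Phi c p.ω false y).1 = (x.1 - y.1) + S.Pt c p.ω (x.2.2 - y.2.2) := by
      rw [l1, Prod.fst_sub, dg_phi_fst, dg_phi_fst]; ring
    rw [e]
    have h2 : (‖S.Pt c p.ω (x.2.2 - y.2.2)‖₊ : ℝ≥0∞) ≤ C * σ :=
      (le_trans le_self_add (hW.proj _ hd)).trans (mul_le_mul' le_rfl hR)
    calc (‖(x.1 - y.1) + S.Pt c p.ω (x.2.2 - y.2.2)‖₊ : ℝ≥0∞) ≤ ‖x.1 - y.1‖₊ + ‖S.Pt c p.ω (x.2.2 - y.2.2)‖₊ := by
          exact_mod_cast nnnorm_add_le _ _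
      _ ≤ _ := add_le_add ht h2
  -- second component
  have h2 : (‖(S.Phi c p.ω false x - S.Phi c p.ω false y).2.1‖₊ : ℝ≥0∞) = 0 := by
    have e : (S.Phi c p.ω false x - S.Phi c p.ω false y).2.1 = 0 := by
      rw [Prod.snd_sub, Prod.fst_sub, dg_phi_z, dg_phi_z, sub_zero]
    rw [e]; simp
  -- third component
  have h3 : actNorm p S.P.g' S.Vc (S.Phi c p.ω false x - S.Phi c p.ω false y).2.2 ≤ 2 * C * ε0 * σ + θ * σ := by
    have e : (S.Phi c p.ω false x - S.Phi c p.ω false y).2.2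
        = (((S.Phi c p.ω false x).2.2 - S.Clin c p.ω false x.2.2) - ((S.Phi c p.ω false y).2.2 - S.Clin c p.ω false y.2.2))
          + (S.Clin c p.ω false x.2.2 - S.Clin c p.ω false y.2.2) := by
      rw [Prod.snd_sub, Prod.snd_sub]; abel
    rw [e]
    refine (w_actNorm_add_le _ _ _ _ _).trans (add_le_add ?_ ?_)
    · refine (hW.lip x y hx hy (fun _ => ⟨hxz, hyz⟩) hxs hys).trans ?_
      refine mul_le_mul' ?_ le_rfl
      calc (C : ℝ≥0∞) * (size3 p S.P.g S.Vf x + size3 p S.P.g S.Vf y) ≤ C * (ε0 + ε0) := mul_le_mul' le_rfl (add_le_add hxs hys)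
        _ = 2 * C * ε0 := by ring
    · rw [← w_actNorm_congr p S.P.g' S.Vc l2]
      exact (hW.contr _ hd).trans (mul_le_mul' le_rfl hR)
  calc size3 p S.P.g' S.Vc (S.Phi c p.ω false x - S.Phi c p.ω false y) ≤ (σ + C * σ) + 0 + (2 * C * ε0 * σ + θ * σ) := by
        unfold size3
        exact add_le_add (add_le_add h1 h2.le) h3
    _ = (1 + C + θ + 2 * C * ε0) * σ := by ring

/-! ## Real states -/

/-- `z ↦ conj (F (conj z))` is holomorphic on a conjugation invariant domain -/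
theorem dg_conj_diff {ι : Type} [Fintype ι] (F : (ι → ℂ) → ℂ) (U : Set (ι → ℂ)) (hU : ∀ z ∈ U, (fun v => starRingEnd ℂ (z v)) ∈ U)
    (hF : DifferentiableOn ℂ F U) : DifferentiableOn ℂ (fun z => starRingEnd ℂ (F fun v => starRingEnd ℂ (z v))) U := by
  intro z hz
  set cj : (ι → ℂ) → (ι → ℂ) := fun z v => starRingEnd ℂ (z v) with hcj
  have hnorm : ∀ w : ι → ℂ, ‖cj w‖ = ‖w‖ := by
    intro w
    simp only [hcj, Pi.norm_def]
    congr 1
    apply Finset.sup_congr rfl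
    intro b _
    simp
  have hsub : ∀ a b : ι → ℂ, cj a - cj b = cj (a - b) := by
    intro a b
    funext v
    simp [hcj]
  have hcont : Continuous cj := by
    apply continuous_pi
    intro v
    exact Complex.continuous_conj.comp (continuous_apply v)
  obtain ⟨L, hL⟩ := hF (cj z) (hU z hz)
  let Ll : (ι → ℂ) →ₗ[ℂ] ℂ :=
    { toFun := fun h => starRingEnd ℂ (L (cj h))
      map_add' := fun a b => by
        have : cj (a + b) = cj a + cj b := by funext v; simp [hcj]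
        rw [this, map_add, map_add]
      map_smul' := fun c a => by
        have : cj (c • a) = starRingEnd ℂ c • cj a := by funext v; simp [hcj]
        rw [this, map_smul, smul_eq_mul, map_mul, Complex.conj_conj, RingHom.id_apply, smul_eq_mul] }
  refine ⟨LinearMap.toContinuousLinearMap Ll, ?_⟩
  have h1 := hL.isLittleO
  have ht : Filter.Tendsto cj (nhdsWithin z U) (nhdsWithin (cj z) U) :=
    tendsto_nhdsWithin_of_tendsto_nhds_of_eventually_within _ (hcont.continuousAt.mono_left nhdsWithin_le_nhds)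
      (by filter_upwards [self_mem_nhdsWithin] with w hw using hU w hw)
  have h2 := h1.comp_tendsto ht
  refine HasFDerivWithinAt.of_isLittleO ?_
  refine (h2.norm_norm.congr ?_ ?_).of_norm_norm
  · intro w
    simp only [Function.comp]
    rw [← Complex.norm_conj]
    congr 1
    rw [map_sub, map_sub, hsub]
    rfl
  · intro w
    simp only [Function.comp]
    rw [hsub, hnorm]

theorem dg_strip_conj {h0 : ℝ≥0} {g : Grid G} {X : Finset g.I} (z : G.V → ℂ) :
    (fun v => starRingEnd ℂ (z v)) ∈ strip h0 g X ↔ z ∈ strip h0 g X := by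
  simp only [strip, Set.mem_ofPred_eq, Complex.conj_im]
  rw [sp_tnorm_neg]

/-- conjugation preserves the class -/
theorem dg_cls_conjAct {g : Grid G} {col R : ℕ} {K : Act g} (hK : K.Cls p col R gs) : (conjAct K).Cls p col R gs := by
  refine ⟨⟨fun X => ⟨?_, fun z hz z' hz' h => ?_, fun z hz => ?_⟩, fun X hX => ?_⟩, fun X z hz => ?_, fun s hs X z hz hz' => ?_⟩
  · exact dg_conj_diff (K X) (strip p.h0 g X) (fun z hz => (dg_strip_conj z).2 hz) (hK.ok.fn X).hol
  · unfold conjAct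
    rw [(hK.ok.fn X).loc _ ((dg_strip_conj z).2 hz) _ ((dg_strip_conj z').2 hz') fun v hv => by rw [h v hv]]
  · have := (hK.ok.fn X).per _ ((dg_strip_conj z).2 hz)
    unfold conjAct
    rw [← this]
    congr 2
    funext v
    simp
  · funext z
    unfold conjAct
    rw [hK.ok.poly X hX]
    simp
  · have := hK.even X _ ((dg_strip_conj z).2 hz)
    unfold conjAct
    rw [← this]
    congr 2
  · unfold conjAct
    rw [hK.sym s hs X _ ((dg_strip_conj z).2 hz) ((dg_strip_conj (fun v => z (s.σ.symm v))).2 hz')]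

/-- real states: `t` real, the activity is fixed by the conjugation up to norm zero -/
def RealSt (p : Par) {g : Grid G} (V : Extra g) (x : ℂ × ℂ × Act g) : Prop :=
  x.1.im = 0 ∧ actNorm p g V (conjAct x.2.2 - x.2.2) = 0

/-- **real states stay real** -/
theorem dg_step_real (hW : WeakOK c p gs S false θ C ε0) (x : ℂ × ℂ × Act S.P.g) (hx : Adm p c gs x.2.2) (hz : x.2.1 = 0)
    (hs : size3 p S.P.g S.Vf x ≤ ε0) (hr : RealSt p S.Vf x) : RealSt p S.Vc (S.Phi c p.ω false x) := by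
  obtain ⟨x', hx'⟩ : ∃ x' : ℂ × ℂ × Act S.P.g, x' = (starRingEnd ℂ x.1, starRingEnd ℂ x.2.1, conjAct x.2.2) := ⟨_, rfl⟩
  have e1 : x'.1 = x.1 := by rw [hx']; exact Complex.conj_eq_iff_im.2 hr.1
  have e2 : x'.2.1 = 0 := by rw [hx']; simp [hz]
  have e3 : x'.2.2 = conjAct x.2.2 := by rw [hx']
  have hd : size3 p S.P.g S.Vf (x' - x) = 0 := by
    unfold size3
    rw [Prod.fst_sub, Prod.snd_sub, Prod.fst_sub, Prod.snd_sub, e1, e2, e3, hz, hr.2]
    simp
  have hs' : size3 p S.P.g S.Vf x' ≤ ε0 := by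
    have : x' = (x' - x) + x := by abel
    rw [this]
    refine (w_size3_add_le _ _ _ _ _).trans ?_
    rw [hd, zero_add]
    exact hs
  have ha' : Adm p c gs x'.2.2 := by rw [e3]; exact dg_cls_conjAct hx
  have hl := dg_step_lip hW x' x ha' hx e2 hz hs' hs
  rw [hd, mul_zero] at hl
  have hl0 : size3 p S.P.g' S.Vc (S.Phi c p.ω false x' - S.Phi c p.ω false x) = 0 := le_antisymm hl zero_le
  obtain ⟨c1, -, c3⟩ := hW.conj x hx hs
  rw [← hx'] at c1 c3
  constructor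
  · have h1 : (‖(S.Phi c p.ω false x' - S.Phi c p.ω false x).1‖₊ : ℝ≥0∞) = 0 :=
      le_antisymm ((w_t_le_size3 _ _ _ _).trans hl0.le) zero_le
    have h2 : (S.Phi c p.ω false x').1 = (S.Phi c p.ω false x).1 := by
      have : (S.Phi c p.ω false x' - S.Phi c p.ω false x).1 = 0 := by simpa using h1
      rw [Prod.fst_sub] at this
      exact sub_eq_zero.1 this
    rw [h2] at c1
    exact Complex.conj_eq_iff_im.1 c1.symm
  · have h1 : actNorm p S.P.g' S.Vc ((S.Phi c p.ω false x').2.2 - (S.Phi c p.ω false x).2.2) = 0 :=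
      le_antisymm ((w_actNorm_le_size3 _ _ _ (S.Phi c p.ω false x' - S.Phi c p.ω false x)).trans hl0.le) zero_le
    rw [← h1]
    exact w_actNorm_congr _ _ _ (c3.symm'.sub' (EqOn.rfl' _ _))

end

end Claimed.Agent.R285.BC2
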