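import Claimed.Agent.R285.Dg.Chain
import Claimed.Agent.R285.Dg.Step

/-!
# ROW 285, unit DG, (S2): shooting on ONE torus                                                     (helper136)

`dg_shoot` from `shoot_raw` (`Dg/Pure.lean`) and the one-step lemmas of `Dg/Step.lean`.
-/

set_option autoImplicit false

namespace Claimed.Agent.R285.BC2

open scoped BigOperators ENNReal NNReal
open MeasureTheory ProbabilityTheory Polynomial Filter Topology
open Claimed.Agent.R285.RG Claimed.Agent.R285.B8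

noncomputable section

variable {G : Geom}

/-! ## 1. Real numbers from `ℝ≥0∞` -/

theorem dg_size_eq {p : Par} {g : Grid G} {V : Extra g} (x : ℂ × ℂ × Act g) (hz : x.2.1 = 0) (hr : x.1.im = 0)
    (hf : actNorm p g V x.2.2 ≠ ⊤) : size3 p g V x = ENNReal.ofReal (|x.1.re| + (actNorm p g V x.2.2).toReal) := by
  unfold size3
  have h1 : (‖x.1‖₊ : ℝ≥0∞) = ENNReal.ofReal |x.1.re| := by
    have e : x.1 = (x.1.re : ℂ) := Complex.ext rfl (by simpa using hr)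
    have e2 : ‖x.1‖ = |x.1.re| := by
      conv_lhs => rw [e]
      rw [Complex.norm_real, Real.norm_eq_abs]
    rw [← e2, ENNReal.ofReal, Real.toNNReal_of_nonneg (norm_nonneg _)]
    rfl
  rw [hz, h1, ENNReal.ofReal_add (abs_nonneg _) ENNReal.toReal_nonneg, ENNReal.ofReal_toReal hf]
  simp

variable {D0 ℓ : ℕ} {c : Geo} {p : Par} {gs : Grid G} {S : Step G D0 ℓ} {θ C ε0 : ℝ≥0}

theorem dg_step_t_real (hW : WeakOK c p gs S false θ C ε0) (x : ℂ × ℂ × Act S.P.g) (hx : Adm p c gs x.2.2)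
    (hf : actNorm p S.P.g S.Vf x.2.2 ≠ ⊤) :
    |(S.Phi c p.ω false x).1.re - x.1.re| ≤ C * (actNorm p S.P.g S.Vf x.2.2).toReal := by
  have h := dg_step_t hW x hx
  have h1 := ENNReal.toReal_mono (ENNReal.mul_ne_top ENNReal.coe_ne_top hf) h
  rw [ENNReal.toReal_mul, ENNReal.coe_toReal, ENNReal.coe_toReal, coe_nnnorm] at h1
  refine le_trans ?_ h1
  rw [← Complex.sub_re]
  exact Complex.abs_re_le_norm _

theorem dg_step_rho_real (hW : WeakOK c p gs S false θ C ε0) (x : ℂ × ℂ × Act S.P.g) (hx : Adm p c gs x.2.2) (hz : x.2.1 = 0)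
    (hr : x.1.im = 0) (hs : size3 p S.P.g S.Vf x ≤ ε0) :
    actNorm p S.P.g' S.Vc (S.Phi c p.ω false x).2.2 ≠ ⊤ ∧
    (actNorm p S.P.g' S.Vc (S.Phi c p.ω false x).2.2).toReal
      ≤ θ * (actNorm p S.P.g S.Vf x.2.2).toReal + C * (|x.1.re| + (actNorm p S.P.g S.Vf x.2.2).toReal) ^ 2 := by
  have hf := dg_fin_of_size hs
  have h := dg_step_rho hW x hx hz hs
  rw [dg_size_eq x hz hr hf] at h
  have htop : (θ : ℝ≥0∞) * actNorm p S.P.g S.Vf x.2.2
      + C * ENNReal.ofReal (|x.1.re| + (actNorm p S.P.g S.Vf x.2.2).toReal) ^ 2 ≠ ⊤ :=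
    ENNReal.add_ne_top.2 ⟨ENNReal.mul_ne_top ENNReal.coe_ne_top hf,
      ENNReal.mul_ne_top ENNReal.coe_ne_top (ENNReal.pow_ne_top ENNReal.ofReal_ne_top)⟩
  refine ⟨ne_top_of_le_ne_top htop h, ?_⟩
  have h1 := ENNReal.toReal_mono htop h
  rw [ENNReal.toReal_add (ENNReal.mul_ne_top ENNReal.coe_ne_top hf)
      (ENNReal.mul_ne_top ENNReal.coe_ne_top (ENNReal.pow_ne_top ENNReal.ofReal_ne_top)),
    ENNReal.toReal_mul, ENNReal.toReal_mul, ENNReal.toReal_pow, ENNReal.coe_toReal, ENNReal.coe_toReal,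
    ENNReal.toReal_ofReal (add_nonneg (abs_nonneg _) ENNReal.toReal_nonneg)] at h1
  exact h1

/-! ## 2. Good states of a history -/

/-- a good state at the stage `i` of the torus `j0 + n` -/
structure GoodSt (T : Tow) (n i : ℕ) (x : ℂ × ℂ × Act (T.sc.lev (T.j0 + n) (T.j0 + i))) : Prop where
  adm : Adm T.p T.c (T.sc.lev (T.j0 + n) 0) x.2.2
  z0 : x.2.1 = 0
  re : RealSt T.p (Extra.zero _) x
  sz : size3 T.p _ (Extra.zero _) x ≤ T.ε0

/-- the real coordinates of a state -/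
def tR {g : Grid G} (x : ℂ × ℂ × Act g) : ℝ := x.1.re

def rR (p : Par) {g : Grid G} (x : ℂ × ℂ × Act g) : ℝ := (actNorm p g (Extra.zero g) x.2.2).toReal

variable (T : Tow) (hT : T.OK) (n : ℕ)

include hT in
/-- one step of a good state -/
theorem dg_hist_step (x0 : ℂ × ℂ × Act (T.sc.lev (T.j0 + n) T.j0)) (i : ℕ) (hi : i < n)
    (hg : GoodSt T n i (hist T.c T.ω T.sc (T.j0 + n) T.j0 x0 i)) :
    Adm T.p T.c (T.sc.lev (T.j0 + n) 0) (hist T.c T.ω T.sc (T.j0 + n) T.j0 x0 (i + 1)).2.2 ∧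
    (hist T.c T.ω T.sc (T.j0 + n) T.j0 x0 (i + 1)).2.1 = 0 ∧
    RealSt T.p (Extra.zero _) (hist T.c T.ω T.sc (T.j0 + n) T.j0 x0 (i + 1)) ∧
    actNorm T.p _ (Extra.zero _) (hist T.c T.ω T.sc (T.j0 + n) T.j0 x0 (i + 1)).2.2 ≠ ⊤ ∧
    |tR (hist T.c T.ω T.sc (T.j0 + n) T.j0 x0 (i + 1)) - tR (hist T.c T.ω T.sc (T.j0 + n) T.j0 x0 i)|
      ≤ T.C * rR T.p (hist T.c T.ω T.sc (T.j0 + n) T.j0 x0 i) ∧
    rR T.p (hist T.c T.ω T.sc (T.j0 + n) T.j0 x0 (i + 1)) ≤ 1 / 4 * rR T.p (hist T.c T.ω T.sc (T.j0 + n) T.j0 x0 i)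
      + T.C * (|tR (hist T.c T.ω T.sc (T.j0 + n) T.j0 x0 i)| + rR T.p (hist T.c T.ω T.sc (T.j0 + n) T.j0 x0 i)) ^ 2 := by
  have hj : T.j0 + i < T.j0 + n := by omega
  have hW := hT.step (T.j0 + n) (T.j0 + i) hj (Nat.le_add_right _ _)
  rw [hist_succ _ _ _ _ _ _ _ hj]
  have h2 := dg_step_rho_real hW _ hg.adm hg.z0 hg.re.1 hg.sz
  have h14 : (((1 / 4 : ℝ≥0) : ℝ≥0) : ℝ) = 1 / 4 := by push_cast; norm_num
  rw [h14] at h2
  exact ⟨hW.adm _ hg.adm hg.sz, rfl, dg_step_real hW _ hg.adm hg.z0 hg.sz hg.re, h2.1,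
    dg_step_t_real hW _ hg.adm (dg_fin_of_size hg.sz), h2.2⟩

include hT in
/-- Lipschitz dependence on the initial state -/
theorem dg_hist_lip (x0 y0 : ℂ × ℂ × Act (T.sc.lev (T.j0 + n) T.j0)) (i : ℕ) (hi : i < n)
    (hg : GoodSt T n i (hist T.c T.ω T.sc (T.j0 + n) T.j0 x0 i)) (hg' : GoodSt T n i (hist T.c T.ω T.sc (T.j0 + n) T.j0 y0 i)) :
    size3 T.p _ (Extra.zero _) (hist T.c T.ω T.sc (T.j0 + n) T.j0 x0 (i + 1) - hist T.c T.ω T.sc (T.j0 + n) T.j0 y0 (i + 1))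
      ≤ (1 + T.C + (1 / 4 : ℝ≥0) + 2 * T.C * T.ε0) *
        size3 T.p _ (Extra.zero _) (hist T.c T.ω T.sc (T.j0 + n) T.j0 x0 i - hist T.c T.ω T.sc (T.j0 + n) T.j0 y0 i) := by
  have hj : T.j0 + i < T.j0 + n := by omega
  have hW := hT.step (T.j0 + n) (T.j0 + i) hj (Nat.le_add_right _ _)
  rw [hist_succ _ _ _ _ _ _ _ hj, hist_succ _ _ _ _ _ _ _ hj]
  exact dg_step_lip hW _ _ hg.adm hg'.adm hg.z0 hg'.z0 hg.sz hg'.sz

omit hT in
/-- a good state from its real coordinates -/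
theorem dg_good_mk (i : ℕ) (x : ℂ × ℂ × Act (T.sc.lev (T.j0 + n) (T.j0 + i))) (ha : Adm T.p T.c (T.sc.lev (T.j0 + n) 0) x.2.2)
    (hz : x.2.1 = 0) (hr : RealSt T.p (Extra.zero _) x) (hf : actNorm T.p _ (Extra.zero _) x.2.2 ≠ ⊤) (y : ℝ)
    (hy : |tR x| + rR T.p x ≤ y) (hyε : y ≤ T.ε0) : GoodSt T n i x ∧ size3 T.p _ (Extra.zero _) x ≤ ENNReal.ofReal y := by
  have h1 : size3 T.p _ (Extra.zero _) x ≤ ENNReal.ofReal y := by
    rw [dg_size_eq x hz hr.1 hf]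
    exact ENNReal.ofReal_le_ofReal hy
  refine ⟨⟨ha, hz, hr, h1.trans ?_⟩, h1⟩
  rw [← ENNReal.ofReal_coe_nnreal]
  exact ENNReal.ofReal_le_ofReal hyε

/-- the remainders are controlled by the window (sequences) -/
theorem dg_rho_window (θ θ3 Cq x D : ℝ) (hθ : 0 ≤ θ) (hθ3 : θ < θ3) (h31 : θ3 < 1) (hx : 0 < x) (hD : 0 ≤ D) (hCq : 0 ≤ Cq)
    (hsm : Cq * (D + 1) ^ 2 * x ≤ θ3 - θ) (t r : ℕ → ℝ) (j : ℕ) (hr : ∀ i, 0 ≤ r i) (hr0 : r 0 ≤ x)
    (ht : ∀ i ≤ j, |t i| ≤ D * x * θ3 ^ i)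
    (hR : ∀ i < j, (∀ k ≤ i, |t k| ≤ D * x * θ3 ^ k ∧ r k ≤ x * θ3 ^ k) → r (i + 1) ≤ θ * r i + Cq * (|t i| + r i) ^ 2) :
    ∀ i ≤ j, r i ≤ x * θ3 ^ i := by
  have h30 : 0 < θ3 := lt_of_le_of_lt hθ hθ3
  have key : ∀ i, i ≤ j → ∀ k ≤ i, r k ≤ x * θ3 ^ k := by
    intro i
    induction i with
    | zero =>
      intro _ k hk
      obtain rfl := Nat.le_zero.1 hk
      simpa using hr0
    | succ i ih =>
      intro hi k hk
      rcases Nat.lt_or_ge k (i + 1) with h | h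
      · exact ih (by omega) k (by omega)
      · obtain rfl : k = i + 1 := by omega
        have hall : ∀ k ≤ i, |t k| ≤ D * x * θ3 ^ k ∧ r k ≤ x * θ3 ^ k := fun k hk => ⟨ht k (by omega), ih (by omega) k hk⟩
        have h1 := hR i (by omega) hall
        have hti := (hall i le_rfl).1
        have hri := (hall i le_rfl).2
        have hp : 0 < θ3 ^ i := pow_pos h30 i
        have hp1 : θ3 ^ i ≤ 1 := pow_le_one₀ h30.le h31.le
        have h2 : |t i| + r i ≤ (D + 1) * x * θ3 ^ i := by nlinarith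
        have h3 : (|t i| + r i) ^ 2 ≤ ((D + 1) * x * θ3 ^ i) ^ 2 := pow_le_pow_left₀ (add_nonneg (abs_nonneg _) (hr i)) h2 2
        have h4 : Cq * (D + 1) ^ 2 * x * θ3 ^ i ≤ θ3 - θ := by
          have h5 : 0 ≤ Cq * (D + 1) ^ 2 * x := by positivity
          nlinarith
        calc r (i + 1) ≤ θ * r i + Cq * (|t i| + r i) ^ 2 := h1
          _ ≤ θ * (x * θ3 ^ i) + Cq * ((D + 1) * x * θ3 ^ i) ^ 2 := by gcongr
          _ = x * θ3 ^ i * (θ + Cq * (D + 1) ^ 2 * x * θ3 ^ i) := by ring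
          _ ≤ x * θ3 ^ i * (θ + (θ3 - θ)) := by gcongr
          _ = x * θ3 ^ (i + 1) := by ring
  exact fun i hi => key i hi i le_rfl

/-- the Lipschitz constant of one step -/
def Tow.Lam (T : Tow) : ℝ≥0 := 1 + T.C + 1 / 4 + 2 * T.C * T.ε0

/-- **(S2)** shooting on ONE torus `h = j0 + n`: for every small Lipschitz family of real admissible initial remainders there is an input `s` whose history stays small up to the last level. -/
theorem dg_shoot (T : Tow) (hT : T.OK) : ∃ (D x1 : ℝ), 0 < D ∧ 0 < x1 ∧ ∀ x, 0 < x → x ≤ x1 → ∀ (n : ℕ) (Rin : ℝ → Act (T.sc.lev (T.j0 + n) T.j0)) (Lc : ℝ),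
    (∀ s, |s| ≤ D * x → Adm T.p T.c (T.sc.lev (T.j0 + n) 0) (Rin s) ∧ conjAct (Rin s) = Rin s ∧
      actNorm T.p _ (Extra.zero _) (Rin s) ≤ ENNReal.ofReal x) →
    (∀ s s', |s| ≤ D * x → |s'| ≤ D * x → actNorm T.p _ (Extra.zero _) (Rin s - Rin s') ≤ ENNReal.ofReal (Lc * |s - s'|)) →
    ∃ s : ℝ, |s| ≤ D * x ∧ ∀ i ≤ n,
      Adm T.p T.c (T.sc.lev (T.j0 + n) 0) (hist T.c T.ω T.sc (T.j0 + n) T.j0 ((s : ℂ), 0, Rin s) i).2.2 ∧
      (hist T.c T.ω T.sc (T.j0 + n) T.j0 ((s : ℂ), 0, Rin s) i).2.1 = 0 ∧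
      size3 T.p _ (Extra.zero _) (hist T.c T.ω T.sc (T.j0 + n) T.j0 ((s : ℂ), 0, Rin s) i) ≤ ENNReal.ofReal ((D + 1) * x) := by
  obtain ⟨Cr, hCr⟩ : ∃ Cr : ℝ, Cr = T.C := ⟨_, rfl⟩
  have hC0 : 0 ≤ Cr := by rw [hCr]; exact NNReal.coe_nonneg _
  obtain ⟨D, hDdef⟩ : ∃ D : ℝ, D = 2 * Cr + 1 := ⟨_, rfl⟩
  have hD : 0 < D := by rw [hDdef]; positivity
  have hD1 : 0 < D + 1 := by linarith
  have hE : (0 : ℝ) < T.ε0 := hT.ε0_pos
  have hden : 0 < 4 * (Cr * (D + 1) ^ 2 + 1) := by positivity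
  refine ⟨D, min ((T.ε0 : ℝ) / (D + 1)) (1 / (4 * (Cr * (D + 1) ^ 2 + 1))), hD, lt_min (by positivity) (by positivity),
    fun x hx hx1 n Rin Lc H1 H2 => ?_⟩
  have hxa : (D + 1) * x ≤ T.ε0 := by
    have := hx1.trans (min_le_left _ _)
    rw [le_div_iff₀ hD1] at this
    linarith
  have hxb : Cr * (D + 1) ^ 2 * x ≤ 1 / 2 - 1 / 4 := by
    have := hx1.trans (min_le_right _ _)
    rw [le_div_iff₀ hden] at this
    nlinarith
  have hCP : Cr < D * (1 - 1 / 2) := by rw [hDdef]; linarith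
  -- notation
  obtain ⟨H, hH⟩ : ∃ H : ℝ → ∀ i, ℂ × ℂ × Act (T.sc.lev (T.j0 + n) (T.j0 + i)),
    H = fun (s : ℝ) i => hist T.c T.ω T.sc (T.j0 + n) T.j0 ((s : ℂ), 0, Rin s) i := ⟨_, rfl⟩
  have hH0 : ∀ s, H s 0 = ((s : ℂ), 0, Rin s) := fun s => by rw [hH]; rfl
  have hpw : ∀ i : ℕ, (0 : ℝ) < (1 / 2) ^ i ∧ ((1 : ℝ) / 2) ^ i ≤ 1 := fun i =>
    ⟨by positivity, pow_le_one₀ (by norm_num) (by norm_num)⟩
  -- good states
  have good : ∀ s ∈ Set.Icc (-(D * x)) (D * x), ∀ j ≤ n,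
      (∀ i ≤ j, |tR (H s i)| ≤ D * x * (1 / 2) ^ i ∧ rR T.p (H s i) ≤ x * (1 / 2) ^ i) →
      ∀ i ≤ j, GoodSt T n i (H s i) ∧ size3 T.p _ (Extra.zero _) (H s i) ≤ ENNReal.ofReal ((D + 1) * x) := by
    intro s hs j hj hb i
    have hbd : ∀ i ≤ j, |tR (H s i)| + rR T.p (H s i) ≤ (D + 1) * x := by
      intro i hi
      obtain ⟨b1, b2⟩ := hb i hi
      obtain ⟨p1, p2⟩ := hpw i
      have : D * x * (1 / 2) ^ i + x * (1 / 2) ^ i ≤ (D + 1) * x := by
        have h0 : 0 ≤ (D + 1) * x := by positivity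
        nlinarith
      linarith
    induction i with
    | zero =>
      intro hi
      obtain ⟨a1, a2, a3⟩ := H1 s (abs_le.2 hs)
      refine dg_good_mk T n 0 (H s 0) ?_ ?_ ?_ ?_ _ (hbd 0 hi) hxa
      · rw [hH0]; exact a1
      · rw [hH0]
      · rw [hH0]
        refine ⟨by simp, ?_⟩
        show actNorm T.p _ (Extra.zero _) (conjAct (Rin s) - Rin s) = 0
        rw [a2, sub_self]
        exact w_actNorm_zero _ _ _
      · rw [hH0]
        exact ne_top_of_le_ne_top ENNReal.ofReal_ne_top a3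
    | succ i ih =>
      intro hi
      obtain ⟨g, -⟩ := ih (by omega)
      rw [hH] at g
      obtain ⟨a, z, r, f, -, -⟩ := dg_hist_step T hT n _ i (by omega) g
      have := hbd (i + 1) hi
      rw [hH] at this ⊢
      exact dg_good_mk T n (i + 1) _ a z r f _ this hxa
  have hTm : ∀ j < n, ∀ s ∈ Set.Icc (-(D * x)) (D * x),
      (∀ i ≤ j, |tR (H s i)| ≤ D * x * (1 / 2) ^ i ∧ rR T.p (H s i) ≤ x * (1 / 2) ^ i) →
      |tR (H s (j + 1)) - tR (H s j)| ≤ Cr * rR T.p (H s j) := by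
    intro j hj s hs hb
    obtain ⟨g, -⟩ := good s hs j hj.le hb j le_rfl
    rw [hH] at g ⊢
    rw [hCr]
    exact (dg_hist_step T hT n _ j hj g).2.2.2.2.1
  have hRm : ∀ j < n, ∀ s ∈ Set.Icc (-(D * x)) (D * x),
      (∀ i ≤ j, |tR (H s i)| ≤ D * x * (1 / 2) ^ i ∧ rR T.p (H s i) ≤ x * (1 / 2) ^ i) →
      rR T.p (H s (j + 1)) ≤ 1 / 4 * rR T.p (H s j) + Cr * (|tR (H s j)| + rR T.p (H s j)) ^ 2 := by
    intro j hj s hs hb
    obtain ⟨g, -⟩ := good s hs j hj.le hb j le_rfl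
    rw [hH] at g ⊢
    rw [hCr]
    exact (dg_hist_step T hT n _ j hj g).2.2.2.2.2
  have hρ0 : ∀ s ∈ Set.Icc (-(D * x)) (D * x), rR T.p (H s 0) ≤ x := by
    intro s hs
    obtain ⟨-, -, a3⟩ := H1 s (abs_le.2 hs)
    rw [hH0]
    have := ENNReal.toReal_mono ENNReal.ofReal_ne_top a3
    rwa [ENNReal.toReal_ofReal hx.le] at this
  have hρnn : ∀ j s, 0 ≤ rR T.p (H s j) := fun j s => ENNReal.toReal_nonneg
  -- the window controls the remainders
  have hwin : ∀ s ∈ Set.Icc (-(D * x)) (D * x), ∀ j ≤ n, (∀ i ≤ j, |tR (H s i)| ≤ D * x * (1 / 2) ^ i) →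
      ∀ i ≤ j, |tR (H s i)| ≤ D * x * (1 / 2) ^ i ∧ rR T.p (H s i) ≤ x * (1 / 2) ^ i := by
    intro s hs j hj ht i hi
    refine ⟨ht i hi, ?_⟩
    exact dg_rho_window (1 / 4) (1 / 2) Cr x D (by norm_num) (by norm_num) (by norm_num) hx hD.le hC0 hxb (fun i => tR (H s i))
      (fun i => rR T.p (H s i)) j (fun i => hρnn i s) (hρ0 s hs) ht (fun i hi' hb => hRm i (by omega) s hs hb) i hi
  -- continuity
  have hcont : ∀ j < n, ContinuousOn (fun s => tR (H s (j + 1)))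
      {s | s ∈ Set.Icc (-(D * x)) (D * x) ∧ ∀ i ≤ j, |tR (H s i)| ≤ D * x * (1 / 2) ^ i} := by
    intro j hj
    have hlip : ∀ s ∈ {s | s ∈ Set.Icc (-(D * x)) (D * x) ∧ ∀ i ≤ j, |tR (H s i)| ≤ D * x * (1 / 2) ^ i},
        ∀ s' ∈ {s | s ∈ Set.Icc (-(D * x)) (D * x) ∧ ∀ i ≤ j, |tR (H s i)| ≤ D * x * (1 / 2) ^ i},
        ∀ i ≤ j + 1, size3 T.p _ (Extra.zero _) (H s i - H s' i) ≤ (T.Lam : ℝ≥0∞) ^ i * ENNReal.ofReal ((1 + |Lc|) * |s - s'|) := by
      intro s hs s' hs' i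
      have gs := good s hs.1 j hj.le (hwin s hs.1 j hj.le hs.2)
      have gs' := good s' hs'.1 j hj.le (hwin s' hs'.1 j hj.le hs'.2)
      induction i with
      | zero =>
        intro _
        rw [hH0, hH0, pow_zero, one_mul]
        have h2 := H2 s s' (abs_le.2 hs.1) (abs_le.2 hs'.1)
        have e1 : (‖((s : ℂ) - (s' : ℂ))‖₊ : ℝ≥0∞) = ENNReal.ofReal |s - s'| := by
          have e2 : ‖((s : ℂ) - (s' : ℂ))‖ = |s - s'| := by
            rw [← Complex.ofReal_sub, Complex.norm_real, Real.norm_eq_abs]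
          rw [← e2, ENNReal.ofReal, Real.toNNReal_of_nonneg (norm_nonneg _)]
          rfl
        have e3 : size3 T.p _ (Extra.zero _) ((((s : ℂ), (0 : ℂ), Rin s) : ℂ × ℂ × Act (T.sc.lev (T.j0 + n) (T.j0 + 0))) - ((s' : ℂ), (0 : ℂ), Rin s'))
            = ENNReal.ofReal |s - s'| + actNorm T.p _ (Extra.zero _) (Rin s - Rin s') := by
          unfold size3
          rw [Prod.fst_sub, Prod.snd_sub, Prod.fst_sub, Prod.snd_sub]
          simp only [sub_self, nnnorm_zero, ENNReal.coe_zero, add_zero]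
          rw [e1]
          rfl
        rw [e3]
        calc ENNReal.ofReal |s - s'| + actNorm T.p _ (Extra.zero _) (Rin s - Rin s')
            ≤ ENNReal.ofReal |s - s'| + ENNReal.ofReal (|Lc| * |s - s'|) := by
              refine add_le_add le_rfl (h2.trans (ENNReal.ofReal_le_ofReal ?_))
              exact mul_le_mul_of_nonneg_right (le_abs_self _) (abs_nonneg _)
          _ = ENNReal.ofReal ((1 + |Lc|) * |s - s'|) := by
              rw [← ENNReal.ofReal_add (abs_nonneg _) (by positivity)]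
              congr 1
              ring
      | succ i ih =>
        intro hi
        have g1 := (gs i (by omega)).1
        have g2 := (gs' i (by omega)).1
        have ih' := ih (by omega)
        rw [hH] at g1 g2 ih' ⊢
        have h3 := dg_hist_lip T hT n _ _ i (by omega) g1 g2
        have eL : (T.Lam : ℝ≥0∞) = 1 + T.C + (1 / 4 : ℝ≥0) + 2 * T.C * T.ε0 := by
          unfold Tow.Lam
          push_cast
          rfl
        rw [← eL] at h3
        refine h3.trans ?_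
        rw [pow_succ, mul_comm ((T.Lam : ℝ≥0∞) ^ i), mul_assoc]
        exact mul_le_mul' le_rfl ih'
    have hL : LipschitzOnWith (T.Lam ^ (j + 1) * Real.toNNReal (1 + |Lc|)) (fun s => tR (H s (j + 1)))
        {s | s ∈ Set.Icc (-(D * x)) (D * x) ∧ ∀ i ≤ j, |tR (H s i)| ≤ D * x * (1 / 2) ^ i} := by
      refine LipschitzOnWith.of_dist_le_mul fun s hs s' hs' => ?_
      have h1 := hlip s hs s' hs' (j + 1) le_rfl
      have h2 := (w_t_le_size3 _ _ _ _).trans h1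
      have h3 := ENNReal.toReal_mono (ENNReal.mul_ne_top (ENNReal.pow_ne_top ENNReal.coe_ne_top) ENNReal.ofReal_ne_top) h2
      rw [ENNReal.toReal_mul, ENNReal.toReal_pow, ENNReal.coe_toReal, ENNReal.coe_toReal, coe_nnnorm,
        ENNReal.toReal_ofReal (by positivity)] at h3
      rw [Real.dist_eq, Real.dist_eq]
      push_cast
      rw [Real.coe_toNNReal _ (by positivity), mul_assoc]
      refine le_trans ?_ h3
      show |(H s (j + 1)).1.re - (H s' (j + 1)).1.re| ≤ _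
      rw [← Complex.sub_re, Prod.fst_sub]
      exact Complex.abs_re_le_norm _
    exact hL.continuousOn
  obtain ⟨s, hs, Hs⟩ := shoot_raw (1 / 4) (1 / 2) Cr Cr x D (by norm_num) (by norm_num) (by norm_num) hx hC0 hC0 hCP hxb n
    (fun i s => tR (H s i)) (fun i s => rR T.p (H s i)) (fun s => by rw [hH0]; simp [tR]) hρnn hρ0 hcont hTm hRm
  refine ⟨s, abs_le.2 hs, fun i hi => ?_⟩
  obtain ⟨g, hsz⟩ := good s hs n le_rfl Hs i hi
  rw [hH] at g hsz
  exact ⟨g.adm, g.z0, hsz⟩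

end

end Claimed.Agent.R285.BC2
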