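import Claimed.Agent.R285.Dg.Defs
import Claimed.Agent.R285.Map.TorSym

/-!
# ROW 285, unit BC2, file Dg/StepOK: the hypotheses `StepOK` for the tower of `Dg/Defs.lean` (no extra regulators, cells of side one)      (architect + prover helper136).  No `sorry`.

MIRROR of `Tow.tower_obs` (`Map/Tower.lean`, helper290), first bullet "one step", with `B4.regulator` instead of `B4.obs_regulator`, `Extra.zero` instead of the observation regulators, `sd = 1`.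
DO NOT import `Map/Tower.lean` (closure `B8b`, `F4a`, `Obs`): copy the 20 lines of `tw_step_sym` and the 15 lines of `tw_diag` with the prefix `dg_` (they rest on `tw_trans`, `tw_refl`, `tw_swap`, `tw_sym_nest` of `Map/TorSym.lean`).
-/

set_option autoImplicit false

namespace Claimed.Agent.R285.BC2

open scoped BigOperators ENNReal NNReal
open MeasureTheory ProbabilityTheory Polynomial Filter Topology
open Claimed.Agent.R285.RG Claimed.Agent.R285.B8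

noncomputable section

/-- the geometry: range `p + 1`, collar `1`, radii `r0 < RR`, no extra regulators, cost `2` per block -/
def geoDg (Ck ck : ℝ) (n0 : ℕ) : Geo := ⟨Ck, ck, pp + 1, 1, r0, RR, n0, 0, 2⟩

theorem geoDg_ok {Ck ck : ℝ} {n0 : ℕ} (hck : 0 < ck) : (geoDg Ck ck n0).Ok where
  ck_pos := hck
  col_pos := le_rfl
  hρ := by simp [geoDg, r0, pp]
  hs := by simp [geoDg, r0, pp]
  hrR := by simp [geoDg, r0, RR, pp]

/-- the fields `nest`, `trans`, `square` of `B8.StepOK` (copy of `Tow.tw_step_sym`, cells of side one) -/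
theorem dg_step_sym (s : Sc) (hD2 : 2 ≤ s.D0) (h j : ℕ) :
    (∀ t : GridSym (s.lev h (j + 1)), t.Pres (s.lev h 0) → ∃ t' : GridSym (s.lev h j), t'.σ = t.σ ∧ t'.Pres (s.lev h 0)) ∧
    (∀ B B' : (s.lev h j).I, ∃ t : GridSym (s.lev h j), t.Pres (s.lev h 0) ∧ t.τ B = B' ∧ t.ρ = 1) ∧
    ∀ B : (s.lev h j).I, (∃ t : GridSym (s.lev h j), t.Pres (s.lev h 0) ∧ t.τ B = B ∧ t.ρ = Equiv.swap 0 1) ∧
      ∃ t : GridSym (s.lev h j), t.Pres (s.lev h 0) ∧ t.τ B = B ∧ t.ρ 0 = 2 ∧ t.ρ 2 = 0 ∧ t.ρ 1 = 3 ∧ t.ρ 3 = 1 := by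
  have hsm : s.L ^ min 0 h ∣ s.L ^ min j h := pow_dvd_pow _ (min_le_min_right h (Nat.zero_le j))
  have hpos : 0 < s.L ^ min j h := Nat.pow_pos s.L_pos
  refine ⟨fun t ht => ?_, fun B B' => Tow.tw_trans rfl _ _ (s.dvd h j) (s.dvd h 0) hsm hpos B B', fun B =>
    ⟨Tow.tw_refl rfl _ _ (s.dvd h j) (s.dvd h 0) hsm hpos B, Tow.tw_swap rfl _ _ (s.dvd h j) (s.dvd h 0) hsm hpos B⟩⟩
  have h2 : 2 * s.L ^ min (j + 1) h ≤ (s.T h).M := by
    show 2 * s.L ^ min (j + 1) h ≤ s.D0 * s.L ^ h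
    exact Nat.mul_le_mul hD2 (Nat.pow_le_pow_right s.L_pos (min_le_right _ _))
  obtain ⟨t', ht'⟩ := Tow.tw_sym_nest rfl (s.L ^ min j h) (s.L ^ min (j + 1) h) (s.dvd h j) (s.dvd h (j + 1))
    (pow_dvd_pow _ (min_le_min_right h (Nat.le_succ j))) hpos h2 t
  refine ⟨t', ht', ?_⟩
  obtain ⟨τs, hτ⟩ := ht
  exact ⟨τs, fun v => by rw [ht']; exact hτ v⟩

/-- polynomial kernels have a constant diagonal (copy of `Tow.tw_diag`) -/
theorem dg_diag {G : Geom} (hG : G.bc = BC.per) (P : Polynomial ℝ) (v : G.V) : cov G P v v = cov G P (org G) (org G) := by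
  obtain ⟨t, _, ht, _⟩ := Tow.tw_trans hG 1 1 (one_dvd _) (one_dvd _) (one_dvd _) Nat.one_pos
    ((torusGrid G 1 (one_dvd _)).blk (org G)) ((torusGrid G 1 (one_dvd _)).blk v)
  have hinj : Function.Injective (torusGrid G 1 (one_dvd _)).blk := by
    intro a b hab
    have h1 : ((a.1 : ℕ) / 1) = ((b.1 : ℕ) / 1) := congrArg (fun x : (torusGrid G 1 (one_dvd _)).I => (x.1 : ℕ)) hab
    have h2 : ((a.2 : ℕ) / 1) = ((b.2 : ℕ) / 1) := congrArg (fun x : (torusGrid G 1 (one_dvd _)).I => (x.2 : ℕ)) hab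
    rw [Nat.div_one, Nat.div_one] at h1 h2
    exact Prod.ext (Fin.ext h1) (Fin.ext h2)
  have e : t.σ (org G) = v := hinj (by rw [t.blk, ht])
  rw [← e]
  exact B8.cov_sym _ t P (org G) (org G)

theorem dg_lev_m' (s : Sc) {h j : ℕ} (hj : j ≤ h) : (s.lev h j).m = s.L ^ j := by
  show s.L ^ min j h = _
  rw [min_eq_left hj]

/-- **(S1a)** every step `j0 ≤ j < h` of every torus of the tower satisfies `StepOK`.
ORDER: `n0, D1, Ck, ck`; `δ ≤ δ0`; `κ ≤ κ0`; `ℓ0`; then everything else.   Mirror of `Tow.tower_obs`, first bullet. -/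
theorem dg_stepOK : ∃ (n0 D1 : ℕ) (Ck ck : ℝ), 0 < ck ∧ ∃ δ0 > (0 : ℝ), ∀ δ ∈ Set.Ioc 0 δ0, ∃ κ0 > (0 : ℝ), ∀ κ ∈ Set.Ioc 0 κ0, ∃ ℓ0 : ℕ,
    ∀ (h0 : ℝ≥0) (A ω : ℝ) (sc : Sc), ℓ0 ≤ sc.ℓ → D1 ≤ sc.D0 → ∀ j0 : ℕ, 2 < sc.L ^ j0 → ∀ (h j : ℕ) (hj : j < h), j0 ≤ j →
      StepOK (geoDg Ck ck n0) ⟨δ, κ, h0, A, ω⟩ (sc.lev h 0) (stp sc h j hj) := by
  obtain ⟨Ds, Ck, ck, hck, hshell⟩ := B4.shellOK_of_fam 1 1 64 0
  obtain ⟨C0, n0, ℓg, Dg, hgeo⟩ := B4.geometry_closure r0 RR (by norm_num [r0, pp])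
  obtain ⟨Dr, δr, hδr, hreg⟩ := B4.regulator Ck ck (pp + 1) RR n0
  obtain ⟨δm, hδm, hmono⟩ := B4.regulator_mono
  refine ⟨n0, max (max Ds Dg) Dr + 2, Ck, ck, hck, min δr δm, lt_min hδr hδm, fun δ hδ => ?_⟩
  have hδ1 : δ ≤ δr := hδ.2.trans (min_le_left _ _)
  have hδ2 : δ ≤ δm := hδ.2.trans (min_le_right _ _)
  obtain ⟨κr, hκr, hreg⟩ := hreg δ ⟨hδ.1, hδ1⟩
  refine ⟨κr, hκr, fun κ hκ => ?_⟩
  obtain ⟨ℓr, hreg⟩ := hreg κ hκ.1
  refine ⟨max (max ℓg ℓr) 1, fun h0 A ω s hℓ hD1 j0 hcol h j hj hj0 => ?_⟩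
  have hℓ1 : ℓg ≤ s.ℓ := ((le_max_left _ _).trans (le_max_left _ _)).trans hℓ
  have hℓ2 : ℓr ≤ s.ℓ := ((le_max_right _ _).trans (le_max_left _ _)).trans hℓ
  have hℓ3 : 1 ≤ s.ℓ := (le_max_right _ _).trans hℓ
  have hDs : Ds ≤ s.D0 - 1 := by have := (le_max_left Ds Dg).trans (le_max_left _ Dr); omega
  have hDg : Dg ≤ s.D0 - 1 := by have := (le_max_right Ds Dg).trans (le_max_left _ Dr); omega
  have hDr : Dr ≤ s.D0 - 1 := by have := le_max_right (max Ds Dg) Dr; omega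
  have hD2 : 2 ≤ s.D0 := by omega
  have em : (s.pair h j hj).g.m = s.L ^ j := dg_lev_m' s hj.le
  have em' : (s.pair h j hj).g'.m = s.L ^ (j + 1) := dg_lev_m' s hj
  have hsh : ShellOK Ck ck (pp + 1) (s.pair h j hj) (shell (s.T h) Fam.entry (s.L ^ j) (s.L ^ (j + 1))) := by
    have := hshell (s.D0 - 1) hDs (s.T h) Fam.entry B4.entry_adm le_rfl s.ℓ hℓ3 (s.pair h j hj) (Nat.zero_le _)
    rwa [em, em'] at this
  have hrg : RegStable RR n0 2 δ κ (s.pair h j hj) (Extra.zero _) (Extra.zero _)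
      (shell (s.T h) Fam.entry (s.L ^ j) (s.L ^ (j + 1))) :=
    hreg (s.D0 - 1) hDr (s.T h) s.ℓ hℓ2 (s.pair h j hj) _ hsh κ ⟨le_rfl, hκ.2⟩
  obtain ⟨y1, y2, y3⟩ := dg_step_sym s hD2 h j
  exact {
    per := rfl
    shell := hsh
    reg := hrg
    adm := ⟨hδ.1, hκ.1, fun X X' hX φ => hmono δ ⟨hδ.1, hδ2⟩ _ _ (s.lev_ok h (j + 1)) X X' hX φ⟩
    sep := le_rfl
    sepf := le_rfl
    admf := ⟨hδ.1, hκ.1, fun X X' hX φ => hmono δ ⟨hδ.1, hδ2⟩ _ _ (s.lev_ok h j) X X' hX φ⟩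
    col := by
      show 2 * 1 < (s.pair h j hj).g.m
      rw [em]
      exact lt_of_lt_of_le hcol (Nat.pow_le_pow_right s.L_pos hj0)
    inv := fun t v w => B8.cov_sym _ t _ v w
    diag := fun v => dg_diag rfl _ v
    nest := y1
    trans := y2
    square := y3
    half := fun X hX hn => (hgeo (s.D0 - 1) hDg (s.T h) s.ℓ hℓ1 (s.pair h j hj) X hX).2.2.2.1 hn
    diam := fun X hX hn => ⟨(hgeo (s.D0 - 1) hDg (s.T h) s.ℓ hℓ1 (s.pair h j hj) X hX).2.2.2.2 hn,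
      (hgeo (s.D0 - 1) hDg (s.T h) s.ℓ hℓ1 (s.pair h j hj) X hX).2.2.1⟩ }

end

end Claimed.Agent.R285.BC2
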