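import Claimed.Agent.R285.Dg.Defs
import Claimed.Agent.R285.Alg.Comps
import Claimed.Agent.R285.Map.WKit

/-!
# ROW 285, unit BC2, file Dg/TermZ: the subset sum at a real field is within `ε Dom` of one      (helper136)

Steps (1), (2) of the plan of `dg_terminal` (`Dg/Term.lean`).  VERBATIM COPY (prefix `dgt_`) of `Rdo/Term.lean` s.A (`L-RDO-T1`) and of `rdo_norm_le_actNorm`: `Rdo/*` must not be imported under `Dg/`.  No `sorry`.
-/

set_option autoImplicit false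

namespace Claimed.Agent.R285.BC2

open scoped BigOperators ENNReal NNReal
open MeasureTheory ProbabilityTheory Polynomial Filter Topology
open Claimed.Agent.R285 Claimed.Agent.R285.RG Claimed.Agent.R285.B8

noncomputable section


section grid

variable {G : Geom} (g : Grid G) (R : ℕ) (p : Par) (V : Extra g)

/-- the dominating function `∑_W A^{-|W|} (W^κ e^V)(W, φ)` -/
def dgtDom (φ : G.V → ℝ) : ℝ := ∑ W : Finset g.I, (p.A ^ W.card)⁻¹ * Wt g p.δ p.κ V W φ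

theorem dgt_U_empty (hg : g.Ok) (δ : ℝ) (φ : G.V → ℝ) : U g δ ∅ φ = 0 := by
  have h := B4.regulator_add g hg δ ∅ ∅ (fun a ha => absurd ha (Finset.notMem_empty a)) φ
  rw [Finset.union_empty] at h
  linarith

theorem dgt_Wt_empty (hg : g.Ok) (φ : G.V → ℝ) : 1 ≤ Wt g p.δ p.κ V ∅ φ := by
  unfold Wt
  rw [dgt_U_empty g hg, mul_zero, zero_add]
  exact Real.one_le_exp (V.nonneg _ _)

theorem dgt_Wt_union (hg : g.Ok) {X X' : Finset g.I} (h5 : g.Sep 5 X X') (hs : g.Sep V.sep X X') (φ : G.V → ℝ) :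
    Wt g p.δ p.κ V X φ * Wt g p.δ p.κ V X' φ ≤ Wt g p.δ p.κ V (X ∪ X') φ := by
  unfold Wt
  rw [← Real.exp_add, B4.regulator_add g hg p.δ X X' h5 φ]
  apply Real.exp_le_exp.2
  have := V.add X X' φ hs
  linarith

/-- `L-RDO-T1` regulators multiply on the components -/
theorem dgt_Wt_prod (hg : g.Ok) (hκ : 0 ≤ p.κ) (hsep : max 5 V.sep < R) (W : Finset g.I) (φ : G.V → ℝ) :
    ∏ Y ∈ g.comps R W, Wt g p.δ p.κ V Y φ ≤ Wt g p.δ p.κ V W φ := by
  have h5 : 5 ≤ R := le_of_lt (lt_of_le_of_lt (le_max_left _ _) hsep)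
  have hs : V.sep ≤ R := le_of_lt (lt_of_le_of_lt (le_max_right _ _) hsep)
  induction' hn : W.card using Nat.strong_induction_on with n ih generalizing W
  rcases W.eq_empty_or_nonempty with rfl | ⟨a, ha⟩
  · rw [Alg.comps_empty, Finset.prod_empty]
    exact dgt_Wt_empty g p V hg φ
  · obtain ⟨X, hX, haX⟩ := Alg.comps_cover (R := R) ha
    have hsep' := Alg.comps_sep_sdiff hX
    have hV : W = X ∪ (W \ X) := by
      rw [Finset.union_sdiff_of_subset (Alg.comps_subset hX)]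
    have hcard : (W \ X).card < n := by
      rw [← hn]
      exact Finset.card_lt_card (Finset.sdiff_ssubset (Alg.comps_subset hX) ⟨a, haX⟩)
    have h1 := ih _ hcard (W \ X) rfl
    have h2 : ∏ Y ∈ g.comps R W, Wt g p.δ p.κ V Y φ
        = Wt g p.δ p.κ V X φ * ∏ Y ∈ g.comps R (W \ X), Wt g p.δ p.κ V Y φ := by
      conv_lhs => rw [hV]
      rw [Alg.prod_comps_union _ hsep', Alg.comps_self (Alg.comps_conn hX), Finset.prod_singleton]
    rw [h2]
    calc Wt g p.δ p.κ V X φ * ∏ Y ∈ g.comps R (W \ X), Wt g p.δ p.κ V Y φ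
        ≤ Wt g p.δ p.κ V X φ * Wt g p.δ p.κ V (W \ X) φ := mul_le_mul_of_nonneg_left h1 (Real.exp_pos _).le
      _ ≤ Wt g p.δ p.κ V (X ∪ (W \ X)) φ := dgt_Wt_union g p V hg (Alg.sep_le hsep' h5) (Alg.sep_le hsep' hs) φ
      _ = _ := by rw [← hV]

theorem dgt_prod_le (hg : g.Ok) (hκ : 0 ≤ p.κ) (hA : 0 < p.A) (hsep : max 5 V.sep < R) (K : Act g) (z : G.V → ℂ) (φ : G.V → ℝ)
    (ε : ℝ) (h0 : 0 ≤ ε) (hK : ∀ Y, ‖K Y z‖ ≤ ε * ((p.A ^ Y.card)⁻¹ * Wt g p.δ p.κ V Y φ)) (W : Finset g.I) :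
    ‖∏ Y ∈ g.comps R W, K Y z‖ ≤ ε ^ (g.comps R W).card * ((p.A ^ W.card)⁻¹ * Wt g p.δ p.κ V W φ) := by
  have hAm : (p.A ^ W.card)⁻¹ = ∏ Y ∈ g.comps R W, (p.A ^ Y.card)⁻¹ :=
    Alg.mult_eq_prod (R := R) (fun W : Finset g.I => (p.A ^ W.card)⁻¹) (by simp)
      (fun V1 V2 h => by
        show (p.A ^ (V1 ∪ V2).card)⁻¹ = (p.A ^ V1.card)⁻¹ * (p.A ^ V2.card)⁻¹
        rw [Finset.card_union_of_disjoint (Alg.sep_disjoint h), pow_add, mul_inv]) W
  rw [norm_prod]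
  calc ∏ Y ∈ g.comps R W, ‖K Y z‖ ≤ ∏ Y ∈ g.comps R W, (ε * ((p.A ^ Y.card)⁻¹ * Wt g p.δ p.κ V Y φ)) :=
        Finset.prod_le_prod (fun _ _ => norm_nonneg _) (fun Y _ => hK Y)
    _ = ε ^ (g.comps R W).card * ((p.A ^ W.card)⁻¹ * ∏ Y ∈ g.comps R W, Wt g p.δ p.κ V Y φ) := by
        rw [Finset.prod_mul_distrib, Finset.prod_const, Finset.prod_mul_distrib, ← hAm]
    _ ≤ _ := by
        refine mul_le_mul_of_nonneg_left (mul_le_mul_of_nonneg_left (dgt_Wt_prod g R p V hg hκ hsep W φ) ?_) (pow_nonneg h0 _)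
        positivity

/-- `L-RDO-T1` the subset sum is within `ε dgtDom` of one -/
theorem dgt_ZA_le (hg : g.Ok) (hδ : 0 ≤ p.δ) (hκ : 0 ≤ p.κ) (hA : 0 < p.A) (hsep : max 5 V.sep < R) (K : Act g) (z : G.V → ℂ) (φ : G.V → ℝ)
    (ε : ℝ) (h0 : 0 ≤ ε) (h1 : ε ≤ 1) (hK : ∀ Y, ‖K Y z‖ ≤ ε * ((p.A ^ Y.card)⁻¹ * Wt g p.δ p.κ V Y φ)) :
    ‖ZA g R K z - 1‖ ≤ ε * dgtDom g p V φ ∧ ‖ZA g R K z‖ ≤ dgtDom g p V φ := by
  obtain ⟨T, hT⟩ : ∃ T : Finset g.I → ℝ, T = fun W => (p.A ^ W.card)⁻¹ * Wt g p.δ p.κ V W φ := ⟨_, rfl⟩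
  have hT0 : ∀ W, 0 ≤ T W := by
    intro W
    rw [hT]
    exact mul_nonneg (by positivity) (Real.exp_pos _).le
  have hTe : 1 ≤ T ∅ := by
    rw [hT]
    simpa using dgt_Wt_empty g p V hg φ
  have hD : dgtDom g p V φ = T ∅ + ∑ W ∈ Finset.univ.erase (∅ : Finset g.I), T W := by
    rw [Finset.add_sum_erase _ _ (Finset.mem_univ _), hT]
    rfl
  have e : ZA g R K z = ∑ W : Finset g.I, ∏ Y ∈ g.comps R W, K Y z := by
    unfold ZA
    rw [Finset.sum_apply]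
    exact Finset.sum_congr rfl fun W _ => Finset.prod_apply _ _ _
  have e2 : ZA g R K z - 1 = ∑ W ∈ Finset.univ.erase (∅ : Finset g.I), ∏ Y ∈ g.comps R W, K Y z := by
    rw [e, ← Finset.add_sum_erase _ _ (Finset.mem_univ (∅ : Finset g.I)), Alg.comps_empty, Finset.prod_empty]
    ring
  have hS0 : 0 ≤ ∑ W ∈ Finset.univ.erase (∅ : Finset g.I), T W := Finset.sum_nonneg fun W _ => hT0 W
  have h2 : ‖ZA g R K z - 1‖ ≤ ε * ∑ W ∈ Finset.univ.erase (∅ : Finset g.I), T W := by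
    rw [e2, Finset.mul_sum]
    refine (norm_sum_le _ _).trans (Finset.sum_le_sum fun W hW => ?_)
    have hne : W.Nonempty := Finset.nonempty_iff_ne_empty.2 (Finset.ne_of_mem_erase hW)
    obtain ⟨a, ha⟩ := hne
    obtain ⟨X, hX, -⟩ := Alg.comps_cover (R := R) ha
    have hc : (g.comps R W).card ≠ 0 := Finset.card_ne_zero_of_mem hX
    refine (dgt_prod_le g R p V hg hκ hA hsep K z φ ε h0 hK W).trans ?_
    have h3 : ε ^ (g.comps R W).card ≤ ε := pow_le_of_le_one h0 h1 hc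
    have h4 := mul_le_mul_of_nonneg_right h3 (hT0 W)
    rw [hT] at h4
    rw [hT]
    exact h4
  constructor
  · rw [hD]
    refine h2.trans ?_
    have : 0 ≤ ε * T ∅ := mul_nonneg h0 (hT0 _)
    linarith
  · rw [hD]
    have h5 : ‖ZA g R K z‖ ≤ ‖ZA g R K z - 1‖ + 1 := by
      have := norm_add_le (ZA g R K z - 1) 1
      rwa [sub_add_cancel, norm_one] at this
    have h6 : ε * ∑ W ∈ Finset.univ.erase (∅ : Finset g.I), T W ≤ 1 * ∑ W ∈ Finset.univ.erase (∅ : Finset g.I), T W :=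
      mul_le_mul_of_nonneg_right h1 hS0
    linarith

end grid

/-- real fields lie in every strip -/
theorem dgt_toC_mem_strip {G : Geom} {h0 : ℝ≥0} (hh : 0 < h0) (g : Grid G) (X : Finset g.I) (φ : G.V → ℝ) : toC φ ∈ strip h0 g X := by
  have := Hol.toC_add_mem_strip (h := h0) (g := g) (X := X) φ (f := 0) (by rw [Hol.tnorm_zero]; exact hh)
  simpa using this

/-- pointwise bound at a real field from the activity norm -/
theorem dgt_norm_le_actNorm {G : Geom} (p : Par) (hh : 0 < p.h0) (hA : 0 < p.A) (g : Grid G) (V : Extra g) (K : Act g) (C : ℝ) (hC : 0 ≤ C)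
    (hK : actNorm p g V K ≤ ENNReal.ofReal C) (Y : Finset g.I) (φ : G.V → ℝ) :
    ‖K Y (toC φ)‖ ≤ C * ((p.A ^ Y.card)⁻¹ * Wt g p.δ p.κ V Y φ) := by
  have h1 := Hol.nnnorm_le_fnSize_mul p g V Y (K Y) φ 0 (by rw [Hol.tnorm_zero]; exact hh)
  rw [add_zero] at h1
  have h2 := (w_le_actNorm p g V K Y).trans hK
  have hAn : 0 < p.A ^ Y.card := pow_pos hA _
  have hW : 0 ≤ Wt g p.δ p.κ V Y φ := (Real.exp_pos _).le
  have h3 : fnSize p g V Y (K Y) ≤ ENNReal.ofReal (C * (p.A ^ Y.card)⁻¹) := by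
    rw [ENNReal.ofReal_mul hC, ENNReal.ofReal_inv_of_pos hAn, ← div_eq_mul_inv,
      ENNReal.le_div_iff_mul_le (Or.inl (by simp [hAn])) (Or.inl ENNReal.ofReal_ne_top), mul_comm]
    exact h2
  have h4 := h1.trans (mul_le_mul' h3 le_rfl)
  rw [← ENNReal.ofReal_mul (by positivity), ← enorm_eq_nnnorm, ← ofReal_norm] at h4
  have h5 := (ENNReal.ofReal_le_ofReal_iff (by positivity)).1 h4
  rw [mul_assoc] at h5
  exact h5


end

end Claimed.Agent.R285.BC2
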