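import Claimed.Agent.R285.Dg.TermM
import Claimed.Agent.R285.Dg.TermZ
import Claimed.Agent.R285.Hol.Cv

/-!
# ROW 285, unit BC2, file Dg/Term: the terminal integration (field `Tow.OK.term`)      (architect + prover helper136).  No `sorry`.

[B] l.1110-1120.  Boundedly many blocks (`g.n ≤ nb`), small activity, REAL background `w cos (2π x₁/n) + θ`, `|w| ≤ 1`: the terminal average of the subset sum is within `Ct ‖K‖` of one.
DO NOT import `Rdo/*`, `Map/Tower.lean`, `Read/B8b.lean` (import cycles at the final link): copy what you need with the prefix `dgt_`.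
-/

set_option autoImplicit false

namespace Claimed.Agent.R285.BC2

open scoped BigOperators ENNReal NNReal
open MeasureTheory ProbabilityTheory Polynomial Filter Topology
open Claimed.Agent.R285.RG Claimed.Agent.R285.B8

noncomputable section

theorem dgt_difs_cont {G : Geom} (l : List (Fin 4)) : ∀ x : ℤ × ℤ,
    Continuous fun φ : G.V → ℝ => (l.foldr (fun i g => dif (dir i) g) (G.lift φ)) x := by
  induction l with
  | nil => intro x; exact continuous_apply _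
  | cons i l ih =>
    intro x
    exact (ih (x + dir i)).sub (ih x)

theorem dgt_dif_cont {G : Geom} (e x : ℤ × ℤ) : Continuous fun φ : G.V → ℝ => dif e (G.lift φ) x :=
  (continuous_apply _).sub (continuous_apply _)

/-- copy of `Obs.obs_U_continuous` -/
theorem dgt_U_continuous {G : Geom} (g : Grid G) (δ : ℝ) (X : Finset g.I) : Continuous fun φ : G.V → ℝ => U g δ X φ := by
  unfold U gE PE TE
  refine (Continuous.add ?_ ?_).add ?_
  · refine continuous_const.mul (continuous_finsetSum _ fun v _ => continuous_finsetSum _ fun e _ => ?_)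
    exact (dgt_dif_cont _ _).pow 2
  · refine continuous_const.mul (continuous_const.mul
      (continuous_finsetSum _ fun v _ => continuous_finsetSum _ fun e _ => ?_))
    split_ifs
    · exact continuous_const
    · exact (dgt_dif_cont _ _).pow 2
  · refine continuous_finsetSum _ fun b _ => continuous_const.mul (Continuous.pow ?_ 2)
    refine NNReal.continuous_coe.comp ?_
    refine Continuous.finset_sup_apply fun v _ => ?_
    unfold nab
    refine Continuous.finset_sup_apply fun w _ => ?_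
    exact (dgt_difs_cont _ _).nnnorm

/-- **(S1b) terminal integration.**   ORDER: `δ ≤ δ0`; `κ ≤ κ0`; `hh, A, nb`; `Ct`; then everything else.
PLAN.  `Cb := B4.terminal_bounds 1 1 64 0`; `(δt, κt, C) := B4.regulator_terminal Cb`; `δ0 := δt`, `κ0 := κt / 2`.   Put `bg v = w cos1 G v + θ`, `ψ = bg + ζ`, `p = ⟨δ, κ, hh, A, ω⟩`, `V = Extra.zero g`.
 (1) POINTWISE: `‖K Y (toC ψ)‖ ≤ ε ((A^|Y|)⁻¹ Wt g δ κ V Y ψ)`: `nnnorm_le_fnSize_mul` with `f = 0` (`Hol.tnorm_zero`, `0 < hh`), `w_le_actNorm`.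
 (2) `‖ZA g R K (toC ψ) - 1‖ ≤ ε Dom ψ`, `Dom ψ = ∑_W (A^|W|)⁻¹ Wt .. W ψ`: copy of `Rdo.rdo_Wt_prod`, `rdo_prod_le`, `rdo_ZA_le` (`Rdo/Term.lean`, PROVED, 110 l.; `max 5 V.sep < R`: `Geo.Ok.hs`, `hrR`).
 (3) REGULATOR MOMENT: `∫⁻ ofReal (Wt .. W (bg + ζ)) ∂(gauss G Γ) ≤ cT^|W|`: `Reg.reg_U_add_le` (`U (bg + ζ) ≤ 2 U bg + 2 U ζ`), `U bg ≤ bgC δ |W|` (`Tow.tw_U_smooth` with `a = 2π`, `b = (2π)²` as in `Tow.tw_cos_energy`;
     the constant `θ` drops out of all differences; `g.m ≤ G.M`), `B4.regulator_terminal` at `2κ ≤ κt` (`W g δ (2κ) W ζ = exp (2κ U)`), `IsTerminal.psd`, `B4.terminal_bounds` (`2 g.m ≤ G.M`).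
 (4) MEASURABILITY: `ζ ↦ ZA g R K (toC bg + toC ζ)` is continuous: every `K Y` is `DifferentiableOn ℂ` on the open strip (`Act.Ok.fn`, `B4.strip_isOpen`), real fields lie in the strip (`dg_real_mem_strip` of `Dg/Chain.lean`: copy), `ζ ↦ toC bg + toC ζ` is continuous.
 (5) INTEGRABILITY: (4) + `‖ZA‖ ≤ Dom` + (3) (`lintegral_mono`: no measurability of `Dom` is needed); `gauss G Γ` is a probability measure (`Reg.reg_gauss_prob`).
 (6) `‖conv - 1‖ = ‖∫ (ZA - 1)‖ ≤ ∫⁻ .. ≤ ε ∑_W (A^|W|)⁻¹ cT^|W| ≤ ε 2^(nb²) max(1, cT)^(nb²)` (`1 ≤ A`; `|W| ≤ g.n² ≤ nb²`, number of `W` `≤ 2^(nb²)`). -/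
theorem dg_terminal (c : Geo) (hc : c.Ok) : ∃ δ0 > (0 : ℝ), ∀ δ ∈ Set.Ioc 0 δ0, ∃ κ0 > (0 : ℝ), ∀ κ ∈ Set.Ioc 0 κ0, ∀ hh : ℝ≥0, 0 < hh →
    ∀ A : ℝ, 1 ≤ A → ∀ nb : ℕ, ∃ Ct : ℝ, 0 ≤ Ct ∧ ∀ (ω : ℝ) (G : Geom) (g : Grid G), G.bc = BC.per → g.Ok → g.n ≤ nb → 2 * g.m ≤ G.M →
      ∀ Γ : Matrix G.V G.V ℝ, IsTerminal G Fam.entry g.m Γ → ∀ K : Act g, Act.Ok ⟨δ, κ, hh, A, ω⟩ c.col c.R K →
      ∀ ε : ℝ, 0 ≤ ε → ε ≤ 1 → actNorm ⟨δ, κ, hh, A, ω⟩ g (Extra.zero g) K ≤ ENNReal.ofReal ε → ∀ w θ : ℝ, |w| ≤ 1 →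
        ‖conv Γ (ZA g c.R K) (toC fun v => w * cos1 G v + θ) - 1‖ ≤ Ct * ε := by
  obtain ⟨δ0, hδ0, H⟩ := dgt_moment
  refine ⟨δ0, hδ0, fun δ hδ => ?_⟩
  obtain ⟨κ0, hκ0, cT, hcT, H⟩ := H δ hδ
  refine ⟨κ0, hκ0, fun κ hκ hh hhh A hA nb => ?_⟩
  refine ⟨2 ^ (nb * nb) * max 1 cT.toReal ^ (nb * nb), by positivity, fun ω G g hG hg hn h2 Γ hΓ K hK ε hε0 hε1 hnorm w θ hw => ?_⟩
  have hA0 : (0 : ℝ) < A := by linarith
  have hsep : max 5 (Extra.zero g).sep < c.R := by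
    have h1 := hc.hs
    have h3 := hc.hrR
    have h4 : (5 : ℕ) ≤ max 5 c.sepV := le_max_left _ _
    show max 5 0 < c.R
    rw [max_eq_left (Nat.zero_le _)]
    omega
  obtain ⟨bg, hbg⟩ : ∃ bg : G.V → ℝ, bg = fun v => w * cos1 G v + θ := ⟨_, rfl⟩
  rw [← hbg]
  have hadd : ∀ ζ : G.V → ℝ, toC bg + toC ζ = toC (bg + ζ) := by
    intro ζ
    funext v
    simp [toC]
  -- pointwise
  have hpt : ∀ ζ : G.V → ℝ, ‖ZA g c.R K (toC bg + toC ζ) - 1‖ ≤ ε * dgtDom g ⟨δ, κ, hh, A, ω⟩ (Extra.zero g) (bg + ζ) := by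
    intro ζ
    rw [hadd]
    exact (dgt_ZA_le g c.R ⟨δ, κ, hh, A, ω⟩ (Extra.zero g) hg hδ.1.le hκ.1.le hA0 hsep K _ (bg + ζ) ε hε0 hε1
      (fun Y => dgt_norm_le_actNorm ⟨δ, κ, hh, A, ω⟩ hhh hA0 g (Extra.zero g) K ε hε0 hnorm Y (bg + ζ))).1
  -- continuity
  have hcont : Continuous fun ζ : G.V → ℝ => ZA g c.R K (toC bg + toC ζ) := by
    have e : (fun ζ : G.V → ℝ => ZA g c.R K (toC bg + toC ζ))
        = fun ζ : G.V → ℝ => ∑ W : Finset g.I, ∏ X ∈ g.comps c.R W, K X (toC bg + toC ζ) := by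
      funext ζ
      simp only [ZA, Finset.sum_apply, Finset.prod_apply]
    rw [e]
    refine continuous_finsetSum _ fun W _ => continuous_finsetProd _ fun X _ => ?_
    exact Hol.continuous_comp_shift (hK.fn X).hol (dgt_toC_mem_strip hhh g X bg)
  -- the moment of the dominating function
  have hWt0 : ∀ (W : Finset g.I) (φ : G.V → ℝ), 0 ≤ Wt g δ κ (Extra.zero g) W φ := fun W φ => (Real.exp_pos _).le
  have hcard : ∀ W : Finset g.I, W.card ≤ nb * nb := by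
    intro W
    calc W.card ≤ Fintype.card g.I := Finset.card_le_univ W
      _ = g.n * g.n := by simp
      _ ≤ nb * nb := Nat.mul_le_mul hn hn
  have hmom : ∫⁻ ζ, ENNReal.ofReal (dgtDom g ⟨δ, κ, hh, A, ω⟩ (Extra.zero g) (bg + ζ)) ∂(gauss G Γ)
      ≤ ENNReal.ofReal (2 ^ (nb * nb) * max 1 cT.toReal ^ (nb * nb)) := by
    have h1 : ∀ ζ : G.V → ℝ, ENNReal.ofReal (dgtDom g ⟨δ, κ, hh, A, ω⟩ (Extra.zero g) (bg + ζ))
        ≤ ∑ W : Finset g.I, ENNReal.ofReal (Wt g δ κ (Extra.zero g) W (bg + ζ)) := by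
      intro ζ
      show ENNReal.ofReal (∑ W : Finset g.I, (A ^ W.card)⁻¹ * Wt g δ κ (Extra.zero g) W (bg + ζ)) ≤ _
      rw [ENNReal.ofReal_sum_of_nonneg (fun W _ => mul_nonneg (by positivity) (hWt0 W _))]
      refine Finset.sum_le_sum fun W _ => ENNReal.ofReal_le_ofReal ?_
      have h3 : (A ^ W.card)⁻¹ ≤ 1 := inv_le_one_of_one_le₀ (one_le_pow₀ hA)
      calc (A ^ W.card)⁻¹ * Wt g δ κ (Extra.zero g) W (bg + ζ) ≤ 1 * Wt g δ κ (Extra.zero g) W (bg + ζ) :=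
            mul_le_mul_of_nonneg_right h3 (Real.exp_pos _).le
        _ = _ := one_mul _
    have hmeas : ∀ W : Finset g.I, Measurable fun ζ : G.V → ℝ => ENNReal.ofReal (Wt g δ κ (Extra.zero g) W (bg + ζ)) := by
      intro W
      have hc : Continuous fun ζ : G.V → ℝ => Wt g δ κ (Extra.zero g) W (bg + ζ) := by
        unfold Wt
        refine Real.continuous_exp.comp (Continuous.add (continuous_const.mul ?_) continuous_const)
        exact (dgt_U_continuous g δ W).comp (continuous_const.add continuous_id)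
      exact hc.measurable.ennreal_ofReal
    calc ∫⁻ ζ, ENNReal.ofReal (dgtDom g ⟨δ, κ, hh, A, ω⟩ (Extra.zero g) (bg + ζ)) ∂(gauss G Γ)
        ≤ ∫⁻ ζ, ∑ W : Finset g.I, ENNReal.ofReal (Wt g δ κ (Extra.zero g) W (bg + ζ)) ∂(gauss G Γ) := lintegral_mono h1
      _ = ∑ W : Finset g.I, ∫⁻ ζ, ENNReal.ofReal (Wt g δ κ (Extra.zero g) W (bg + ζ)) ∂(gauss G Γ) :=
          lintegral_finsetSum _ fun W _ => hmeas W
      _ ≤ ∑ W : Finset g.I, cT ^ W.card := by
          refine Finset.sum_le_sum fun W _ => ?_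
          rw [hbg]
          exact H κ hκ G g hG hg h2 Γ hΓ W w θ hw
      _ ≤ ∑ _W : Finset g.I, ENNReal.ofReal (max 1 cT.toReal ^ (nb * nb)) := by
          refine Finset.sum_le_sum fun W _ => ?_
          rw [← ENNReal.ofReal_toReal (ENNReal.pow_ne_top hcT), ENNReal.toReal_pow]
          apply ENNReal.ofReal_le_ofReal
          calc cT.toReal ^ W.card ≤ max 1 cT.toReal ^ W.card := pow_le_pow_left₀ ENNReal.toReal_nonneg (le_max_right _ _) _
            _ ≤ max 1 cT.toReal ^ (nb * nb) := pow_le_pow_right₀ (le_max_left _ _) (hcard W)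
      _ = ((Finset.univ : Finset (Finset g.I)).card : ℝ≥0∞) * ENNReal.ofReal (max 1 cT.toReal ^ (nb * nb)) := by
          rw [Finset.sum_const, nsmul_eq_mul]
      _ ≤ ENNReal.ofReal (2 ^ (nb * nb)) * ENNReal.ofReal (max 1 cT.toReal ^ (nb * nb)) := by
          gcongr
          rw [Finset.card_univ, Fintype.card_finset, ← ENNReal.ofReal_natCast]
          apply ENNReal.ofReal_le_ofReal
          push_cast
          refine pow_le_pow_right₀ (by norm_num) ?_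
          calc Fintype.card g.I = g.n * g.n := by simp
            _ ≤ nb * nb := Nat.mul_le_mul hn hn
      _ = _ := by rw [← ENNReal.ofReal_mul (by positivity)]
  -- integrability
  have hlin : ∫⁻ ζ, ‖ZA g c.R K (toC bg + toC ζ) - 1‖ₑ ∂(gauss G Γ) ≤ ENNReal.ofReal (ε * (2 ^ (nb * nb) * max 1 cT.toReal ^ (nb * nb))) := by
    calc ∫⁻ ζ, ‖ZA g c.R K (toC bg + toC ζ) - 1‖ₑ ∂(gauss G Γ)
        ≤ ∫⁻ ζ, ENNReal.ofReal ε * ENNReal.ofReal (dgtDom g ⟨δ, κ, hh, A, ω⟩ (Extra.zero g) (bg + ζ)) ∂(gauss G Γ) := by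
          refine lintegral_mono fun ζ => ?_
          rw [← ENNReal.ofReal_mul hε0, ← ofReal_norm]
          exact ENNReal.ofReal_le_ofReal (hpt ζ)
      _ = ENNReal.ofReal ε * ∫⁻ ζ, ENNReal.ofReal (dgtDom g ⟨δ, κ, hh, A, ω⟩ (Extra.zero g) (bg + ζ)) ∂(gauss G Γ) :=
          lintegral_const_mul' _ _ ENNReal.ofReal_ne_top
      _ ≤ ENNReal.ofReal ε * ENNReal.ofReal (2 ^ (nb * nb) * max 1 cT.toReal ^ (nb * nb)) := by gcongr
      _ = _ := by rw [← ENNReal.ofReal_mul hε0]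
  have hint1 : Integrable (fun ζ : G.V → ℝ => ZA g c.R K (toC bg + toC ζ) - 1) (gauss G Γ) :=
    ⟨(hcont.sub continuous_const).aestronglyMeasurable, lt_of_le_of_lt hlin ENNReal.ofReal_lt_top⟩
  have hint : Integrable (fun ζ : G.V → ℝ => ZA g c.R K (toC bg + toC ζ)) (gauss G Γ) := by
    have := hint1.add (integrable_const (1 : ℂ))
    refine this.congr (Filter.Eventually.of_forall fun ζ => ?_)
    show ZA g c.R K (toC bg + toC ζ) - 1 + 1 = _
    ring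
  have e1 : conv Γ (ZA g c.R K) (toC bg) - 1 = ∫ ζ, (ZA g c.R K (toC bg + toC ζ) - 1) ∂(gauss G Γ) := by
    unfold conv
    rw [integral_sub hint (integrable_const _)]
    simp
  rw [e1]
  have h5 := norm_integral_le_lintegral_norm (μ := gauss G Γ) (fun ζ : G.V → ℝ => ZA g c.R K (toC bg + toC ζ) - 1)
  refine h5.trans ?_
  have h6 : ∫⁻ ζ, ENNReal.ofReal ‖ZA g c.R K (toC bg + toC ζ) - 1‖ ∂(gauss G Γ)
      ≤ ENNReal.ofReal (ε * (2 ^ (nb * nb) * max 1 cT.toReal ^ (nb * nb))) := by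
    simpa only [ofReal_norm] using hlin
  have h7 := ENNReal.toReal_mono ENNReal.ofReal_ne_top h6
  rw [ENNReal.toReal_ofReal (by positivity)] at h7
  linarith

end

end Claimed.Agent.R285.BC2
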