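import Claimed.Agent.R285.Dg.Chain
import Claimed.Agent.R285.Dg.Shoot
import Claimed.Agent.R285.Dg.StepOK
import Claimed.Agent.R285.Dg.Term
import Claimed.Agent.R285.Map.WeakHigh

/-!
# ROW 285, unit BC2, file Dg/Tow: the tower (contract S1 of `Read/BC2.lean`).      Architect helper136.
`shoot_raw` (S2a): `Dg/Pure.lean`.  `conv_add` (S3a), `dg_chain` (S3): PROVED in `Dg/Chain.lean`.  `dg_shoot` (S2): PROVED in `Dg/Shoot.lean` (one-step lemmas: `Dg/Step.lean`).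
`tow_exists` (S1) is PROVED here from `dg_stepOK` (`Dg/StepOK.lean`), `dg_terminal` (`Dg/Term.lean`), `B8.wk_step_high` (`Map/WeakHigh.lean`).
-/

set_option autoImplicit false

namespace Claimed.Agent.R285.BC2

open scoped BigOperators ENNReal NNReal
open MeasureTheory ProbabilityTheory Polynomial Filter Topology
open Claimed.Agent.R285.RG Claimed.Agent.R285.B8

noncomputable section

variable {G : Geom}

theorem dg_lev_m (sc : Sc) (h : ℕ) : (sc.lev h h).m = sc.L ^ h := by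
  show sc.L ^ min h h = _
  rw [min_self]

theorem dg_lev_n (sc : Sc) (h : ℕ) : (sc.lev h h).n ≤ sc.D0 := by
  show (sc.D0 * sc.L ^ h) / sc.L ^ min h h ≤ sc.D0
  rw [min_self, Nat.mul_div_cancel _ (Nat.pow_pos sc.L_pos)]

theorem dg_lev_2m (sc : Sc) (h : ℕ) (hD : 2 ≤ sc.D0) : 2 * (sc.lev h h).m ≤ (sc.T h).M := by
  rw [dg_lev_m]
  exact Nat.mul_le_mul_right _ hD

/-- **(S1)** the constants can be chosen. -/
theorem tow_exists : ∃ T : Tow, T.OK := by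
  obtain ⟨n0, D1, Ck, ck, hck, δa, hδa, Hs⟩ := dg_stepOK
  have hc : (geoDg Ck ck n0).Ok := geoDg_ok hck
  obtain ⟨δb, hδb, Ht⟩ := dg_terminal (geoDg Ck ck n0) hc
  obtain ⟨δ, hδdef⟩ : ∃ δ : ℝ, δ = min δa δb := ⟨_, rfl⟩
  have hδ : 0 < δ := by rw [hδdef]; exact lt_min hδa hδb
  obtain ⟨κa, hκa, Hs⟩ := Hs δ ⟨hδ, by rw [hδdef]; exact min_le_left _ _⟩
  obtain ⟨κb, hκb, Ht⟩ := Ht δ ⟨hδ, by rw [hδdef]; exact min_le_right _ _⟩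
  obtain ⟨κ, hκdef⟩ : ∃ κ : ℝ, κ = min κa κb := ⟨_, rfl⟩
  have hκ : 0 < κ := by rw [hκdef]; exact lt_min hκa hκb
  obtain ⟨ℓa, Hs⟩ := Hs κ ⟨hκ, by rw [hκdef]; exact min_le_left _ _⟩
  have Ht := Ht κ ⟨hκ, by rw [hκdef]; exact min_le_right _ _⟩
  obtain ⟨h0, hh0, Hw⟩ := wk_step_high (geoDg Ck ck n0) hc δ κ hδ hκ
  obtain ⟨ℓb, D2, Hw⟩ := Hw (1 / 4) (by norm_num)
  obtain ⟨ℓ, hℓdef⟩ : ∃ ℓ : ℕ, ℓ = max (max ℓa ℓb) 1 := ⟨_, rfl⟩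
  have hℓa : ℓa ≤ ℓ := by rw [hℓdef]; exact (le_max_left _ _).trans (le_max_left _ _)
  have hℓb : ℓb ≤ ℓ := by rw [hℓdef]; exact (le_max_right _ _).trans (le_max_left _ _)
  have hℓ1 : 1 ≤ ℓ := by rw [hℓdef]; exact le_max_right _ _
  obtain ⟨α0, A0, Hw⟩ := Hw ℓ hℓb
  obtain ⟨C, ε0, hε0, Hw⟩ := Hw (max A0 1) (le_max_left _ _)
  have hL2 : 2 ≤ 2 ^ ℓ := by
    calc 2 = 2 ^ 1 := (pow_one 2).symm
      _ ≤ 2 ^ ℓ := Nat.pow_le_pow_right (by norm_num) hℓ1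
  obtain ⟨d, hddef⟩ : ∃ d : ℕ, d = D1 + D2 + 2 := ⟨_, rfl⟩
  have hDd : d < (2 ^ ℓ) ^ d := Nat.lt_pow_self (by omega)
  obtain ⟨sc, hsc⟩ : ∃ sc : Sc, sc = ⟨ℓ, (2 ^ ℓ) ^ d, by positivity⟩ := ⟨_, rfl⟩
  have hscℓ : sc.ℓ = ℓ := by rw [hsc]
  have hscL : sc.L = 2 ^ ℓ := by rw [hsc]; rfl
  have hscD : sc.D0 = (2 ^ ℓ) ^ d := by rw [hsc]
  obtain ⟨Ct, hCt, Ht⟩ := Ht h0 hh0 (max A0 1) (le_max_right _ _) sc.D0
  have hπ := Real.pi_pos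
  obtain ⟨ω, hωdef⟩ : ∃ ω : ℝ, ω = 2 * Real.pi / max α0 1 := ⟨_, rfl⟩
  have hm : (0 : ℝ) < max α0 1 := lt_of_lt_of_le one_pos (le_max_right _ _)
  have hω : 0 < ω := by rw [hωdef]; positivity
  have hα : α0 ≤ Step.alpha ω := by
    have : Step.alpha ω = max α0 1 := by
      unfold Step.alpha
      rw [hωdef]
      field_simp
    rw [this]
    exact le_max_left _ _
  have hj0 : 2 < sc.L ^ 2 := by
    rw [hscL]
    nlinarith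
  subst hsc
  refine ⟨⟨geoDg Ck ck n0, δ, κ, h0, ⟨ℓ, (2 ^ ℓ) ^ d, by positivity⟩, 2, ω, max A0 1, C, ε0, Ct, 1, 1⟩, ?_⟩
  exact {
    geo := hc
    δ_pos := hδ
    κ_pos := hκ
    hh_pos := hh0
    L_ge := hL2
    D0_pow := ⟨d, rfl⟩
    ω_pos := hω
    A_ge := le_max_right _ _
    ε0_pos := hε0
    w1_pos := one_pos
    ε1_pos := one_pos
    step := fun h j hj hj0' => Hw _ (by
        show D2 ≤ (2 ^ ℓ) ^ d - 1
        omega) ω _ _ _ hω hα (Hs h0 (max A0 1) ω _ hℓa (by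
        show D1 ≤ (2 ^ ℓ) ^ d
        omega) 2 hj0 h j hj hj0')
    term := fun h hh Γ hΓ K hK ε hε0' hε1 hle w θ hw =>
      Ht ω _ _ rfl (Sc.lev_ok _ h h) (dg_lev_n _ h) (dg_lev_2m _ h (by
        show 2 ≤ (2 ^ ℓ) ^ d
        omega)) Γ (by rw [dg_lev_m]; exact hΓ) K hK ε hε0' hε1 hle w θ hw }

end

end Claimed.Agent.R285.BC2
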