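import Claimed.Agent.R285.Dg.Defs
import Claimed.Agent.R285.Reg.Gauss
import Claimed.Agent.R285.Ker.Ext
import Claimed.Agent.R285.Map.WKit

/-!
# ROW 285, unit DG, (S3): the exact chain on real backgrounds                                    (helper136)

`conv_add` (S3a, strong form: with the integrability of the inner convolution), `dg_chain` (S3).  No `sorry`.
The covariance of the reference model is `shell (L^{j0}) (L^{j0+n}) + Γ_*` (the polynomial shells carry a constant mode: it is NOT the terminal covariance at `L^{j0}`).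
-/

set_option autoImplicit false

namespace Claimed.Agent.R285.BC2

open scoped BigOperators ENNReal NNReal
open MeasureTheory ProbabilityTheory Polynomial Filter Topology
open Claimed.Agent.R285.RG Claimed.Agent.R285.B8

noncomputable section

variable {G : Geom}

/-- **(S3a)** semigroup property of Gaussian convolutions, with the integrability of the inner convolution -/
theorem conv_add (Γ Γ' : Matrix G.V G.V ℝ) (hΓ : Γ.PosSemidef) (hΓ' : Γ'.PosSemidef) (F : Fn G) (z : G.V → ℂ)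
    (hint : Integrable (fun ζ => F (z + toC ζ)) (gauss G (Γ + Γ'))) :
    Integrable (fun ζ => conv Γ F (z + toC ζ)) (gauss G Γ') ∧ conv (Γ + Γ') F z = conv Γ' (conv Γ F) z := by
  have hadd : ((gauss G Γ').prod (gauss G Γ)).map (fun x => x.1 + x.2) = gauss G (Γ + Γ') := by
    rw [add_comm Γ Γ']
    exact Reg.reg_gauss_add hΓ' hΓ
  have : IsProbabilityMeasure (gauss G Γ) := Reg.reg_gauss_prob Γ
  have : IsProbabilityMeasure (gauss G Γ') := Reg.reg_gauss_prob Γ'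
  have hm : Measurable (fun x : (G.V → ℝ) × (G.V → ℝ) => x.1 + x.2) := by fun_prop
  rw [← hadd] at hint
  have hF2 := (integrable_map_measure hint.1 hm.aemeasurable).1 hint
  have e : ∀ ζ' ζ : G.V → ℝ, F (z + toC (ζ' + ζ)) = F (z + toC ζ' + toC ζ) := by
    intro ζ' ζ
    congr 1
    funext v
    simp [toC, add_assoc]
  constructor
  · have h1 := hF2.integral_prod_left
    refine h1.congr (Filter.Eventually.of_forall fun ζ' => ?_)
    exact integral_congr_ae (Filter.Eventually.of_forall fun ζ => e ζ' ζ)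
  · unfold conv
    rw [← hadd, integral_map hm.aemeasurable hint.1,
      integral_prod (fun x : (G.V → ℝ) × (G.V → ℝ) => F (z + toC (x.1 + x.2))) hF2]
    refine integral_congr_ae (Filter.Eventually.of_forall fun ζ' => ?_)
    exact integral_congr_ae (Filter.Eventually.of_forall fun ζ => e ζ' ζ)

/-- shells add up -/
theorem dg_shell_add (G : Geom) (F : Fam) (m S S' : ℕ) : shell G F m S + shell G F S S' = shell G F m S' := by
  simp only [shell, cov]
  rw [← map_add]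
  congr 1
  unfold Fam.shellP
  rw [← mul_add, ← divX_add]
  congr 2
  ring

theorem dg_shell_self (G : Geom) (F : Fam) (m : ℕ) : shell G F m m = 0 := by
  simp [shell, cov, Fam.shellP]

/-- real fields are in every strip -/
theorem dg_real_mem_strip {h0 : ℝ≥0} (hh : 0 < h0) (g : Grid G) (X : Finset g.I) (φ : G.V → ℝ) : toC φ ∈ strip h0 g X := by
  have h := w_zero_mem_strip hh g X
  simp only [strip, Set.mem_ofPred_eq] at h ⊢
  have e : (fun v => (toC φ v).im) = fun v => ((0 : G.V → ℂ) v).im := by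
    funext v
    simp [toC]
  rw [e]
  exact h

theorem dg_toC_add (φ ζ : G.V → ℝ) : toC φ + toC ζ = toC (φ + ζ) := by
  funext v
  simp [toC]

/-- the shell from `L^a` to `L^(a+k)` is positive semidefinite -/
theorem dg_shell_psd (sc : Sc) (G : Geom) (a k : ℕ) : (shell G Fam.entry (sc.L ^ a) (sc.L ^ (a + k))).PosSemidef := by
  have h := Ker.shell_psd G Fam.entry Ker.entry_adm (sc.ℓ * k) (sc.L ^ a) (Nat.one_le_pow _ _ sc.L_pos)
  have e : 2 ^ (sc.ℓ * k) * sc.L ^ a = sc.L ^ (a + k) := by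
    rw [pow_add, pow_mul, mul_comm]
    rfl
  rwa [e] at h

/-- unfolding of the history -/
theorem hist_succ (c : Geo) (ω : ℝ) (sc : Sc) (h j0 : ℕ) (x0 : ℂ × ℂ × Act (sc.lev h j0)) (i : ℕ) (hj : j0 + i < h) :
    hist c ω sc h j0 x0 (i + 1) = (stp sc h (j0 + i) hj).Phi c ω false (hist c ω sc h j0 x0 i) := by
  show (if hj : j0 + i < h then (stp sc h (j0 + i) hj).Phi c ω false (hist c ω sc h j0 x0 i) else 0 :
    ℂ × ℂ × Act (sc.lev h (j0 + (i + 1)))) = _
  exact dif_pos hj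

/-- **(S3)** the exact chain on real backgrounds: `E_{C₁} Z(K₀)(φ + ·) = cst · E_{Γ_*} Z(K_n)(φ + ·)`, `C₁ = refCov = shell (L^{j0}) (L^{j0+n}) + Γ_*` -/
theorem dg_chain (T : Tow) (hT : T.OK) (n : ℕ) (x0 : ℂ × ℂ × Act (T.sc.lev (T.j0 + n) T.j0))
    (hx : ∀ i ≤ n, Adm T.p T.c (T.sc.lev (T.j0 + n) 0) (hist T.c T.ω T.sc (T.j0 + n) T.j0 x0 i).2.2 ∧
      (hist T.c T.ω T.sc (T.j0 + n) T.j0 x0 i).2.1 = 0 ∧ size3 T.p _ (Extra.zero _) (hist T.c T.ω T.sc (T.j0 + n) T.j0 x0 i) ≤ T.ε0)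
    (Γs : Matrix (T.sc.T (T.j0 + n)).V (T.sc.T (T.j0 + n)).V ℝ) (hΓ : IsTerminal _ Fam.entry (T.sc.L ^ (T.j0 + n)) Γs)
    (hint : ∀ φ : (T.sc.T (T.j0 + n)).V → ℝ,
      Integrable (fun ζ => ZA (T.sc.lev (T.j0 + n) T.j0) T.c.R (Kof _ (Step.alpha T.ω) x0) (toC φ + toC ζ))
        (gauss _ (refCov _ (T.sc.L ^ T.j0) (T.sc.L ^ (T.j0 + n)) Γs))) :
    ∃ cst : ℂ, cst ≠ 0 ∧ ∀ φ : (T.sc.T (T.j0 + n)).V → ℝ,
      conv (refCov _ (T.sc.L ^ T.j0) (T.sc.L ^ (T.j0 + n)) Γs) (ZA (T.sc.lev (T.j0 + n) T.j0) T.c.R (Kof _ (Step.alpha T.ω) x0)) (toC φ)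
        = cst * conv Γs (ZA (T.sc.lev (T.j0 + n) (T.j0 + n)) T.c.R (Kof _ (Step.alpha T.ω) (hist T.c T.ω T.sc (T.j0 + n) T.j0 x0 n))) (toC φ) := by
  unfold refCov at hint ⊢
  -- the claim at the stage `i`
  have key : ∀ i, i ≤ n → ∃ cst : ℂ, cst ≠ 0 ∧
      (∀ φ : (T.sc.T (T.j0 + n)).V → ℝ, Integrable (fun ζ => ZA (T.sc.lev (T.j0 + n) (T.j0 + i)) T.c.R
        (Kof _ (Step.alpha T.ω) (hist T.c T.ω T.sc (T.j0 + n) T.j0 x0 i)) (toC φ + toC ζ))
          (gauss _ (shell _ Fam.entry (T.sc.L ^ (T.j0 + i)) (T.sc.L ^ (T.j0 + n)) + Γs))) ∧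
      ∀ φ : (T.sc.T (T.j0 + n)).V → ℝ,
        conv (shell _ Fam.entry (T.sc.L ^ T.j0) (T.sc.L ^ (T.j0 + n)) + Γs) (ZA (T.sc.lev (T.j0 + n) T.j0) T.c.R (Kof _ (Step.alpha T.ω) x0)) (toC φ)
          = cst * conv (shell _ Fam.entry (T.sc.L ^ (T.j0 + i)) (T.sc.L ^ (T.j0 + n)) + Γs)
            (ZA (T.sc.lev (T.j0 + n) (T.j0 + i)) T.c.R (Kof _ (Step.alpha T.ω) (hist T.c T.ω T.sc (T.j0 + n) T.j0 x0 i))) (toC φ) := by
    intro i
    induction i with
    | zero => exact fun _ => ⟨1, one_ne_zero, hint, fun φ => (one_mul _).symm⟩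
    | succ i ih =>
      intro hi
      obtain ⟨cst, hc, hI, hE⟩ := ih (by omega)
      have hj : T.j0 + i < T.j0 + n := by omega
      have hW := hT.step (T.j0 + n) (T.j0 + i) hj (Nat.le_add_right _ _)
      obtain ⟨ha, hz, hs⟩ := hx i (by omega)
      set S := stp T.sc (T.j0 + n) (T.j0 + i) hj with hS
      set xi := hist T.c T.ω T.sc (T.j0 + n) T.j0 x0 i with hxi
      have hnext : hist T.c T.ω T.sc (T.j0 + n) T.j0 x0 (i + 1) = S.Phi T.c T.ω false xi := hist_succ _ _ _ _ _ _ _ hj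
      obtain ⟨a, hadef⟩ : ∃ a : ℂ, a = ∏ b : S.P.g'.I, (1 + (S.desig T.c T.ω false xi).a b) := ⟨_, rfl⟩
      have ha0 : a ≠ 0 := by
        rw [hadef]
        refine Finset.prod_ne_zero_iff.2 fun b _ h0 => ?_
        have h1 := (hW.cst xi ha hs b).2
        have h2 : (S.desig T.c T.ω false xi).a b = -1 := by linear_combination h0
        change ‖(S.desig T.c T.ω false xi).a b‖ ≤ 1 / 2 at h1
        rw [h2, norm_neg, norm_one] at h1
        norm_num at h1
      -- the exact map on real fields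
      have hex : ∀ ψ : (T.sc.T (T.j0 + n)).V → ℝ, conv S.Γ (ZA S.P.g T.c.R (Kof S.P.g (Step.alpha T.ω) xi)) (toC ψ)
          = a * ZA S.P.g' T.c.R (Kof S.P.g' (Step.alpha T.ω) (S.Phi T.c T.ω false xi)) (toC ψ) := by
        intro ψ
        rw [hadef]
        exact hW.exact xi ha hs (toC ψ) (dg_real_mem_strip hT.hh_pos _ _ ψ)
      have hsplit : shell (T.sc.T (T.j0 + n)) Fam.entry (T.sc.L ^ (T.j0 + i)) (T.sc.L ^ (T.j0 + n)) + Γs
          = S.Γ + (shell (T.sc.T (T.j0 + n)) Fam.entry (T.sc.L ^ (T.j0 + (i + 1))) (T.sc.L ^ (T.j0 + n)) + Γs) := by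
        rw [← add_assoc]
        congr 1
        exact (dg_shell_add _ _ _ _ _).symm
      have hp1 : S.Γ.PosSemidef := dg_shell_psd T.sc _ (T.j0 + i) 1
      have hp2 : (shell (T.sc.T (T.j0 + n)) Fam.entry (T.sc.L ^ (T.j0 + (i + 1))) (T.sc.L ^ (T.j0 + n)) + Γs).PosSemidef := by
        obtain ⟨k, hk⟩ : ∃ k, T.j0 + n = T.j0 + (i + 1) + k := ⟨n - (i + 1), by omega⟩
        have := dg_shell_psd T.sc (T.sc.T (T.j0 + n)) (T.j0 + (i + 1)) k
        rw [← hk] at this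
        exact this.add hΓ.psd
      have hca := fun φ : (T.sc.T (T.j0 + n)).V → ℝ => conv_add S.Γ _ hp1 hp2
        (ZA S.P.g T.c.R (Kof S.P.g (Step.alpha T.ω) xi)) (toC φ) (by rw [← hsplit]; exact hI φ)
      refine ⟨cst * a, mul_ne_zero hc ha0, fun φ => ?_, fun φ => ?_⟩
      · have h1 := (hca φ).1
        have h2 : Integrable (fun ζ => a⁻¹ * conv S.Γ (ZA S.P.g T.c.R (Kof S.P.g (Step.alpha T.ω) xi)) (toC φ + toC ζ))
            (gauss _ (shell (T.sc.T (T.j0 + n)) Fam.entry (T.sc.L ^ (T.j0 + (i + 1))) (T.sc.L ^ (T.j0 + n)) + Γs)) := h1.const_mul _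
        rw [hnext]
        refine h2.congr (Filter.Eventually.of_forall fun ζ => ?_)
        show a⁻¹ * conv S.Γ (ZA S.P.g T.c.R (Kof S.P.g (Step.alpha T.ω) xi)) (toC φ + toC ζ)
          = ZA S.P.g' T.c.R (Kof S.P.g' (Step.alpha T.ω) (S.Phi T.c T.ω false xi)) (toC φ + toC ζ)
        rw [dg_toC_add, hex, ← mul_assoc, inv_mul_cancel₀ ha0, one_mul]
      · rw [hE φ, hnext, mul_assoc]
        congr 1
        have h3 : conv (shell (T.sc.T (T.j0 + n)) Fam.entry (T.sc.L ^ (T.j0 + i)) (T.sc.L ^ (T.j0 + n)) + Γs)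
            (ZA S.P.g T.c.R (Kof S.P.g (Step.alpha T.ω) xi)) (toC φ)
            = conv (shell (T.sc.T (T.j0 + n)) Fam.entry (T.sc.L ^ (T.j0 + (i + 1))) (T.sc.L ^ (T.j0 + n)) + Γs)
              (conv S.Γ (ZA S.P.g T.c.R (Kof S.P.g (Step.alpha T.ω) xi))) (toC φ) := by
          rw [hsplit]
          exact (hca φ).2
        refine h3.trans ?_
        show (∫ ζ, conv S.Γ (ZA S.P.g T.c.R (Kof S.P.g (Step.alpha T.ω) xi)) (toC φ + toC ζ) ∂(gauss _ _))
          = a * ∫ ζ, ZA S.P.g' T.c.R (Kof S.P.g' (Step.alpha T.ω) (S.Phi T.c T.ω false xi)) (toC φ + toC ζ) ∂(gauss _ _)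
        rw [← integral_const_mul]
        refine integral_congr_ae (Filter.Eventually.of_forall fun ζ => ?_)
        show conv S.Γ (ZA S.P.g T.c.R (Kof S.P.g (Step.alpha T.ω) xi)) (toC φ + toC ζ)
          = a * ZA S.P.g' T.c.R (Kof S.P.g' (Step.alpha T.ω) (S.Phi T.c T.ω false xi)) (toC φ + toC ζ)
        rw [dg_toC_add, hex]
  obtain ⟨cst, hc, -, hE⟩ := key n le_rfl
  refine ⟨cst, hc, fun φ => ?_⟩
  rw [hE φ, dg_shell_self, zero_add]

end

end Claimed.Agent.R285.BC2
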