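import Mathlib

/-!
# ROW 285, unit BC2 (`b_c < oo`, discrete Gaussian roughness), file Dg/Pure: the MATHLIB-ONLY leaves      (architects helper136, helper172, helper12)
This file imports only Mathlib (fast to check).  ALL THREE PROVED (helper259, 17:55Z); helper lemmas prefix `dgp_`.
* `wtP_ok` (U0, leaf L-DG-SITE), `shoot_raw` (S2a, leaf L-DG-SHOOT), `var_of_cosh` (R5, leaf L-DG-COSH).
-/

set_option autoImplicit false

namespace Claimed.Agent.R285.BC2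

open scoped BigOperators ENNReal NNReal
open MeasureTheory ProbabilityTheory Polynomial Filter Topology

noncomputable section

/-! ## (U0) the site factor -/

/-- everything the block expansion uses about the site factor -/
structure SiteOK (ω : ℝ) (h0 : ℝ≥0) (dw : ℝ) (w : ℂ → ℂ) : Prop where
  hol : Differentiable ℂ w
  per : ∀ y, w (y + ω) = w y
  even : ∀ y, w (-y) = w y
  conj : ∀ y, w (starRingEnd ℂ y) = starRingEnd ℂ (w y)
  pos : ∀ y : ℝ, 0 < (w y).re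
  small : ∀ y : ℂ, |y.im| ≤ h0 → ‖w y - 1‖ ≤ dw

/-- comb of mesh `ω` convolved with white noise of variance `v`, normalised: `w (y) = ω ∑_n g_v (ω n - y)`, `g_v (x) = exp (-x²/2v)/√(2πv)` (`= wt1` of `Dg/Defs.lean`, by `rfl`) -/
def wtP (v ω : ℝ) (y : ℂ) : ℂ :=
  ∑' n : ℤ, (ω : ℂ) * (Complex.exp (-(((ω * n : ℝ) : ℂ) - y) ^ 2 / (2 * v)) / (Real.sqrt (2 * Real.pi * v) : ℝ))

section dgpSite

open scoped Real
open Complex

/-- Poisson summation -/
theorem dgp_eq_theta (v ω : ℝ) (hv : 0 < v) (hω : 0 < ω) (y : ℂ) :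
    wtP v ω y = jacobiTheta₂ (y / ω) (Complex.I * ((2 * π * v / ω ^ 2 : ℝ) : ℂ)) := by
  obtain ⟨a, ha⟩ : ∃ a : ℝ, a = 2 * π * v / ω ^ 2 := ⟨_, rfl⟩
  have ha0 : 0 < a := by rw [ha]; positivity
  have hωc : (ω : ℂ) ≠ 0 := by exact_mod_cast hω.ne'
  have hvc : (v : ℂ) ≠ 0 := by exact_mod_cast hv.ne'
  have hπc : (π : ℂ) ≠ 0 := by exact_mod_cast Real.pi_pos.ne'
  have hac : (a : ℂ) = 2 * π * v / ω ^ 2 := by rw [ha]; push_cast; ring
  have hac0 : (a : ℂ) ≠ 0 := by exact_mod_cast ha0.ne'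
  have h := Complex.tsum_exp_neg_quadratic (a := (a : ℂ)) (by simpa using ha0) (Complex.I * y / ω)
  -- the square root
  have hsq : (a : ℂ) ^ (1 / 2 : ℂ) = ((Real.sqrt (2 * π * v) : ℝ) : ℂ) / ω := by
    have h1 : (a : ℂ) ^ (1 / 2 : ℂ) = ((a ^ (1 / 2 : ℝ) : ℝ) : ℂ) := by
      rw [Complex.ofReal_cpow ha0.le]; norm_num
    rw [h1, ← Real.sqrt_eq_rpow, ha, Real.sqrt_div (by positivity), Real.sqrt_sq hω.le]
    push_cast
    ring
  have hs0 : ((Real.sqrt (2 * π * v) : ℝ) : ℂ) ≠ 0 := by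
    have : 0 < Real.sqrt (2 * π * v) := Real.sqrt_pos.2 (by positivity)
    exact_mod_cast this.ne'
  rw [← ha, jacobiTheta₂]
  have hL : ∀ n : ℤ, jacobiTheta₂_term n (y / ω) (Complex.I * (a : ℂ))
      = cexp (-π * a * n ^ 2 + 2 * π * (Complex.I * y / ω) * n) := by
    intro n
    rw [jacobiTheta₂_term]
    congr 1
    have : Complex.I * Complex.I = -1 := Complex.I_mul_I
    linear_combination (π * (n : ℂ) ^ 2 * a) * this
  simp_rw [hL]
  rw [h, hsq, wtP, ← tsum_mul_left]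
  refine tsum_congr fun n => ?_
  have hE : -(((ω * n : ℝ) : ℂ) - y) ^ 2 / (2 * v) = -π / a * ((n : ℂ) + Complex.I * (Complex.I * y / ω)) ^ 2 := by
    rw [hac]
    push_cast
    have : Complex.I * Complex.I = -1 := Complex.I_mul_I
    have h2 : (n : ℂ) + Complex.I * (Complex.I * y / ω) = ((ω : ℂ) * n - y) / ω := by
      field_simp
      linear_combination y * this
    rw [h2]
    field_simp
  rw [hE]
  field_simp

/-- the tail of the theta series -/
theorem dgp_theta_sub_one (S : ℝ) : ∃ C : ℝ, 0 ≤ C ∧ ∀ (T : ℝ), 1 ≤ T → ∀ z τ : ℂ, |z.im| ≤ S → T ≤ τ.im →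
    ‖jacobiTheta₂ z τ - 1‖ ≤ Real.exp (-π * (T - 1)) * C := by
  have hsum : Summable fun n : ℤ => Real.exp (-π * (1 * (n : ℝ) ^ 2 - 2 * S * ((|n| : ℤ) : ℝ))) := by
    simpa only [pow_zero, one_mul] using summable_pow_mul_jacobiTheta₂_term_bound S one_pos 0
  refine ⟨∑' n : ℤ, Real.exp (-π * (1 * (n : ℝ) ^ 2 - 2 * S * ((|n| : ℤ) : ℝ))), tsum_nonneg fun n => (Real.exp_pos _).le, ?_⟩
  intro T hT z τ hz hτ
  have hT0 : 0 < T := by linarith
  have hτ0 : 0 < τ.im := lt_of_lt_of_le hT0 hτ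
  have h1 := hasSum_jacobiTheta₂_term z hτ0
  have h2 : HasSum (fun n : ℤ => if n = 0 then (1 : ℂ) else 0) 1 := hasSum_ite_eq 0 1
  have h3 := h1.sub h2
  rw [← h3.tsum_eq, ← tsum_mul_left]
  have hb : ∀ n : ℤ, ‖jacobiTheta₂_term n z τ - (if n = 0 then (1 : ℂ) else 0)‖
      ≤ Real.exp (-π * (T - 1)) * Real.exp (-π * (1 * (n : ℝ) ^ 2 - 2 * S * ((|n| : ℤ) : ℝ))) := by
    intro n
    by_cases hn : n = 0
    · subst hn
      simp [jacobiTheta₂_term]
      positivity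
    · rw [if_neg hn, sub_zero, ← Real.exp_add]
      refine (norm_jacobiTheta₂_term_le hT0 hz hτ n).trans (Real.exp_le_exp.2 ?_)
      have hn1 : (1 : ℝ) ≤ (n : ℝ) ^ 2 := by
        have : (1 : ℤ) ≤ n ^ 2 := by
          have := Int.one_le_abs hn
          rw [← sq_abs]
          nlinarith
        exact_mod_cast this
      have hp := Real.pi_pos
      have : 0 ≤ π * ((T - 1) * ((n : ℝ) ^ 2 - 1)) := by
        apply mul_nonneg hp.le (mul_nonneg (by linarith) (by linarith))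
      nlinarith
  exact tsum_of_norm_bounded ((hsum.mul_left _).hasSum) hb

/-- the fields of `SiteOK` for `wtP` -/
theorem dgp_wtP_fields (ω : ℝ) (hω : 0 < ω) (h0 : ℝ≥0) (dw : ℝ) (hdw : 0 < dw) : ∃ v0 : ℝ, 0 < v0 ∧ ∀ v, v0 ≤ v →
    Differentiable ℂ (wtP v ω) ∧ (∀ y, wtP v ω (y + ω) = wtP v ω y) ∧ (∀ y, wtP v ω (-y) = wtP v ω y) ∧
    (∀ y, wtP v ω (starRingEnd ℂ y) = starRingEnd ℂ (wtP v ω y)) ∧ (∀ y : ℝ, 0 < (wtP v ω y).re) ∧
    ∀ y : ℂ, |y.im| ≤ h0 → ‖wtP v ω y - 1‖ ≤ dw := by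
  obtain ⟨C, hC, HC⟩ := dgp_theta_sub_one ((h0 : ℝ) / ω)
  have hπ := Real.pi_pos
  -- choose `T`
  obtain ⟨d, hd⟩ : ∃ d : ℝ, d = min dw (1 / 2) := ⟨_, rfl⟩
  have hd0 : 0 < d := by rw [hd]; exact lt_min hdw (by norm_num)
  obtain ⟨T, hT1, hTC⟩ : ∃ T : ℝ, 1 ≤ T ∧ Real.exp (-π * (T - 1)) * C ≤ d := by
    have hlim : Tendsto (fun T : ℝ => Real.exp (-π * (T - 1)) * C) atTop (𝓝 (0 * C)) := by
      refine Tendsto.mul_const C (Real.tendsto_exp_atBot.comp ?_)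
      have : Tendsto (fun T : ℝ => T - 1) atTop atTop := tendsto_atTop_add_const_right _ _ tendsto_id
      exact (this.const_mul_atTop_of_neg (by linarith : -π < 0))
    rw [zero_mul] at hlim
    obtain ⟨T, hT⟩ := ((hlim.eventually (gt_mem_nhds hd0)).and (eventually_ge_atTop 1)).exists
    exact ⟨T, hT.2, hT.1.le⟩
  refine ⟨T * ω ^ 2 / (2 * π), by positivity, fun v hv => ?_⟩
  have hv0 : 0 < v := lt_of_lt_of_le (by positivity) hv
  obtain ⟨a, ha⟩ : ∃ a : ℝ, a = 2 * π * v / ω ^ 2 := ⟨_, rfl⟩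
  have hTa : T ≤ a := by
    rw [ha, le_div_iff₀ (by positivity)]
    rw [div_le_iff₀ (by positivity)] at hv
    linarith
  have ha0 : 0 < a := by linarith
  have him : (Complex.I * (a : ℂ)).im = a := by simp
  have heq : ∀ y, wtP v ω y = jacobiTheta₂ (y / ω) (Complex.I * (a : ℂ)) := by
    intro y; rw [ha]; exact dgp_eq_theta v ω hv0 hω y
  have hωc : (ω : ℂ) ≠ 0 := by exact_mod_cast hω.ne'
  have hsmall : ∀ y : ℂ, |y.im| ≤ h0 → ‖wtP v ω y - 1‖ ≤ d := by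
    intro y hy
    rw [heq]
    refine (HC T hT1 _ _ ?_ (by rw [him]; exact hTa)).trans hTC
    rw [Complex.div_ofReal_im, abs_div, abs_of_pos hω]
    exact div_le_div_of_nonneg_right hy hω.le
  refine ⟨?_, ?_, ?_, ?_, ?_, fun y hy => (hsmall y hy).trans (by rw [hd]; exact min_le_left _ _)⟩
  · have : wtP v ω = fun y => jacobiTheta₂ (y / ω) (Complex.I * (a : ℂ)) := funext heq
    rw [this]
    intro y
    have h1 := differentiableAt_jacobiTheta₂_fst (y / ω) (τ := Complex.I * (a : ℂ)) (by rw [him]; exact ha0)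
    exact DifferentiableAt.comp (g := fun x => jacobiTheta₂ x (Complex.I * (a : ℂ))) (f := fun y : ℂ => y / ω) y h1
      (differentiableAt_id.div_const _)
  · intro y
    rw [heq, heq, add_div, div_self hωc, jacobiTheta₂_add_left]
  · intro y
    rw [heq, heq, neg_div, jacobiTheta₂_neg_left]
  · intro y
    rw [heq, heq, jacobiTheta₂_conj]
    congr 1
    · simp
    · simp
  · intro y
    have h1 := hsmall (y : ℂ) (by simp)
    have h2 : |(wtP v ω y - 1).re| ≤ ‖wtP v ω y - 1‖ := Complex.abs_re_le_norm _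
    have h3 : d ≤ 1 / 2 := by rw [hd]; exact min_le_right _ _
    have h4 := (abs_le.1 (h2.trans (h1.trans h3))).1
    simp only [Complex.sub_re, Complex.one_re] at h4
    linarith

end dgpSite

/-- **(U0)** the site factor is close to one in the strip when the white noise is strong (`v` is chosen LAST).
PLAN (Poisson summation, as `S46.theta_poisson` in `R285/S46/Flat.lean`): `Complex.tsum_exp_neg_quadratic` (or `jacobiTheta₂_functional_equation`) gives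
`w (y) = ∑_k exp (-2π² k² v/ω²) exp (2π i k y/ω)`, so `‖w (y) - 1‖ ≤ 2 ∑_{k ≥ 1} exp (-2π² k² v/ω² + 2π k h₀/ω) → 0` as `v → ∞`.
`hol`: `w (y) = c exp (-y²/2v) jacobiTheta₂ (ω y/(2π i v)) (i ω²/(2π v))`, `differentiableAt_jacobiTheta₂_fst`; `per`: reindex `n ↦ n + 1` (`Equiv.addRight`); `even`: `n ↦ -n`; `conj`: `Complex.conj_tsum`;
`pos`: every term is a positive real (`Summable.tsum_pos`, `Complex.re_tsum`/`ofReal_tsum`). -/
theorem wtP_ok (ω : ℝ) (hω : 0 < ω) (h0 : ℝ≥0) (dw : ℝ) (hdw : 0 < dw) : ∃ v0 : ℝ, 0 < v0 ∧ ∀ v, v0 ≤ v → SiteOK ω h0 dw (wtP v ω) := by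
  obtain ⟨v0, hv0, H⟩ := dgp_wtP_fields ω hω h0 dw hdw
  exact ⟨v0, hv0, fun v hv => let ⟨a, b, c, d, e, f⟩ := H v hv; ⟨a, b, c, d, e, f⟩⟩

/-! ## (S2a) the shooting lemma -/

/-- a window inside an interval on which a continuous function crosses from `-r` to `r` -/
theorem dgp_window (f : ℝ → ℝ) (a b r : ℝ) (hab : a ≤ b) (hf : ContinuousOn f (Set.Icc a b)) (hr : 0 ≤ r)
    (ha : f a ≤ -r) (hb : r ≤ f b) :
    ∃ a' b', a ≤ a' ∧ a' ≤ b' ∧ b' ≤ b ∧ f a' = -r ∧ f b' = r ∧ ∀ s ∈ Set.Icc a' b', |f s| ≤ r := by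
  -- the first point where `f ≥ r`
  set S1 : Set ℝ := Set.Icc a b ∩ f ⁻¹' Set.Ici r with hS1
  have hS1c : IsCompact S1 := by
    have : IsClosed S1 := hf.preimage_isClosed_of_isClosed isClosed_Icc isClosed_Ici
    exact isCompact_Icc.of_isClosed_subset this Set.inter_subset_left
  have hS1n : S1.Nonempty := ⟨b, ⟨hab, le_rfl⟩, hb⟩
  obtain ⟨hb'm, hb'l⟩ := hS1c.isLeast_sInf hS1n
  set b' := sInf S1 with hb'
  have hab' : a ≤ b' := hb'm.1.1
  have hb'b : b' ≤ b := hb'm.1.2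
  have hfb' : f b' = r := by
    have hc : ContinuousOn f (Set.Icc a b') := hf.mono (Set.Icc_subset_Icc le_rfl hb'b)
    have hmem : r ∈ Set.Icc (f a) (f b') := ⟨by linarith, hb'm.2⟩
    obtain ⟨s, hs, hsr⟩ := intermediate_value_Icc hab' hc hmem
    have hsS : s ∈ S1 := ⟨⟨hs.1, hs.2.trans hb'b⟩, by simp [hsr]⟩
    have : s = b' := le_antisymm hs.2 (hb'l hsS)
    rw [← this, hsr]
  -- the last point before `b'` where `f ≤ -r`
  have hf2 : ContinuousOn f (Set.Icc a b') := hf.mono (Set.Icc_subset_Icc le_rfl hb'b)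
  set S2 : Set ℝ := Set.Icc a b' ∩ f ⁻¹' Set.Iic (-r) with hS2
  have hS2c : IsCompact S2 := by
    have : IsClosed S2 := hf2.preimage_isClosed_of_isClosed isClosed_Icc isClosed_Iic
    exact isCompact_Icc.of_isClosed_subset this Set.inter_subset_left
  have hS2n : S2.Nonempty := ⟨a, ⟨le_rfl, hab'⟩, ha⟩
  obtain ⟨ha'm, ha'l⟩ := hS2c.isGreatest_sSup hS2n
  set a' := sSup S2 with ha'
  have haa' : a ≤ a' := ha'm.1.1
  have ha'b' : a' ≤ b' := ha'm.1.2
  have hfa' : f a' = -r := by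
    have hc : ContinuousOn f (Set.Icc a' b') := hf2.mono (Set.Icc_subset_Icc haa' le_rfl)
    have hmem : -r ∈ Set.Icc (f a') (f b') := ⟨ha'm.2, by rw [hfb']; linarith⟩
    obtain ⟨s, hs, hsr⟩ := intermediate_value_Icc ha'b' hc hmem
    have hsS : s ∈ S2 := ⟨⟨haa'.trans hs.1, hs.2⟩, by simp [hsr]⟩
    have : s = a' := le_antisymm (ha'l hsS) hs.1
    rw [← this, hsr]
  refine ⟨a', b', haa', ha'b', hb'b, hfa', hfb', fun s hs => ?_⟩
  rw [abs_le]
  constructor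
  · by_contra hlt
    replace hlt := not_le.1 hlt
    have hsS : s ∈ S2 := ⟨⟨haa'.trans hs.1, hs.2⟩, hlt.le⟩
    have h1 : s = a' := le_antisymm (ha'l hsS) hs.1
    rw [h1, hfa'] at hlt
    exact lt_irrefl _ hlt
  · by_contra hlt
    replace hlt := not_le.1 hlt
    have hsS : s ∈ S1 := ⟨⟨haa'.trans hs.1, hs.2.trans hb'b⟩, hlt.le⟩
    have h1 : s = b' := le_antisymm hs.2 (hb'l hsS)
    rw [h1, hfb'] at hlt
    exact lt_irrefl _ hlt

/-- **(S2a)** the shooting lemma in RAW coordinates (no balancing): `t₊ = t + P R`, window `D x θ₃^j` with `C_P < D (1 - θ₃)`; nested intervals + IVT.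
PLAN.  `B j := D x θ₃^j`.  (i) on `{∀ i ≤ j, |T i s| ≤ B i}` the bounds `ρ i s ≤ x θ₃^i`, `i ≤ j + 1`, follow by induction from `hR`, `hsm`.
(ii) by induction on `j ≤ n`: there are `a ≤ b` in `[-Dx, Dx]` with `T j a = -B j`, `T j b = B j` and `|T i s| ≤ B i` for all `s ∈ [a,b]`, `i ≤ j`.
Step: `T (j+1) b ≥ B j - C_P x θ₃^j > B (j+1)`, `T (j+1) a < -B (j+1)`; `T (j+1)` is continuous on `[a,b]`; `a' := sSup {s ∈ [a,b] | T (j+1) s ≤ -B (j+1)}`, `b' := sInf {s ∈ [a',b] | B (j+1) ≤ T (j+1) s}`. -/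
theorem shoot_raw (θ θ3 CP Cq x D : ℝ) (hθ : 0 ≤ θ) (hθ3 : θ < θ3) (h31 : θ3 < 1) (hx : 0 < x) (hCP : 0 ≤ CP) (hCq : 0 ≤ Cq)
    (hD : CP < D * (1 - θ3)) (hsm : Cq * (D + 1) ^ 2 * x ≤ θ3 - θ) (n : ℕ) (T ρ : ℕ → ℝ → ℝ)
    (hT0 : ∀ s, T 0 s = s) (hρ : ∀ j s, 0 ≤ ρ j s) (hρ0 : ∀ s ∈ Set.Icc (-(D * x)) (D * x), ρ 0 s ≤ x)
    (hcont : ∀ j < n, ContinuousOn (T (j + 1)) {s | s ∈ Set.Icc (-(D * x)) (D * x) ∧ ∀ i ≤ j, |T i s| ≤ D * x * θ3 ^ i})
    (hT : ∀ j < n, ∀ s ∈ Set.Icc (-(D * x)) (D * x), (∀ i ≤ j, |T i s| ≤ D * x * θ3 ^ i ∧ ρ i s ≤ x * θ3 ^ i) → |T (j + 1) s - T j s| ≤ CP * ρ j s)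
    (hR : ∀ j < n, ∀ s ∈ Set.Icc (-(D * x)) (D * x), (∀ i ≤ j, |T i s| ≤ D * x * θ3 ^ i ∧ ρ i s ≤ x * θ3 ^ i) →
      ρ (j + 1) s ≤ θ * ρ j s + Cq * (|T j s| + ρ j s) ^ 2) :
    ∃ s ∈ Set.Icc (-(D * x)) (D * x), ∀ j ≤ n, |T j s| ≤ D * x * θ3 ^ j ∧ ρ j s ≤ x * θ3 ^ j := by
  have h30 : 0 < θ3 := lt_of_le_of_lt hθ hθ3
  have h13 : 0 < 1 - θ3 := by linarith
  have hD0 : 0 < D := by
    have h1 : 0 < D * (1 - θ3) := lt_of_le_of_lt hCP hD
    by_contra hneg
    replace hneg := not_lt.1 hneg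
    have : D * (1 - θ3) ≤ 0 := mul_nonpos_of_nonpos_of_nonneg hneg h13.le
    linarith
  have hDx : 0 < D * x := mul_pos hD0 hx
  -- the remainders are controlled by the window
  have hrho : ∀ s ∈ Set.Icc (-(D * x)) (D * x), ∀ j ≤ n, (∀ i ≤ j, |T i s| ≤ D * x * θ3 ^ i) →
      ∀ i ≤ j, ∀ k ≤ i, ρ k s ≤ x * θ3 ^ k := by
    intro s hs j hj hw i
    induction i with
    | zero =>
      intro _ k hk
      obtain rfl := Nat.le_zero.1 hk
      simpa using hρ0 s hs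
    | succ i ih =>
      intro hi k hk
      have hi' : i ≤ j := Nat.le_of_succ_le hi
      have ih' := ih hi'
      rcases Nat.lt_or_ge k (i + 1) with hlt | hge
      · exact ih' k (Nat.lt_succ_iff.1 hlt)
      · obtain rfl : k = i + 1 := le_antisymm hk hge
        have hin : i < n := lt_of_lt_of_le (Nat.lt_of_succ_le hi) hj
        have hall : ∀ k ≤ i, |T k s| ≤ D * x * θ3 ^ k ∧ ρ k s ≤ x * θ3 ^ k :=
          fun k hk => ⟨hw k (hk.trans hi'), ih' k hk⟩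
        have h1 := hR i hin s hs hall
        have hTi := (hall i le_rfl).1
        have hri := (hall i le_rfl).2
        obtain ⟨q, hq⟩ : ∃ q, q = θ3 ^ i := ⟨_, rfl⟩
        rw [← hq] at hTi hri
        have hq0 : 0 < q := by rw [hq]; exact pow_pos h30 i
        have hq1 : q ≤ 1 := by rw [hq]; exact pow_le_one₀ h30.le h31.le
        have h2 : |T i s| + ρ i s ≤ (D + 1) * x * q := by nlinarith
        have h3 : (|T i s| + ρ i s) ^ 2 ≤ ((D + 1) * x * q) ^ 2 :=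
          pow_le_pow_left₀ (add_nonneg (abs_nonneg _) (hρ _ _)) h2 2
        have h4 : Cq * (D + 1) ^ 2 * x * q ≤ θ3 - θ := by
          have h5 : 0 ≤ Cq * (D + 1) ^ 2 * x := by positivity
          calc Cq * (D + 1) ^ 2 * x * q ≤ Cq * (D + 1) ^ 2 * x * 1 := mul_le_mul_of_nonneg_left hq1 h5
            _ ≤ θ3 - θ := by rw [mul_one]; exact hsm
        calc ρ (i + 1) s ≤ θ * ρ i s + Cq * (|T i s| + ρ i s) ^ 2 := h1
          _ ≤ θ * (x * q) + Cq * ((D + 1) * x * q) ^ 2 :=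
              add_le_add (mul_le_mul_of_nonneg_left hri hθ) (mul_le_mul_of_nonneg_left h3 hCq)
          _ = x * q * (θ + Cq * (D + 1) ^ 2 * x * q) := by ring
          _ ≤ x * q * (θ + (θ3 - θ)) := by
              apply mul_le_mul_of_nonneg_left _ (by positivity)
              linarith
          _ = x * θ3 ^ (i + 1) := by rw [pow_succ, ← hq]; ring
  -- nested intervals
  have key : ∀ j ≤ n, ∃ a b, a ≤ b ∧
      (∀ s ∈ Set.Icc a b, s ∈ Set.Icc (-(D * x)) (D * x) ∧ ∀ i ≤ j, |T i s| ≤ D * x * θ3 ^ i) ∧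
      T j a = -(D * x * θ3 ^ j) ∧ T j b = D * x * θ3 ^ j := by
    intro j
    induction j with
    | zero =>
      intro _
      refine ⟨-(D * x), D * x, by linarith, fun s hs => ⟨hs, fun i hi => ?_⟩, by simp [hT0], by simp [hT0]⟩
      obtain rfl := Nat.le_zero.1 hi
      rw [hT0, pow_zero, mul_one, abs_le]
      exact hs
    | succ j ih =>
      intro hj
      have hjn : j < n := hj
      obtain ⟨a, b, hab, hin, hTa, hTb⟩ := ih hjn.le
      have hc : ContinuousOn (T (j + 1)) (Set.Icc a b) := (hcont j hjn).mono fun s hs => hin s hs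
      have hq0 : 0 < θ3 ^ j := pow_pos h30 j
      have hstep : ∀ s ∈ Set.Icc a b, |T (j + 1) s - T j s| ≤ CP * (x * θ3 ^ j) := by
        intro s hs
        obtain ⟨hsI, hw⟩ := hin s hs
        have hr := hrho s hsI j hjn.le hw j le_rfl
        have := hT j hjn s hsI fun i hi => ⟨hw i hi, hr i hi⟩
        exact this.trans (mul_le_mul_of_nonneg_left (hr j le_rfl) hCP)
      have hr' : 0 ≤ D * x * θ3 ^ (j + 1) := by positivity
      have hlt : CP * (x * θ3 ^ j) + D * x * θ3 ^ (j + 1) ≤ D * x * θ3 ^ j := by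
        rw [pow_succ]
        have h1 : 0 ≤ (D * (1 - θ3) - CP) * (x * θ3 ^ j) := mul_nonneg (by linarith) (by positivity)
        nlinarith
      have ha' : T (j + 1) a ≤ -(D * x * θ3 ^ (j + 1)) := by
        have := abs_le.1 (hstep a ⟨le_rfl, hab⟩)
        linarith [this.2]
      have hb' : D * x * θ3 ^ (j + 1) ≤ T (j + 1) b := by
        have := abs_le.1 (hstep b ⟨hab, le_rfl⟩)
        linarith [this.1]
      obtain ⟨a', b', haa', ha'b', hb'b, hfa, hfb, hwin⟩ := dgp_window (T (j + 1)) a b _ hab hc hr' ha' hb'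
      refine ⟨a', b', ha'b', fun s hs => ?_, hfa, hfb⟩
      have hs' : s ∈ Set.Icc a b := ⟨haa'.trans hs.1, hs.2.trans hb'b⟩
      obtain ⟨hsI, hw⟩ := hin s hs'
      refine ⟨hsI, fun i hi => ?_⟩
      rcases Nat.lt_or_ge i (j + 1) with h | h
      · exact hw i (Nat.lt_succ_iff.1 h)
      · obtain rfl : i = j + 1 := le_antisymm hi h
        exact hwin s hs
  obtain ⟨a, b, hab, hin, -, -⟩ := key n le_rfl
  obtain ⟨hsI, hw⟩ := hin a ⟨le_rfl, hab⟩
  exact ⟨a, hsI, fun j hj => ⟨hw j hj, hrho a hsI n le_rfl hw n le_rfl j hj⟩⟩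

/-! ## (R5) a second moment from two values of the Laplace transform -/

/-- the pointwise inequality behind (R5) -/
theorem dgp_cosh_le (x T : ℝ) (hT : 0 ≤ T) :
    Real.cosh x - 1 ≤ x ^ 2 / 2 * Real.exp (T ^ 2 / 2) + Real.cosh (2 * x) / Real.cosh T := by
  have hcT : 0 < Real.cosh T := Real.cosh_pos T
  have hc2 : 0 < Real.cosh (2 * x) := Real.cosh_pos _
  rcases le_or_gt |x| T with h | h
  · have h1 : Real.cosh x ≤ Real.exp (x ^ 2 / 2) := Real.cosh_le_exp_half_sq x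
    have hy : 0 ≤ x ^ 2 / 2 := by positivity
    have h2 : Real.exp (x ^ 2 / 2) - 1 ≤ x ^ 2 / 2 * Real.exp (x ^ 2 / 2) := by
      have h3 : 1 - x ^ 2 / 2 ≤ Real.exp (-(x ^ 2 / 2)) := by
        have := Real.add_one_le_exp (-(x ^ 2 / 2))
        linarith
      have h4 : Real.exp (-(x ^ 2 / 2)) * Real.exp (x ^ 2 / 2) = 1 := by
        rw [← Real.exp_add]; simp
      have h5 := mul_le_mul_of_nonneg_right h3 (Real.exp_pos (x ^ 2 / 2)).le
      rw [h4] at h5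
      linarith
    have h6 : x ^ 2 ≤ T ^ 2 := by
      rw [← sq_abs x]
      exact pow_le_pow_left₀ (abs_nonneg _) h 2
    have h7 : Real.exp (x ^ 2 / 2) ≤ Real.exp (T ^ 2 / 2) := Real.exp_le_exp.2 (by linarith)
    have h8 : x ^ 2 / 2 * Real.exp (x ^ 2 / 2) ≤ x ^ 2 / 2 * Real.exp (T ^ 2 / 2) := mul_le_mul_of_nonneg_left h7 hy
    have h9 : 0 ≤ Real.cosh (2 * x) / Real.cosh T := by positivity
    linarith
  · have h1 : Real.cosh T ≤ Real.cosh x := by
      rw [Real.cosh_le_cosh, abs_of_nonneg hT]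
      exact h.le
    have h2 : 1 ≤ Real.cosh x := Real.one_le_cosh x
    have h3 : Real.cosh (2 * x) = 2 * Real.cosh x ^ 2 - 1 := by
      rw [Real.cosh_two_mul, Real.cosh_sq x]; ring
    have h4 : Real.cosh x * Real.cosh T ≤ Real.cosh (2 * x) := by
      rw [h3]; nlinarith
    have h5 : Real.cosh x ≤ Real.cosh (2 * x) / Real.cosh T := by
      rw [le_div_iff₀ hcT]; exact h4
    have h6 : 0 ≤ x ^ 2 / 2 * Real.exp (T ^ 2 / 2) := by positivity
    linarith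

/-- **(R5) a second moment from two values of the Laplace transform** (no derivative): `cosh x - 1 ≤ (x²/2) e^{T²/2} + cosh (2x)/cosh T`
(`|x| ≤ T`: `cosh x - 1 ≤ (x²/2) cosh x`, `cosh x ≤ e^{x²/2}` (`Real.cosh_le_exp_half_sq`); `|x| > T`: `cosh 2x ≥ cosh² x ≥ cosh x cosh T`).  Summability of `X² W`: `x² ≤ cosh (2x)`. -/
theorem var_of_cosh {ι : Type} (W X : ι → ℝ) (hW : ∀ i, 0 ≤ W i) (hs : Summable W) (h2 : Summable fun i => Real.cosh (2 * X i) * W i) (η K T : ℝ) (hT : 0 ≤ T)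
    (h1 : (1 + η) * ∑' i, W i ≤ ∑' i, Real.cosh (X i) * W i) (hK : ∑' i, Real.cosh (2 * X i) * W i ≤ K * ∑' i, W i) (hKT : K ≤ η / 2 * Real.cosh T) :
    η * Real.exp (-T ^ 2 / 2) * ∑' i, W i ≤ ∑' i, X i ^ 2 * W i := by
  have hcT : 0 < Real.cosh T := Real.cosh_pos T
  have hSW : 0 ≤ ∑' i, W i := tsum_nonneg hW
  -- summabilities
  have hc1 : Summable fun i => Real.cosh (X i) * W i := by
    refine Summable.of_nonneg_of_le (fun i => mul_nonneg (Real.cosh_pos _).le (hW i)) (fun i => ?_) h2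
    refine mul_le_mul_of_nonneg_right ?_ (hW i)
    rw [Real.cosh_le_cosh, abs_mul]
    have := abs_nonneg (X i)
    norm_num
    linarith
  have hx2 : Summable fun i => X i ^ 2 * W i := by
    refine Summable.of_nonneg_of_le (fun i => mul_nonneg (sq_nonneg _) (hW i)) (fun i => ?_) h2
    refine mul_le_mul_of_nonneg_right ?_ (hW i)
    have h3 : Real.cosh (2 * X i) = Real.cosh |2 * X i| := (Real.cosh_abs _).symm
    have h4 := Real.quadratic_le_exp_of_nonneg (abs_nonneg (2 * X i))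
    have h5 : Real.exp |2 * X i| / 2 ≤ Real.cosh |2 * X i| := by
      rw [Real.cosh_eq]
      have := Real.exp_pos (-|2 * X i|)
      linarith
    have h6 : |2 * X i| ^ 2 = 4 * X i ^ 2 := by rw [sq_abs]; ring
    have h7 := abs_nonneg (2 * X i)
    rw [h3]
    nlinarith [sq_nonneg (X i)]
  -- sum the pointwise inequality
  have hpt : ∀ i, Real.cosh (X i) * W i - W i
      ≤ Real.exp (T ^ 2 / 2) / 2 * (X i ^ 2 * W i) + (Real.cosh T)⁻¹ * (Real.cosh (2 * X i) * W i) := by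
    intro i
    have := mul_le_mul_of_nonneg_right (dgp_cosh_le (X i) T hT) (hW i)
    calc Real.cosh (X i) * W i - W i = (Real.cosh (X i) - 1) * W i := by ring
      _ ≤ (X i ^ 2 / 2 * Real.exp (T ^ 2 / 2) + Real.cosh (2 * X i) / Real.cosh T) * W i := this
      _ = _ := by rw [div_eq_mul_inv (Real.cosh (2 * X i))]; ring
  have hsum : ∑' i, (Real.cosh (X i) * W i - W i)
      ≤ ∑' i, (Real.exp (T ^ 2 / 2) / 2 * (X i ^ 2 * W i) + (Real.cosh T)⁻¹ * (Real.cosh (2 * X i) * W i)) :=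
    Summable.tsum_le_tsum hpt (hc1.sub hs) ((hx2.mul_left _).add (h2.mul_left _))
  rw [hc1.tsum_sub hs, (hx2.mul_left _).tsum_add (h2.mul_left _), tsum_mul_left, tsum_mul_left] at hsum
  have h3 : (Real.cosh T)⁻¹ * ∑' i, Real.cosh (2 * X i) * W i ≤ η / 2 * ∑' i, W i := by
    calc (Real.cosh T)⁻¹ * ∑' i, Real.cosh (2 * X i) * W i ≤ (Real.cosh T)⁻¹ * (K * ∑' i, W i) :=
          mul_le_mul_of_nonneg_left hK (inv_nonneg.2 hcT.le)
      _ ≤ (Real.cosh T)⁻¹ * ((η / 2 * Real.cosh T) * ∑' i, W i) :=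
          mul_le_mul_of_nonneg_left (mul_le_mul_of_nonneg_right hKT hSW) (inv_nonneg.2 hcT.le)
      _ = η / 2 * ∑' i, W i := by field_simp
  have h4 : η * ∑' i, W i ≤ Real.exp (T ^ 2 / 2) * ∑' i, X i ^ 2 * W i := by linarith
  have h5 : Real.exp (-T ^ 2 / 2) * Real.exp (T ^ 2 / 2) = 1 := by
    rw [← Real.exp_add]; ring_nf; simp
  calc η * Real.exp (-T ^ 2 / 2) * ∑' i, W i = Real.exp (-T ^ 2 / 2) * (η * ∑' i, W i) := by ring
    _ ≤ Real.exp (-T ^ 2 / 2) * (Real.exp (T ^ 2 / 2) * ∑' i, X i ^ 2 * W i) :=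
        mul_le_mul_of_nonneg_left h4 (Real.exp_pos _).le
    _ = ∑' i, X i ^ 2 * W i := by rw [← mul_assoc, h5, one_mul]

end

end Claimed.Agent.R285.BC2
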