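import Claimed.Agent.R285.Read.B8
import Claimed.Agent.R285.Ker.Ext
import Claimed.Agent.R285.Dg.Pure

/-!
# ROW 285, unit BC2, file Dg/Defs: the DEFINITIONS of `Read/BC2.lean` s1-4 (author helper136), moved VERBATIM (same namespace `BC2`, same names) by helper12 (17:45Z) + `IsRef` (fix of helper172, 16:20Z).
No sorry in this file.  Plan, K1, order of the constants: header of `Read/BC2.lean`.   The proof files `R285/Dg/*.lean` import THIS file, never `Read/BC2.lean`.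

## `IsRef` (why)
The polynomial shells carry a CONSTANT MODE: `shell u S + Γ_{≥S} = Γ_{≥u} + cmat c`, `c = shellP u S (0) ≥ 0` (`Ker.ker_terminal_split`), whereas `IsTerminal.const` says `Γ 1 = 0`.
So the covariance of the smooth field of the reference model is `C₁ = shell (L^j0) (L^(j0+n)) + Γ_*` (`refCov`), which is `IsRef`: terminal covariance + a nonnegative multiple of the projection on constants.
Nothing changes on the lattice side: the constant mode is absorbed by the Lebesgue integral over `t` in `refW`, sources have mean zero, `A` kills constants.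
-/

set_option autoImplicit false

namespace Claimed.Agent.R285.BC2

open scoped BigOperators ENNReal NNReal
open MeasureTheory ProbabilityTheory Polynomial Filter Topology
open Claimed.Agent.R285.RG Claimed.Agent.R285.B8

noncomputable section

variable {G : Geom}

/-! ## 1. The site factor  (`SiteOK`, `wtP`, `wtP_ok`: `Dg/Pure.lean`) -/

/-- the real Gaussian density of variance `v` -/
def gden (v x : ℝ) : ℝ := Real.exp (-x ^ 2 / (2 * v)) / Real.sqrt (2 * Real.pi * v)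

/-- comb of mesh `ω` convolved with white noise of variance `v`, normalised: `w (y) = ω ∑_n g_v (ω n - y)` -/
def wt1 (v ω : ℝ) (y : ℂ) : ℂ := ∑' n : ℤ, (ω : ℂ) * gdenC v (((ω * n : ℝ) : ℂ) - y)

theorem wt1_eq_wtP : wt1 = wtP := rfl

/-- **(U0)** = `wtP_ok` -/
theorem wt1_ok (ω : ℝ) (hω : 0 < ω) (h0 : ℝ≥0) (dw : ℝ) (hdw : 0 < dw) : ∃ v0 : ℝ, 0 < v0 ∧ ∀ v, v0 ≤ v → SiteOK ω h0 dw (wt1 v ω) :=
  wtP_ok ω hω h0 dw hdw

/-! ## 2. The initial activity -/

/-- `(z, A z)` as an entire function -/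
def enC (G : Geom) (z : G.V → ℂ) : ℂ := (1 / 2) * ∑ v, ∑ e : Fin 4, dif (dir e) (G.lift z) (G.ι v) ^ 2

/-- the integrand of the reference model: `exp (s (z, A z)/2) ∏_x w (z_x)` -/
def Z0 (G : Geom) (w : ℂ → ℂ) (s : ℂ) : Fn G := fun z => Complex.exp (s / 2 * enC G z) * ∏ x, w (z x)

/-- the block factor minus one -/
def kB (g : Grid G) (w : ℂ → ℂ) (s : ℂ) (B : g.I) : Fn G := fun z =>
  Complex.exp (s / 2 * eBC g B z) * ∏ x ∈ g.sites {B}, w (z x) - 1

open Classical in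
/-- `K₀ (X) = ∏_{B ∈ X} k_B` -/
def K0 (g : Grid G) (R : ℕ) (w : ℂ → ℂ) (s : ℂ) : Act g := fun X => if g.Conn R X then ∏ B ∈ X, kB g w s B else 0

/-- the initial remainder -/
def R0 (g : Grid G) (R : ℕ) (w : ℂ → ℂ) (α : ℝ) (s : ℂ) : Act g := K0 g R w s - single g α s 0

/-! ## 3. The tower -/

/-- the step `j → j + 1` on the torus `h`, entry family, no extra regulators -/
def stp (sc : Sc) (h j : ℕ) (hj : j < h) : Step (sc.T h) (sc.D0 - 1) sc.ℓ where
  P := sc.pair h j hj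
  Γ := shell (sc.T h) Fam.entry (sc.L ^ j) (sc.L ^ (j + 1))
  Vf := Extra.zero _
  Vc := Extra.zero _

/-- the history on the torus `h`, started at the level `j0` -/
def hist (c : Geo) (ω : ℝ) (sc : Sc) (h j0 : ℕ) (x0 : ℂ × ℂ × Act (sc.lev h j0)) : ∀ i : ℕ, ℂ × ℂ × Act (sc.lev h (j0 + i))
  | 0 => x0
  | i + 1 => if hj : j0 + i < h then (stp sc h (j0 + i) hj).Phi c ω false (hist c ω sc h j0 x0 i) else 0

/-- all constants of the chain, in the order of their choice -/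
structure Tow where
  c : Geo
  δ : ℝ
  κ : ℝ
  hh : ℝ≥0
  sc : Sc
  j0 : ℕ
  ω : ℝ
  A : ℝ
  C : ℝ≥0
  ε0 : ℝ≥0
  Ct : ℝ
  w1 : ℝ
  ε1 : ℝ

/-- the norm parameters -/
def Tow.p (T : Tow) : Par := ⟨T.δ, T.κ, T.hh, T.A, T.ω⟩

/-- the properties of the tower: every step `j0 ≤ j < h` of every torus `h` is a high-frequency weak step with the SAME constants; terminal integration -/
structure Tow.OK (T : Tow) : Prop where
  geo : T.c.Ok
  δ_pos : 0 < T.δ
  κ_pos : 0 < T.κ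
  hh_pos : 0 < T.hh
  L_ge : 2 ≤ T.sc.L
  D0_pow : ∃ d : ℕ, T.sc.D0 = T.sc.L ^ d
  ω_pos : 0 < T.ω
  A_ge : 1 ≤ T.A
  ε0_pos : 0 < T.ε0
  w1_pos : 0 < T.w1
  ε1_pos : 0 < T.ε1
  step : ∀ (h j : ℕ) (hj : j < h), T.j0 ≤ j → WeakOK T.c T.p (T.sc.lev h 0) (stp T.sc h j hj) false (1 / 4) T.C T.ε0
  term : ∀ h, T.j0 ≤ h → ∀ Γ, IsTerminal (T.sc.T h) Fam.entry (T.sc.L ^ h) Γ → ∀ K : Act (T.sc.lev h h), Act.Ok T.p T.c.col T.c.R K →
    ∀ ε : ℝ, 0 ≤ ε → ε ≤ T.ε1 → actNorm T.p (T.sc.lev h h) (Extra.zero _) K ≤ ENNReal.ofReal ε → ∀ w θ : ℝ, |w| ≤ T.w1 →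
      ‖conv Γ (ZA (T.sc.lev h h) T.c.R K) (toC fun v => w * cos1 (T.sc.T h) v + θ) - 1‖ ≤ T.Ct * ε

/-! ## 4. The reference lattice Gaussian -/

/-- `(φ, A φ)` -/
def enR (G : Geom) (φ : G.V → ℝ) : ℝ := φ ⬝ᵥ (lap G).mulVec φ

/-- the reference weight of a real configuration `σ` (a comb point): smooth field of covariance `C1` with the compensation `exp (s (φ, A φ)/2)`,
white noise of variance `v`, free constant `t` -/
def refW (G : Geom) (v s : ℝ) (C1 : Matrix G.V G.V ℝ) (σ : G.V → ℝ) : ℝ :=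
  ∫ t : ℝ, ∫ φ, Real.exp (s / 2 * enR G φ) * ∏ x, gden v (σ x - φ x - t) ∂(gauss G C1)

/-- integer heights pinned at the origin -/
abbrev Pin (G : Geom) : Type := {h : G.V → ℤ // h (org G) = 0}

/-- expectation on pinned heights for the weight `W` -/
def pE (G : Geom) (W F : (G.V → ℤ) → ℝ) : ℝ := (∑' h : Pin G, F h.1 * W h.1) / ∑' h : Pin G, W h.1

/-- the discrete Gaussian weight of precision `κ` (integer units) -/
def dgW (G : Geom) (κ : ℝ) (h : G.V → ℤ) : ℝ := Real.exp (-κ / 2 * enZ G h)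

/-- the test `n⁻² ∑ 2π h_v cos (2π v₁/n)` -/
def Xc (G : Geom) (h : G.V → ℤ) : ℝ := ((G.M : ℝ)⁻¹) ^ 2 * ∑ v, 2 * Real.pi * (h v : ℝ) * cos1 G v

/-- Cameron-Martin direction for the source `f` -/
def etaV (G : Geom) (v s : ℝ) (f : G.V → ℝ) : G.V → ℝ := f - (s * v) • (lap G).mulVec f

/-- the background created by the source `f` -/
def bgV (G : Geom) (v s : ℝ) (C1 : Matrix G.V G.V ℝ) (f : G.V → ℝ) : G.V → ℝ := C1.mulVec (etaV G v s f) + v • f

/-- the Gaussian exponent of the source `f` -/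
def enE (G : Geom) (v s : ℝ) (C1 : Matrix G.V G.V ℝ) (f : G.V → ℝ) : ℝ :=
  (etaV G v s f ⬝ᵥ C1.mulVec (etaV G v s f)) / 2 + v * (f ⬝ᵥ f) / 2 - s * v ^ 2 * (f ⬝ᵥ (lap G).mulVec f) / 2

/-! ## 4a. The covariance of the smooth field -/

/-- terminal covariance at the side `u` + a nonnegative multiple of the projection on constants -/
def IsRef (G : Geom) (u : ℕ) (C1 : Matrix G.V G.V ℝ) : Prop :=
  ∃ (Γ : Matrix G.V G.V ℝ) (c : ℝ), IsTerminal G Fam.entry u Γ ∧ 0 ≤ c ∧ C1 = Γ + Ker.cmat G c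

/-- all shells from `u` to `S`, and the terminal covariance `Γs` at `S` -/
def refCov (G : Geom) (u S : ℕ) (Γs : Matrix G.V G.V ℝ) : Matrix G.V G.V ℝ := shell G Fam.entry u S + Γs

theorem isRef_refCov (G : Geom) (u ℓ : ℕ) (hu : 1 ≤ u) (Γs : Matrix G.V G.V ℝ) (h : IsTerminal G Fam.entry (2 ^ ℓ * u) Γs) :
    IsRef G u (refCov G u (2 ^ ℓ * u) Γs) := by
  obtain ⟨Γ, hΓ⟩ := Ker.ker_exists_terminal G Fam.entry Ker.ker_entry_adm u hu
  exact ⟨Γ, _, hΓ, Ker.ker_shell_nonneg Ker.ker_entry_adm u hu ℓ 0 le_rfl (by norm_num),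
    (Ker.ker_terminal_split Ker.ker_entry_adm u _ hu (Nat.mul_pos (by positivity) hu) hΓ h).symm⟩

theorem isRef_tower (sc : Sc) (j0 n : ℕ) (Γs : Matrix (sc.T (j0 + n)).V (sc.T (j0 + n)).V ℝ)
    (h : IsTerminal (sc.T (j0 + n)) Fam.entry (sc.L ^ (j0 + n)) Γs) :
    IsRef (sc.T (j0 + n)) (sc.L ^ j0) (refCov (sc.T (j0 + n)) (sc.L ^ j0) (sc.L ^ (j0 + n)) Γs) := by
  have e : sc.L ^ (j0 + n) = 2 ^ (sc.ℓ * n) * sc.L ^ j0 := by
    rw [pow_add, mul_comm, pow_mul]; rfl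
  rw [e] at h ⊢
  exact isRef_refCov _ _ _ (Nat.one_le_pow _ _ sc.L_pos) Γs h

theorem IsRef.psd {u : ℕ} {C1 : Matrix G.V G.V ℝ} (h : IsRef G u C1) : C1.PosSemidef := by
  obtain ⟨Γ, c, hΓ, hc, rfl⟩ := h
  refine hΓ.psd.add (Ker.ker_psd (Ker.ker_cmat_mul G c) fun k => ?_)
  split_ifs
  · exact hc
  · exact le_rfl

/-- on mean-zero vectors `C₁` acts as the terminal covariance -/
theorem IsRef.mulVec_eq {u : ℕ} {C1 : Matrix G.V G.V ℝ} (h : IsRef G u C1) : ∃ Γ, IsTerminal G Fam.entry u Γ ∧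
    ∀ f : G.V → ℝ, ∑ x, f x = 0 → C1.mulVec f = Γ.mulVec f := by
  obtain ⟨Γ, c, hΓ, -, rfl⟩ := h
  refine ⟨Γ, hΓ, fun f hf => ?_⟩
  rw [Matrix.add_mulVec, Ker.ker_cmat_mulVec, hf]
  funext x
  simp

end

end Claimed.Agent.R285.BC2
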