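import Claimed.Agent.R285.Dg.Pure

/-!
# ROW 285, unit BC2 (`b_c < oo`), file Dg/Pure2: MATHLIB-ONLY leaves of `ref_source` (R1)      (architect helper12)
Imports only `Dg/Pure.lean` (which imports only Mathlib).  Prove IN PLACE; helper lemmas just above your theorem, prefix `dgq_`.
* `dgq_unfold`   (leaf L-DG-SRC-UNFOLD): `∑_{h pinned} ∫_ℝ dt = ∑_{h ∈ ℤ^ι} ∫_{(0,ω]} dt` for an integrand invariant under `(h, t) ↦ (h + n, t + n ω)`.
* `dgq_wtP_real`, `dgq_wtP_site` (leaf L-DG-SRC-COMB): the comb `wtP v ω` for EVERY `v > 0` (not only large `v`).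
-/

set_option autoImplicit false

namespace Claimed.Agent.R285.BC2

open scoped BigOperators ENNReal NNReal
open MeasureTheory ProbabilityTheory Filter Topology

noncomputable section

/-- the line is the disjoint union of the translates of `(0, ω]` -/
theorem dgq_line (ω : ℝ) (hω : 0 < ω) (F : ℝ → ℝ≥0∞) :
    ∫⁻ t, F t = ∑' n : ℤ, ∫⁻ t in Set.Ioc 0 ω, F (t + n * ω) := by
  have h1 : ∫⁻ t, F t = ∫⁻ t in ⋃ n : ℤ, Set.Ioc (0 + n • ω) (0 + (n + 1) • ω), F t := by
    rw [iUnion_Ioc_add_zsmul hω 0, setLIntegral_univ]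
  rw [h1, lintegral_iUnion (fun n => measurableSet_Ioc) (Set.pairwise_disjoint_Ioc_add_zsmul 0 ω)]
  refine tsum_congr fun n => ?_
  have h2 := (measurePreserving_add_right (volume : Measure ℝ) ((n : ℝ) * ω)).setLIntegral_comp_preimage_emb
    (measurableEmbedding_addRight _) F (Set.Ioc (0 + n • ω) (0 + (n + 1) • ω))
  rw [← h2]
  congr 2
  ext t
  simp only [Set.mem_preimage, Set.mem_Ioc, zero_add, zsmul_eq_mul]
  push_cast
  constructor
  · rintro ⟨a, b⟩
    constructor <;> nlinarith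
  · rintro ⟨a, b⟩
    constructor <;> nlinarith

/-- pinned configurations × constants = all configurations -/
def dgqEquiv {ι : Type} (o : ι) : {h : ι → ℤ // h o = 0} × ℤ ≃ (ι → ℤ) where
  toFun p := fun x => p.1.1 x - p.2
  invFun k := (⟨fun x => k x - k o, sub_self _⟩, -k o)
  left_inv := by
    rintro ⟨⟨h, hh⟩, n⟩
    simp only [hh, zero_sub, sub_neg_eq_add, sub_add_cancel, neg_neg]
  right_inv := by
    intro k
    funext x
    simp

/-- **unfolding of the pin.**  No measurability is needed.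
PLAN.  (1) for fixed `h`: `∫⁻ t, Ψ h t = ∑' n : ℤ, ∫⁻ t in Ioc 0 ω, Ψ h (t + n ω)`: `ℝ = ⨆ₙ Ioc (nω) ((n+1)ω)` (`iUnion_Ioc_add_zsmul`, `pairwise_disjoint_Ioc_add_zsmul`, `lintegral_iUnion`,
then the translation `(measurePreserving_add_right volume (n ω)).setLIntegral_comp_preimage_emb (measurableEmbedding_addRight _)`), or `(isAddFundamentalDomain_Ioc hω 0).lintegral_eq_tsum'` + reindexing of `zmultiples ω` by `ℤ`.
(2) `Ψ h (t + n ω) = Ψ (h - n) t` by `hΨ` applied to `h - n`.   (3) `ENNReal.tsum_prod'`/`tsum_sigma'` and the bijection `{h // h o = 0} × ℤ ≃ (ι → ℤ)`, `(h, n) ↦ h - n` (inverse `k ↦ (k - k o, - k o)`), `Equiv.tsum_eq`. -/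
theorem dgq_unfold {ι : Type} [Fintype ι] (o : ι) (ω : ℝ) (hω : 0 < ω) (Ψ : (ι → ℤ) → ℝ → ℝ≥0∞)
    (hΨ : ∀ (h : ι → ℤ) (n : ℤ) (t : ℝ), Ψ (fun x => h x + n) (t + n * ω) = Ψ h t) :
    ∑' h : {h : ι → ℤ // h o = 0}, ∫⁻ t, Ψ h.1 t = ∑' h : ι → ℤ, ∫⁻ t in Set.Ioc 0 ω, Ψ h t := by
  have h1 : ∀ h : {h : ι → ℤ // h o = 0}, ∫⁻ t, Ψ h.1 t
      = ∑' n : ℤ, ∫⁻ t in Set.Ioc 0 ω, Ψ (dgqEquiv o (h, n)) t := by
    intro h
    rw [dgq_line ω hω]
    refine tsum_congr fun n => ?_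
    refine lintegral_congr fun t => ?_
    have := hΨ (fun x => h.1 x - n) n t
    simp only [sub_add_cancel] at this
    exact this
  rw [tsum_congr h1, ← (dgqEquiv o).tsum_eq, ENNReal.tsum_prod']

open Complex in
/-- Gaussians are summable over `ℤ` -/
theorem dgq_gauss_summable (A B : ℝ) (hA : 0 < A) :
    Summable fun k : ℤ => Real.exp (-A * (k : ℝ) ^ 2 + B * (k : ℝ)) := by
  have h := ((summable_jacobiTheta₂_term_iff (((-(B / (2 * Real.pi)) : ℝ) : ℂ) * I)
    (((A / Real.pi : ℝ) : ℂ) * I)).2 (by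
      simp only [mul_im, ofReal_re, I_im, mul_one, ofReal_im, I_re, mul_zero, add_zero]
      exact div_pos hA Real.pi_pos)).norm
  refine h.congr fun k => ?_
  rw [norm_jacobiTheta₂_term]
  congr 1
  simp only [mul_im, ofReal_re, I_im, mul_one, ofReal_im, I_re, mul_zero, add_zero]
  field_simp
  ring

/-- on the real axis the comb is the real series, for every `v > 0`.   `Complex.ofReal_tsum`, `Complex.ofReal_exp`; summability: `Real.summable_exp...`/comparison with `exp (-c n² + c' |n|)`, or from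
`(hasSum of jacobiTheta₂_term)` through the computation in `dgp_eq_theta`; e.g. `summable_of_isBigO`, or: `Complex.summable_exp_neg_quadratic`-type lemmas used by `Complex.tsum_exp_neg_quadratic`. -/
theorem dgq_wtP_real (v ω : ℝ) (hv : 0 < v) (hω : 0 < ω) (y : ℝ) :
    Summable (fun n : ℤ => Real.exp (-(ω * n - y) ^ 2 / (2 * v)) / Real.sqrt (2 * Real.pi * v)) ∧
    wtP v ω (y : ℂ) = ((ω * ∑' n : ℤ, Real.exp (-(ω * n - y) ^ 2 / (2 * v)) / Real.sqrt (2 * Real.pi * v) : ℝ) : ℂ) := by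
  constructor
  · have h := ((dgq_gauss_summable (ω ^ 2 / (2 * v)) (ω * y / v) (by positivity)).mul_left (Real.exp (-y ^ 2 / (2 * v)))).div_const
      (Real.sqrt (2 * Real.pi * v))
    refine h.congr fun n => ?_
    rw [← Real.exp_add]
    congr 2
    field_simp
    ring
  · rw [wtP, ← tsum_mul_left, Complex.ofReal_tsum]
    refine tsum_congr fun n => ?_
    push_cast
    ring_nf

/-- the site factor is admissible in the strip of width `0` for EVERY `v > 0` (with a large `dw`).   `hol, per, even, conj`: copy the proof of `dgp_wtP_fields` (they only use `dgp_eq_theta`, `0 < a`);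
`pos`: `dgq_wtP_real` + `Summable.tsum_pos`;  `small`: `‖jacobiTheta₂ z τ‖ ≤ ∑ exp (-π a n²)` for real `z` (`norm_jacobiTheta₂_term_le`, `summable_pow_mul_jacobiTheta₂_term_bound`), so `dw := 1 + ∑ …`. -/
theorem dgq_wtP_site (v ω : ℝ) (hv : 0 < v) (hω : 0 < ω) : ∃ dw : ℝ, SiteOK ω 0 dw (wtP v ω) := by
  obtain ⟨a, ha⟩ : ∃ a : ℝ, a = 2 * Real.pi * v / ω ^ 2 := ⟨_, rfl⟩
  have hπ := Real.pi_pos
  have ha0 : 0 < a := by rw [ha]; positivity
  have him : (Complex.I * (a : ℂ)).im = a := by simp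
  have heq : ∀ y, wtP v ω y = jacobiTheta₂ (y / ω) (Complex.I * (a : ℂ)) := by
    intro y; rw [ha]; exact dgp_eq_theta v ω hv hω y
  have hωc : (ω : ℂ) ≠ 0 := by exact_mod_cast hω.ne'
  have hsum : Summable fun n : ℤ => Real.exp (-Real.pi * (a * (n : ℝ) ^ 2 - 2 * 0 * ((|n| : ℤ) : ℝ))) := by
    simpa only [pow_zero, one_mul] using summable_pow_mul_jacobiTheta₂_term_bound 0 ha0 0
  refine ⟨1 + ∑' n : ℤ, Real.exp (-Real.pi * (a * (n : ℝ) ^ 2 - 2 * 0 * ((|n| : ℤ) : ℝ))), ?_, ?_, ?_, ?_, ?_, ?_⟩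
  · have : wtP v ω = fun y => jacobiTheta₂ (y / ω) (Complex.I * (a : ℂ)) := funext heq
    rw [this]
    intro y
    have h1 := differentiableAt_jacobiTheta₂_fst (y / ω) (τ := Complex.I * (a : ℂ)) (by rw [him]; exact ha0)
    exact DifferentiableAt.comp (g := fun x => jacobiTheta₂ x (Complex.I * (a : ℂ))) (f := fun y : ℂ => y / ω) y h1
      (differentiableAt_id.div_const _)
  · intro y
    rw [heq, heq, add_div, div_self hωc, jacobiTheta₂_add_left]
  · intro y
    rw [heq, heq, neg_div, jacobiTheta₂_neg_left]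
  · intro y
    rw [heq, heq, jacobiTheta₂_conj]
    congr 1
    · simp
    · simp
  · intro y
    obtain ⟨h1, h2⟩ := dgq_wtP_real v ω hv hω y
    rw [h2, Complex.ofReal_re]
    refine mul_pos hω (h1.tsum_pos (fun n => by positivity) 0 (by positivity))
  · intro y hy
    have hy0 : |(y / (ω : ℂ)).im| ≤ 0 := by
      rw [Complex.div_ofReal_im, abs_div, abs_of_pos hω]
      have : |y.im| ≤ 0 := by simpa using hy
      have h0 : |y.im| = 0 := le_antisymm this (abs_nonneg _)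
      rw [h0, zero_div]
    have h1 : ‖wtP v ω y‖ ≤ ∑' n : ℤ, Real.exp (-Real.pi * (a * (n : ℝ) ^ 2 - 2 * 0 * ((|n| : ℤ) : ℝ))) := by
      rw [heq, jacobiTheta₂]
      exact tsum_of_norm_bounded hsum.hasSum fun n => norm_jacobiTheta₂_term_le ha0 hy0 (by rw [him]) n
    calc ‖wtP v ω y - 1‖ ≤ ‖wtP v ω y‖ + ‖(1 : ℂ)‖ := norm_sub_le _ _
      _ ≤ _ := by rw [norm_one]; linarith

end

end Claimed.Agent.R285.BC2
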