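import Claimed.Agent.R285.Dg.Defs
import Claimed.Agent.R285.Dg.Pure2
import Claimed.Agent.R285.Rsd.CosetUnfold
import Claimed.Agent.R285.Hol.Gs
import Claimed.Agent.R285.Reg.Gauss
import Claimed.Agent.R285.Obs.VReg

/-!
# ROW 285, unit BC2 (`b_c < oo`), file Dg/Src: the cut of `ref_source` (R1)      (architect helper12)
Everything is done with `∫⁻`/`∑'` in `ℝ≥0∞` (all terms are `≥ 0`): no integrability bookkeeping except at the two ends (`dgs_refW_eq`, `dgs_conv_re`).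
`μ = gauss G C1`, `F = bgV G v s C1 f`, `E = enE G v s C1 f`, `N = |V|`:
  `e^{(f,σ)} rIn 0 σ t = e^E rIn F σ t`                                   (`dgs_cm`: completion of the square + ONE Cameron-Martin shift by `C₁ η`)
  `∑_{h pinned} ∫_ℝ rIn F (ωh) t dt = ∑_{h ∈ ℤ^V} ∫_{(0,ω]} rIn F (ωh) t dt`   (`dgq_unfold`)
  `∑_{h ∈ ℤ^V} rIn F (ωh) t = ω^{-N} (conv C1 Z0 (F + t)).re`                 (`dgs_comb`: Tonelli, `Rsd.cs_ennreal_tsum_pi`, `dgq_wtP_real`)
The integrability of `Z0` (contract U3, `Z0_integrable`, helper102) enters as the HYPOTHESIS `hI` (so that this file does not import `Dg/Ref.lean`).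
Prove IN PLACE; helper lemmas just above your theorem, prefix `dgs_`.
-/

set_option autoImplicit false

namespace Claimed.Agent.R285.BC2

open scoped BigOperators ENNReal NNReal
open MeasureTheory ProbabilityTheory Polynomial Filter Topology
open Claimed.Agent.R285.RG Claimed.Agent.R285.B8

noncomputable section

variable {G : Geom}

/-- the inner integral of `refW`, with a background `F` -/
def rIn (G : Geom) (v s : ℝ) (C1 : Matrix G.V G.V ℝ) (F σ : G.V → ℝ) (t : ℝ) : ℝ≥0∞ :=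
  ∫⁻ φ, ENNReal.ofReal (Real.exp (s / 2 * enR G (φ + F)) * ∏ x, gden v (σ x - (φ x + F x) - t)) ∂(gauss G C1)

/-- the real form of `Z0 G (wt1 v ω) s` -/
def Zr (G : Geom) (v ω s : ℝ) (ψ : G.V → ℝ) : ℝ := Real.exp (s / 2 * enR G ψ) * ∏ x, (ω * ∑' n : ℤ, gden v (ω * n - ψ x))

/-! ## leaf L-DG-SRC-A: elementary facts -/

/-- `Obs.ov_lap_form`; `unfold dif Geom.lift Reg.regNb; rw [Ker.ker_pi_iota]` as in `B8.tzn_sum_eB` (`Map/Coef.lean`) -/
theorem dgs_enC_toC (ψ : G.V → ℝ) : enC G (toC ψ) = ((enR G ψ : ℝ) : ℂ) := by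
  unfold enC enR
  rw [Obs.ov_lap_form]
  push_cast
  congr 1
  refine Finset.sum_congr rfl fun v _ => Finset.sum_congr rfl fun e _ => ?_
  unfold dif Geom.lift Reg.regNb toC
  rw [Ker.ker_pi_iota]

/-- `A 1 = 0`, `A` symmetric (`Ker.ker_lap_mulVec_one`, `Ker.ker_mul_symm (Ker.ker_lap_mul G)`), or `Obs.ov_lap_form` -/
theorem dgs_enR_shift (ψ : G.V → ℝ) (t : ℝ) : enR G (fun x => ψ x + t) = enR G ψ := by
  unfold enR
  rw [Obs.ov_lap_form, Obs.ov_lap_form]
  congr 1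
  refine Finset.sum_congr rfl fun v _ => Finset.sum_congr rfl fun e _ => ?_
  ring

theorem dgs_enR_cont : Continuous (enR G) := by
  have h : enR G = fun u : G.V → ℝ => (1 / 2) * ∑ v, ∑ e : Fin 4, (u (Reg.regNb G v e) - u v) ^ 2 := by
    funext u
    exact Obs.ov_lap_form u
  rw [h]
  fun_prop

theorem dgs_gden_cont (v : ℝ) : Continuous (gden v) := by
  unfold gden
  fun_prop

theorem dgs_gden_nonneg (v x : ℝ) : 0 ≤ gden v x := by
  unfold gden
  positivity

theorem dgs_gden_le (v : ℝ) (hv : 0 < v) (x : ℝ) : gden v x ≤ 1 / Real.sqrt (2 * Real.pi * v) := by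
  unfold gden
  refine div_le_div_of_nonneg_right ?_ (Real.sqrt_nonneg _)
  rw [Real.exp_le_one_iff]
  have : 0 ≤ x ^ 2 / (2 * v) := by positivity
  rw [neg_div]
  linarith

/-- `dgq_wtP_real`, `wt1_eq_wtP`, `dgs_enC_toC` -/
theorem dgs_Z0_real (v ω : ℝ) (hv : 0 < v) (hω : 0 < ω) (s : ℝ) (ψ : G.V → ℝ) :
    Z0 G (wt1 v ω) (s : ℂ) (toC ψ) = ((Zr G v ω s ψ : ℝ) : ℂ) := by
  unfold Z0 Zr
  rw [dgs_enC_toC, wt1_eq_wtP, Complex.ofReal_mul, Complex.ofReal_prod, Complex.ofReal_exp]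
  congr 1
  · push_cast
    rfl
  · refine Finset.prod_congr rfl fun x _ => ?_
    exact (dgq_wtP_real v ω hv hω (ψ x)).2

theorem dgs_Zr_nonneg (v ω : ℝ) (hω : 0 < ω) (s : ℝ) (ψ : G.V → ℝ) : 0 ≤ Zr G v ω s ψ := by
  unfold Zr
  exact mul_nonneg (Real.exp_pos _).le (Finset.prod_nonneg fun x _ =>
    mul_nonneg hω.le (tsum_nonneg fun n => dgs_gden_nonneg _ _))

/-- joint measurability (continuity) of the integrand gives measurability in `t`: `Measurable.lintegral_prod_right'` -/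
theorem dgs_meas (v s : ℝ) (C1 : Matrix G.V G.V ℝ) (F σ : G.V → ℝ) : Measurable (rIn G v s C1 F σ) := by
  have : IsProbabilityMeasure (gauss G C1) := Reg.reg_gauss_prob C1
  unfold rIn
  have hc : Continuous fun p : ℝ × (G.V → ℝ) =>
      Real.exp (s / 2 * enR G (p.2 + F)) * ∏ x, gden v (σ x - (p.2 x + F x) - p.1) := by
    have h1 := dgs_enR_cont (G := G)
    have h2 := dgs_gden_cont v
    fun_prop
  exact Measurable.lintegral_prod_right'
    (f := fun p : ℝ × (G.V → ℝ) => ENNReal.ofReal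
      (Real.exp (s / 2 * enR G (p.2 + F)) * ∏ x, gden v (σ x - (p.2 x + F x) - p.1)))
    (ENNReal.measurable_ofReal.comp hc.measurable)

/-! ## leaf L-DG-SRC-B: `refW` as a `∫⁻` -/

/-- continuity of the integrand of `rIn` in the field -/
theorem dgs_integrand_cont (v s : ℝ) (F σ : G.V → ℝ) (t : ℝ) :
    Continuous fun φ : G.V → ℝ => Real.exp (s / 2 * enR G (φ + F)) * ∏ x, gden v (σ x - (φ x + F x) - t) := by
  refine Continuous.mul ?_ ?_
  · exact Real.continuous_exp.comp (continuous_const.mul (dgs_enR_cont.comp (continuous_id.add continuous_const)))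
  · refine continuous_finsetProd _ fun x _ => (dgs_gden_cont v).comp ?_
    exact (continuous_const.sub ((continuous_apply x).add continuous_const)).sub continuous_const

theorem dgs_integrand_nonneg (v s : ℝ) (F σ : G.V → ℝ) (t : ℝ) (φ : G.V → ℝ) :
    0 ≤ Real.exp (s / 2 * enR G (φ + F)) * ∏ x, gden v (σ x - (φ x + F x) - t) :=
  mul_nonneg (Real.exp_pos _).le (Finset.prod_nonneg fun _ _ => dgs_gden_nonneg v _)

theorem dgs_rIn_lt_top (v s : ℝ) (hv : 0 < v) (C1 : Matrix G.V G.V ℝ)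
    (hfin : ∫⁻ φ, ENNReal.ofReal (Real.exp (s / 2 * enR G φ)) ∂(gauss G C1) ≠ ∞) (σ : G.V → ℝ) (t : ℝ) :
    rIn G v s C1 0 σ t < ∞ := by
  have h1 : rIn G v s C1 0 σ t ≤ ∫⁻ φ, ENNReal.ofReal ((1 / Real.sqrt (2 * Real.pi * v)) ^ Fintype.card G.V) *
      ENNReal.ofReal (Real.exp (s / 2 * enR G φ)) ∂(gauss G C1) := by
    unfold rIn
    refine lintegral_mono fun φ => ?_
    rw [← ENNReal.ofReal_mul (by positivity), add_zero, mul_comm]
    refine ENNReal.ofReal_le_ofReal (mul_le_mul_of_nonneg_right ?_ (Real.exp_pos _).le)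
    calc ∏ x, gden v (σ x - (φ x + (0 : G.V → ℝ) x) - t) ≤ ∏ _x : G.V, (1 / Real.sqrt (2 * Real.pi * v)) :=
          Finset.prod_le_prod (fun x _ => dgs_gden_nonneg v _) fun x _ => dgs_gden_le v hv _
      _ = _ := by rw [Finset.prod_const, Finset.card_univ]
  refine lt_of_le_of_lt h1 ?_
  rw [lintegral_const_mul' _ _ ENNReal.ofReal_ne_top]
  exact ENNReal.mul_lt_top ENNReal.ofReal_lt_top (lt_top_iff_ne_top.2 hfin)

/-- `integral_eq_lintegral_of_nonneg_ae` twice.  Inner integral: `= (rIn 0 σ t).toReal` (always).  Outer: measurability `dgs_meas`; `ENNReal.ofReal_toReal` needs `rIn 0 σ t ≠ ∞`: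
`rIn 0 σ t ≤ (1/√(2πv))^N ∫⁻ exp (s/2 enR)` (`dgs_gden_le`, `lintegral_mono`, `lintegral_const_mul`). -/
theorem dgs_refW_eq (v s : ℝ) (hv : 0 < v) (C1 : Matrix G.V G.V ℝ)
    (hfin : ∫⁻ φ, ENNReal.ofReal (Real.exp (s / 2 * enR G φ)) ∂(gauss G C1) ≠ ∞) (σ : G.V → ℝ) :
    refW G v s C1 σ = (∫⁻ t, rIn G v s C1 0 σ t).toReal := by
  have h1 : ∀ t : ℝ, ∫ φ, Real.exp (s / 2 * enR G φ) * ∏ x, gden v (σ x - φ x - t) ∂(gauss G C1) = (rIn G v s C1 0 σ t).toReal := by
    intro t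
    have e : (fun φ : G.V → ℝ => Real.exp (s / 2 * enR G φ) * ∏ x, gden v (σ x - φ x - t))
        = fun φ : G.V → ℝ => Real.exp (s / 2 * enR G (φ + 0)) * ∏ x, gden v (σ x - (φ x + (0 : G.V → ℝ) x) - t) := by
      funext φ
      simp
    rw [e, integral_eq_lintegral_of_nonneg_ae (Filter.Eventually.of_forall fun φ => dgs_integrand_nonneg v s 0 σ t φ)
      (dgs_integrand_cont v s 0 σ t).aestronglyMeasurable]
    rfl
  unfold refW
  simp_rw [h1]
  exact integral_toReal (dgs_meas v s C1 0 σ).aemeasurable (Filter.Eventually.of_forall fun t => dgs_rIn_lt_top v s hv C1 hfin σ t)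

/-! ## leaf L-DG-SRC-C: completion of the square + Cameron-Martin -/

/-- one site: `g_v (y - v f) = g_v (y) e^{f y - v f²/2}` -/
theorem dgs_gden_shift (v : ℝ) (hv : 0 < v) (y f : ℝ) :
    gden v (y - v * f) = gden v y * Real.exp (f * y - v * f ^ 2 / 2) := by
  unfold gden
  rw [div_mul_eq_mul_div, ← Real.exp_add]
  congr 2
  field_simp
  ring

/-- the product over the sites -/
theorem dgs_gden_prod (v : ℝ) (hv : 0 < v) (y f : G.V → ℝ) :
    ∏ x, gden v (y x - v * f x) = (∏ x, gden v (y x)) * Real.exp (∑ x, f x * y x - v * (f ⬝ᵥ f) / 2) := by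
  simp only [dgs_gden_shift v hv]
  rw [Finset.prod_mul_distrib, ← Real.exp_sum]
  congr 2
  rw [Finset.sum_sub_distrib]
  congr 1
  simp only [dotProduct, Finset.mul_sum, Finset.sum_div]
  refine Finset.sum_congr rfl fun x _ => ?_
  ring

/-- the quadratic form at a shifted point -/
theorem dgs_enR_add (φ f : G.V → ℝ) (v : ℝ) :
    enR G (φ + v • f) = enR G φ + 2 * v * ((lap G).mulVec f ⬝ᵥ φ) + v ^ 2 * (f ⬝ᵥ (lap G).mulVec f) := by
  have hsym : (lap G).transpose = lap G := Ker.ker_mul_symm (Ker.ker_lap_mul G)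
  have h1 : f ⬝ᵥ (lap G).mulVec φ = (lap G).mulVec f ⬝ᵥ φ := by
    rw [Matrix.dotProduct_mulVec, ← Matrix.mulVec_transpose, hsym]
  unfold enR
  rw [Matrix.mulVec_add, Matrix.mulVec_smul, add_dotProduct, dotProduct_add, dotProduct_add, smul_dotProduct,
    smul_dotProduct, dotProduct_smul, dotProduct_smul, h1, dotProduct_comm φ ((lap G).mulVec f)]
  simp only [smul_eq_mul]
  ring

/-- the exponents agree -/
theorem dgs_cm_exp (v s : ℝ) (C1 : Matrix G.V G.V ℝ) (f : G.V → ℝ) (hf : ∑ x, f x = 0) (σ φ : G.V → ℝ) (t : ℝ) :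
    ∑ x, f x * σ x + s / 2 * enR G φ
      = enE G v s C1 f + (etaV G v s f ⬝ᵥ φ - (etaV G v s f ⬝ᵥ C1.mulVec (etaV G v s f)) / 2)
        + s / 2 * enR G (φ + v • f) + (∑ x, f x * (σ x - φ x - t) - v * (f ⬝ᵥ f) / 2) := by
  have h1 : ∑ x, f x * (σ x - φ x - t) = ∑ x, f x * σ x - f ⬝ᵥ φ := by
    simp only [mul_sub, Finset.sum_sub_distrib]
    rw [← Finset.sum_mul, hf, zero_mul, sub_zero]
    rfl
  have h2 : etaV G v s f ⬝ᵥ φ = f ⬝ᵥ φ - s * v * ((lap G).mulVec f ⬝ᵥ φ) := by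
    unfold etaV
    rw [sub_dotProduct, smul_dotProduct, smul_eq_mul]
  rw [h1, h2, dgs_enR_add]
  unfold enE
  ring

/-- POINTWISE (`y_x = σ_x - φ_x - t`, `∑ f = 0`): `e^{(f,σ)} ∏ g_v (y_x) = e^{(f,φ)} e^{v|f|²/2} ∏ g_v (y_x - v f_x)`  (`e^{f y} g_v (y) = g_v (y - v f) e^{v f²/2}`).
With `η = etaV = f - s v A f`, `H (φ) := e^{s (φ + v f, A (φ + v f))/2} ∏ g_v (σ_x - (φ_x + v f_x) - t)`:   `e^{(f,φ)} e^{s (φ,Aφ)/2} = e^{(η,φ)} e^{s(φ + vf, A(φ + vf))/2} e^{- s v² (f,Af)/2}` (`A` symmetric).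
`Hol.gauss_shift_lintegral C1 hC η (ofReal ∘ H)`: `∫⁻ H (φ + C₁ η) = ∫⁻ e^{(η,φ) - (η,C₁η)/2} H (φ)`, and `φ + C₁ η + v f = φ + bgV`.   Collect: `E = (η,C₁η)/2 + v |f|²/2 - s v² (f,Af)/2 = enE`. -/
theorem dgs_cm (v s : ℝ) (hv : 0 < v) (C1 : Matrix G.V G.V ℝ) (hC : C1.PosSemidef) (f : G.V → ℝ) (hf : ∑ x, f x = 0) (σ : G.V → ℝ) (t : ℝ) :
    ENNReal.ofReal (Real.exp (∑ x, f x * σ x)) * rIn G v s C1 0 σ t
      = ENNReal.ofReal (Real.exp (enE G v s C1 f)) * rIn G v s C1 (bgV G v s C1 f) σ t := by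
  have hHm : Measurable fun φ : G.V → ℝ => ENNReal.ofReal
      (Real.exp (s / 2 * enR G (φ + v • f)) * ∏ x, gden v (σ x - φ x - t - v * f x)) := by
    apply ENNReal.measurable_ofReal.comp
    apply Continuous.measurable
    refine (Real.continuous_exp.comp (continuous_const.mul (dgs_enR_cont.comp (continuous_id.add continuous_const)))).mul ?_
    refine continuous_finsetProd _ fun x _ => (dgs_gden_cont v).comp ?_
    exact ((continuous_const.sub (continuous_apply x)).sub continuous_const).sub continuous_const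
  have e1 : rIn G v s C1 (bgV G v s C1 f) σ t = ∫⁻ φ, (fun φ : G.V → ℝ => ENNReal.ofReal
      (Real.exp (s / 2 * enR G (φ + v • f)) * ∏ x, gden v (σ x - φ x - t - v * f x)))
        (φ + C1.mulVec (etaV G v s f)) ∂(gauss G C1) := by
    unfold rIn
    refine lintegral_congr fun φ => ?_
    have h1 : φ + bgV G v s C1 f = φ + C1.mulVec (etaV G v s f) + v • f := by
      unfold bgV
      rw [add_assoc]
    show _ = ENNReal.ofReal (Real.exp (s / 2 * enR G (φ + C1.mulVec (etaV G v s f) + v • f))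
      * ∏ x, gden v (σ x - (φ + C1.mulVec (etaV G v s f)) x - t - v * f x))
    rw [h1]
    congr 2
    refine Finset.prod_congr rfl fun x _ => ?_
    congr 1
    unfold bgV
    simp only [Pi.add_apply, Pi.smul_apply, smul_eq_mul]
    ring
  rw [e1, Hol.gauss_shift_lintegral C1 hC (etaV G v s f) _ hHm]
  unfold rIn
  rw [← lintegral_const_mul' _ _ ENNReal.ofReal_ne_top, ← lintegral_const_mul' _ _ ENNReal.ofReal_ne_top]
  refine lintegral_congr fun φ => ?_
  rw [← ENNReal.ofReal_mul (Real.exp_pos _).le, ← ENNReal.ofReal_mul (Real.exp_pos _).le,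
    ← ENNReal.ofReal_mul (Real.exp_pos _).le]
  congr 1
  rw [dgs_gden_prod v hv (fun x => σ x - φ x - t) f, add_zero]
  have h0 : ∀ x, σ x - (φ x + (0 : G.V → ℝ) x) - t = σ x - φ x - t := fun x => by
    rw [Pi.zero_apply, add_zero]
  simp only [h0]
  have key := dgs_cm_exp v s C1 f hf σ φ t
  calc Real.exp (∑ x, f x * σ x) * (Real.exp (s / 2 * enR G φ) * ∏ x, gden v (σ x - φ x - t))
      = Real.exp (∑ x, f x * σ x + s / 2 * enR G φ) * ∏ x, gden v (σ x - φ x - t) := by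
        rw [Real.exp_add]; ring
    _ = _ := by
        rw [key, Real.exp_add, Real.exp_add, Real.exp_add]
        ring

/-! ## leaf L-DG-SRC-D: summing the comb -/

/-- pointwise in `φ`: `ENNReal.ofReal_mul`, `ENNReal.ofReal_prod_of_nonneg`, `ENNReal.tsum_mul_left`, `Rsd.cs_ennreal_tsum_pi`, `ENNReal.ofReal_tsum_of_nonneg` (summability: `dgq_wtP_real`), `dgs_enR_shift` -/
theorem dgs_sum_h (v ω : ℝ) (hv : 0 < v) (hω : 0 < ω) (s : ℝ) (F φ : G.V → ℝ) (t : ℝ) :
    ∑' h : G.V → ℤ, ENNReal.ofReal (Real.exp (s / 2 * enR G (φ + F)) * ∏ x, gden v (ω * (h x : ℝ) - (φ x + F x) - t))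
      = (ENNReal.ofReal (ω ^ Fintype.card G.V))⁻¹ * ENNReal.ofReal (Zr G v ω s fun x => F x + t + φ x) := by
  have hen : enR G (fun x => F x + t + φ x) = enR G (φ + F) := by
    rw [← dgs_enR_shift (φ + F) t]
    congr 1
    funext x
    simp only [Pi.add_apply]
    ring
  have hsum : ∀ x, Summable fun n : ℤ => gden v (ω * n - (F x + t + φ x)) := fun x => (dgq_wtP_real v ω hv hω (F x + t + φ x)).1
  have hL : ∀ h : G.V → ℤ, ENNReal.ofReal (Real.exp (s / 2 * enR G (φ + F)) * ∏ x, gden v (ω * (h x : ℝ) - (φ x + F x) - t))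
      = ENNReal.ofReal (Real.exp (s / 2 * enR G (φ + F))) * ∏ x, ENNReal.ofReal (gden v (ω * (h x : ℝ) - (F x + t + φ x))) := by
    intro h
    rw [ENNReal.ofReal_mul (Real.exp_pos _).le, ENNReal.ofReal_prod_of_nonneg fun x _ => dgs_gden_nonneg v _]
    congr 1
    refine Finset.prod_congr rfl fun x _ => ?_
    congr 2
    ring
  rw [tsum_congr hL, ENNReal.tsum_mul_left,
    Rsd.cs_ennreal_tsum_pi fun (x : G.V) (n : ℤ) => ENNReal.ofReal (gden v (ω * (n : ℝ) - (F x + t + φ x)))]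
  have hω0 : ENNReal.ofReal (ω ^ Fintype.card G.V) ≠ 0 := by
    rw [Ne, ENNReal.ofReal_eq_zero, not_le]
    positivity
  unfold Zr
  rw [hen, Finset.prod_mul_distrib, Finset.prod_const, Finset.card_univ, ENNReal.ofReal_mul (Real.exp_pos _).le,
    ENNReal.ofReal_mul (by positivity), ENNReal.ofReal_prod_of_nonneg fun x _ => tsum_nonneg fun n => dgs_gden_nonneg v _,
    mul_left_comm, ← mul_assoc (ENNReal.ofReal (ω ^ Fintype.card G.V))⁻¹, ENNReal.inv_mul_cancel hω0 ENNReal.ofReal_ne_top, one_mul]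
  congr 1
  refine Finset.prod_congr rfl fun x _ => ?_
  rw [ENNReal.ofReal_tsum_of_nonneg (fun n => dgs_gden_nonneg v _) (hsum x)]

theorem dgs_toC_add (ψ ζ : G.V → ℝ) : toC ψ + toC ζ = toC fun x => ψ x + ζ x := by
  funext x
  simp [toC]

/-- `conv` unfolds; `toC ψ + toC ζ = toC (ψ + ζ)`; `dgs_Z0_real`; `integral_complex_ofReal`/`integral_ofReal`, `Complex.ofReal_re`; `ofReal_integral_eq_lintegral_ofReal` (integrability of the real function from `hint`: `Integrable.re`/`ofReal`) -/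
theorem dgs_conv_re (v ω : ℝ) (hv : 0 < v) (hω : 0 < ω) (s : ℝ) (C1 : Matrix G.V G.V ℝ) (ψ : G.V → ℝ)
    (hint : Integrable (fun ζ => Z0 G (wt1 v ω) (s : ℂ) (toC ψ + toC ζ)) (gauss G C1)) :
    ENNReal.ofReal ((conv C1 (Z0 G (wt1 v ω) (s : ℂ)) (toC ψ)).re) = ∫⁻ ζ, ENNReal.ofReal (Zr G v ω s fun x => ψ x + ζ x) ∂(gauss G C1) := by
  have e : (fun ζ => Z0 G (wt1 v ω) (s : ℂ) (toC ψ + toC ζ)) = fun ζ : G.V → ℝ => ((Zr G v ω s (fun x => ψ x + ζ x) : ℝ) : ℂ) := by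
    funext ζ
    rw [dgs_toC_add, dgs_Z0_real v ω hv hω]
  have hi : Integrable (fun ζ : G.V → ℝ => Zr G v ω s fun x => ψ x + ζ x) (gauss G C1) := by
    have h2 : Integrable (fun ζ : G.V → ℝ => ((Zr G v ω s (fun x => ψ x + ζ x) : ℝ) : ℂ)) (gauss G C1) := e ▸ hint
    simpa using h2.re
  unfold conv
  rw [e, integral_complex_ofReal, Complex.ofReal_re,
    ofReal_integral_eq_lintegral_ofReal hi (Filter.Eventually.of_forall fun ζ => dgs_Zr_nonneg v ω hω s _)]

/-- `lintegral_tsum` (each term is measurable in `φ`: continuity), `dgs_sum_h`, `lintegral_const_mul'`, `dgs_conv_re` -/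
theorem dgs_comb (v ω : ℝ) (hv : 0 < v) (hω : 0 < ω) (s : ℝ) (C1 : Matrix G.V G.V ℝ) (F : G.V → ℝ) (t : ℝ)
    (hint : Integrable (fun ζ => Z0 G (wt1 v ω) (s : ℂ) (toC (fun x => F x + t) + toC ζ)) (gauss G C1)) :
    ∑' h : G.V → ℤ, rIn G v s C1 F (fun x => ω * (h x : ℝ)) t
      = (ENNReal.ofReal (ω ^ Fintype.card G.V))⁻¹ * ENNReal.ofReal ((conv C1 (Z0 G (wt1 v ω) (s : ℂ)) (toC fun x => F x + t)).re) := by
  have hω0 : ENNReal.ofReal (ω ^ Fintype.card G.V) ≠ 0 := by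
    rw [Ne, ENNReal.ofReal_eq_zero, not_le]
    positivity
  have hm : ∀ h : G.V → ℤ, AEMeasurable (fun φ : G.V → ℝ =>
      ENNReal.ofReal (Real.exp (s / 2 * enR G (φ + F)) * ∏ x, gden v (ω * (h x : ℝ) - (φ x + F x) - t))) (gauss G C1) := fun h =>
    (ENNReal.measurable_ofReal.comp (dgs_integrand_cont v s F (fun x => ω * (h x : ℝ)) t).measurable).aemeasurable
  unfold rIn
  rw [← lintegral_tsum hm]
  simp_rw [dgs_sum_h v ω hv hω s F _ t]
  rw [lintegral_const_mul' _ _ (ENNReal.inv_ne_top.2 hω0), dgs_conv_re v ω hv hω s C1 _ hint]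

/-! ## GLUE: `dgs_master`, `ref_source_pf` are in `Dg/SrcTop.lean` (helper12) -/

end

end Claimed.Agent.R285.BC2
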