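import Claimed.Agent.R285.Dg.Defs
import Claimed.Agent.R285.Map.TowBg

/-!
# ROW 285, unit BC2, file Dg/TermM: the terminal moment of the regulator at the background `w cos (2π x₁/n) + θ`      (helper136)

Step (3) of the plan of `dg_terminal` (`Dg/Term.lean`).  No `sorry`.
-/

set_option autoImplicit false

namespace Claimed.Agent.R285.BC2

open scoped BigOperators ENNReal NNReal
open MeasureTheory ProbabilityTheory Polynomial Filter Topology
open Claimed.Agent.R285.RG Claimed.Agent.R285.B8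

noncomputable section

/-- the energy of the background `w cos1 + θ` -/
theorem dgt_bg_energy {G : Geom} (hG : G.bc = BC.per) (g : Grid G) (hg : g.Ok) (hgM : g.m ≤ G.M) (δ : ℝ) (hδ : 0 ≤ δ) (X : Finset g.I)
    (w θ : ℝ) (hw : |w| ≤ 1) : U g δ X (fun v : G.V => w * cos1 G v + θ) ≤ Tow.bgC δ * X.card := by
  have hm : (0 : ℝ) < g.m := by exact_mod_cast hg.pos
  have hM : (0 : ℝ) < G.M := by exact_mod_cast G.hM
  have hmM : (g.m : ℝ) ≤ G.M := by exact_mod_cast hgM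
  have hpi := Real.pi_pos
  have k1 : 2 * Real.pi / G.M ≤ 2 * Real.pi / g.m := div_le_div_of_nonneg_left (by positivity) hm hmM
  have e1 : ∀ e : Fin 4, dif (dir e) (G.lift (fun v : G.V => w * cos1 G v + θ))
      = dif (dir e) (G.lift (fun v : G.V => w * Real.cos (2 * Real.pi * ((v.1 : ℕ) : ℝ) / G.M))) := by
    intro e
    funext x
    simp only [dif, Geom.lift, cos1]
    ring
  have hb : 0 ≤ bondE (g.Dm X) (fun v : G.V => w * cos1 G v + θ) := by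
    unfold bondE
    refine mul_nonneg (by norm_num) (Finset.sum_nonneg fun v _ => Finset.sum_nonneg fun e _ => ?_)
    split_ifs
    · positivity
    · exact le_rfl
  have := Tow.tw_U_smooth g hg δ hδ X (fun v : G.V => w * cos1 G v + θ) (2 * Real.pi) ((2 * Real.pi) ^ 2) (by positivity) (by positivity)
    (fun v e => by
      rw [e1]
      exact (Tow.tw_cos_dif1 hG w hw _ e).trans k1)
    (fun v e e' => by
      rw [e1]
      refine (Tow.tw_cos_dif2 hG w hw _ e e').trans ?_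
      rw [← div_pow]
      exact pow_le_pow_left₀ (by positivity) k1 2)
  unfold Tow.bgC
  linarith

/-- **the terminal moment of the regulator.**   ORDER: `δ ≤ δ0`; `κ0, cT`; `κ ≤ κ0`; then everything else. -/
theorem dgt_moment : ∃ δ0 > (0 : ℝ), ∀ δ ∈ Set.Ioc 0 δ0, ∃ κ0 > (0 : ℝ), ∃ cT : ℝ≥0∞, cT ≠ ⊤ ∧ ∀ κ ∈ Set.Ioc 0 κ0,
    ∀ (G : Geom) (g : Grid G), G.bc = BC.per → g.Ok → 2 * g.m ≤ G.M → ∀ Γ : Matrix G.V G.V ℝ, IsTerminal G Fam.entry g.m Γ →
      ∀ (W : Finset g.I) (w θ : ℝ), |w| ≤ 1 →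
        ∫⁻ ζ, ENNReal.ofReal (Wt g δ κ (Extra.zero g) W ((fun v => w * cos1 G v + θ) + ζ)) ∂(gauss G Γ) ≤ cT ^ W.card := by
  obtain ⟨Cb, hCb⟩ := B4.terminal_bounds 1 1 64 0
  obtain ⟨δt, hδt, hreg⟩ := B4.regulator_terminal Cb
  refine ⟨δt, hδt, fun δ hδ => ?_⟩
  obtain ⟨κt, hκt, C, hC, hreg⟩ := hreg δ hδ
  refine ⟨κt / 2, by positivity, ENNReal.ofReal (Real.exp (κt * Tow.bgC δ)) * C, ENNReal.mul_ne_top ENNReal.ofReal_ne_top hC,
    fun κ hκ G g hG hg h2 Γ hΓ W w θ hw => ?_⟩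
  have hκ2 : 2 * κ ∈ Set.Ioc 0 κt := ⟨by linarith [hκ.1], by linarith [hκ.2]⟩
  have hTB : TermBounds G Cb g.m Γ := hCb G Fam.entry B4.entry_adm (by norm_num [Fam.entry]) g.m hg.pos h2 Γ hΓ
  have key := hreg (2 * κ) hκ2 G g hg Γ hΓ.psd hTB W
  have hbg := dgt_bg_energy hG g hg (by omega) δ hδ.1.le W w θ hw
  have hbg0 : 0 ≤ Tow.bgC δ := by
    unfold Tow.bgC
    have := hδ.1
    positivity
  have hpt : ∀ ζ : G.V → ℝ, ENNReal.ofReal (Wt g δ κ (Extra.zero g) W ((fun v => w * cos1 G v + θ) + ζ))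
      ≤ ENNReal.ofReal (Real.exp (κt * Tow.bgC δ)) ^ W.card * ENNReal.ofReal (RG.W g δ (2 * κ) W ζ) := by
    intro ζ
    rw [← ENNReal.ofReal_pow (Real.exp_pos _).le, ← ENNReal.ofReal_mul (by positivity)]
    apply ENNReal.ofReal_le_ofReal
    unfold Wt RG.W
    rw [← Real.exp_nat_mul, ← Real.exp_add]
    apply Real.exp_le_exp.2
    show κ * U g δ W ((fun v => w * cos1 G v + θ) + ζ) + 0 ≤ _
    have h1 := Reg.reg_U_add_le (g := g) hδ.1.le W (fun v => w * cos1 G v + θ) ζ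
    have h3 : κ * U g δ W ((fun v => w * cos1 G v + θ) + ζ) ≤ κ * (2 * U g δ W (fun v => w * cos1 G v + θ) + 2 * U g δ W ζ) :=
      mul_le_mul_of_nonneg_left h1 hκ.1.le
    have h4 : 2 * κ * U g δ W (fun v => w * cos1 G v + θ) ≤ κt * (Tow.bgC δ * W.card) :=
      mul_le_mul hκ2.2 hbg (Reg.reg_U_nonneg (g := g) hδ.1.le _ _) hκt.le
    nlinarith [h3, h4]
  calc ∫⁻ ζ, ENNReal.ofReal (Wt g δ κ (Extra.zero g) W ((fun v => w * cos1 G v + θ) + ζ)) ∂(gauss G Γ)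
      ≤ ∫⁻ ζ, ENNReal.ofReal (Real.exp (κt * Tow.bgC δ)) ^ W.card * ENNReal.ofReal (RG.W g δ (2 * κ) W ζ) ∂(gauss G Γ) := lintegral_mono hpt
    _ ≤ ENNReal.ofReal (Real.exp (κt * Tow.bgC δ)) ^ W.card * ∫⁻ ζ, ENNReal.ofReal (RG.W g δ (2 * κ) W ζ) ∂(gauss G Γ) := by
        rw [lintegral_const_mul' _ _ (ENNReal.pow_ne_top ENNReal.ofReal_ne_top)]
    _ ≤ ENNReal.ofReal (Real.exp (κt * Tow.bgC δ)) ^ W.card * C ^ W.card := by gcongr
    _ = _ := by rw [mul_pow]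

end

end Claimed.Agent.R285.BC2
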