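import Claimed.Agent.R285.Dg.UvAdm
import Claimed.Agent.R285.Hol.Sz

/-!
# ROW 285, unit BC2, file Dg/UvNorm: size and Lipschitz bound of the initial remainder `R0` of the reference model   (helper259)
Part "norm + Lipschitz" of `uv_bound` (U2).  `z = φ + f`, `t_B = g_B (φ)`, `y = t_B + 8 h²`: `|e_B (z)| ≤ 2 y`, `|∏_{x ∈ B} w (z x) - 1| ≤ N e^N dw`, `N = 4 m²`;
`(1 + y)² e^{σ y} ≤ Q e^{κ t_B}` for `σ ≤ κ/2`; `∏_{B ∈ X} e^{κ t_B} ≤ W^κ (X, φ)`.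
Exit: `uv_bound_pf`.
-/

set_option autoImplicit false

namespace Claimed.Agent.R285.BC2

open scoped BigOperators ENNReal NNReal
open Claimed.Agent.R285.RG Claimed.Agent.R285.B8 Claimed.Agent.R285.Hol

noncomputable section

/-! ## 1. scalars -/


/-- absorption constant -/
def uvQ (κ a : ℝ) : ℝ := (1 + a / 2 + 4 / κ) ^ 2 * Real.exp (κ * a / 4)

theorem uvn_Q_pos (κ a : ℝ) (hκ : 0 < κ) (ha : 0 ≤ a) : 0 < uvQ κ a := by
  unfold uvQ
  positivity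

theorem uvn_absorb (κ a t σ : ℝ) (hκ : 0 < κ) (ha : 0 ≤ a) (ht : 0 ≤ t) (_hσ0 : 0 ≤ σ) (hσ : σ ≤ κ / 2) :
    (1 + (t + a / 2)) ^ 2 * Real.exp (σ * (t + a / 2)) ≤ uvQ κ a * Real.exp (κ * t) := by
  have h4 : 1 ≤ Real.exp (κ * t / 4) := Real.one_le_exp (by positivity)
  have h1 : 1 + (t + a / 2) ≤ (1 + a / 2 + 4 / κ) * Real.exp (κ * t / 4) := by
    have h2 : κ * t / 4 + 1 ≤ Real.exp (κ * t / 4) := Real.add_one_le_exp _
    have h3 : t ≤ 4 / κ * Real.exp (κ * t / 4) := by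
      have h5 : t = 4 / κ * (κ * t / 4) := by field_simp
      calc t = 4 / κ * (κ * t / 4) := h5
        _ ≤ 4 / κ * Real.exp (κ * t / 4) := by
          apply mul_le_mul_of_nonneg_left _ (by positivity)
          linarith
    have h6 : (1 + a / 2) * 1 ≤ (1 + a / 2) * Real.exp (κ * t / 4) := mul_le_mul_of_nonneg_left h4 (by positivity)
    nlinarith
  have h7 : (1 + (t + a / 2)) ^ 2 ≤ (1 + a / 2 + 4 / κ) ^ 2 * Real.exp (κ * t / 2) := by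
    calc (1 + (t + a / 2)) ^ 2 ≤ ((1 + a / 2 + 4 / κ) * Real.exp (κ * t / 4)) ^ 2 := by
          apply pow_le_pow_left₀ (by positivity) h1
      _ = (1 + a / 2 + 4 / κ) ^ 2 * Real.exp (κ * t / 2) := by
          rw [mul_pow, ← Real.exp_nat_mul]
          congr 2
          push_cast
          ring
  have h8 : Real.exp (σ * (t + a / 2)) ≤ Real.exp (κ * t / 2) * Real.exp (κ * a / 4) := by
    rw [← Real.exp_add]
    apply Real.exp_le_exp.2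
    have : σ * (t + a / 2) ≤ κ / 2 * (t + a / 2) := mul_le_mul_of_nonneg_right hσ (by positivity)
    linarith
  calc (1 + (t + a / 2)) ^ 2 * Real.exp (σ * (t + a / 2))
      ≤ ((1 + a / 2 + 4 / κ) ^ 2 * Real.exp (κ * t / 2)) * (Real.exp (κ * t / 2) * Real.exp (κ * a / 4)) :=
        mul_le_mul h7 h8 (Real.exp_pos _).le (by positivity)
    _ = uvQ κ a * Real.exp (κ * t) := by
        have : Real.exp (κ * t) = Real.exp (κ * t / 2) * Real.exp (κ * t / 2) := by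
          rw [← Real.exp_add]; congr 1; ring
        rw [this]
        unfold uvQ
        ring

theorem uvn_exp1 (u : ℂ) : ‖Complex.exp u - 1‖ ≤ ‖u‖ * Real.exp ‖u‖ := by
  have h := Complex.norm_exp_sub_sum_le_norm_mul_exp u 1
  simpa using h

theorem uvn_exp2 (u : ℂ) : ‖Complex.exp u - 1 - u‖ ≤ ‖u‖ ^ 2 * Real.exp ‖u‖ := by
  have h := Complex.norm_exp_sub_sum_le_norm_mul_exp u 2
  simpa [Finset.sum_range_succ, sub_sub] using h

theorem uvn_expd (u u' : ℂ) : ‖Complex.exp u - Complex.exp u'‖ ≤ ‖u - u'‖ * Real.exp (‖u - u'‖ + ‖u'‖) := by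
  have h1 : Complex.exp u - Complex.exp u' = Complex.exp u' * (Complex.exp (u - u') - 1) := by
    rw [mul_sub, ← Complex.exp_add]
    simp
  rw [h1, norm_mul, Real.exp_add]
  have h2 := uvn_exp1 (u - u')
  have h3 : ‖Complex.exp u'‖ ≤ Real.exp ‖u'‖ := Complex.norm_exp_le_exp_norm u'
  calc ‖Complex.exp u'‖ * ‖Complex.exp (u - u') - 1‖ ≤ Real.exp ‖u'‖ * (‖u - u'‖ * Real.exp ‖u - u'‖) :=
        mul_le_mul h3 h2 (norm_nonneg _) (Real.exp_pos _).le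
    _ = _ := by ring


theorem uvn_half (s e : ℂ) (y : ℝ) (he : ‖e‖ ≤ 2 * y) : ‖s / 2 * e‖ ≤ ‖s‖ * y := by
  rw [norm_mul, norm_div]
  have : ‖(2 : ℂ)‖ = 2 := by simp
  rw [this]
  have := mul_le_mul_of_nonneg_left he (norm_nonneg s)
  linarith

theorem uvn_P (P : ℂ) (pd : ℝ) (hP : ‖P - 1‖ ≤ pd) : ‖P‖ ≤ 1 + pd := by
  have : P = 1 + (P - 1) := by ring
  calc ‖P‖ = ‖1 + (P - 1)‖ := by rw [← this]
    _ ≤ ‖(1 : ℂ)‖ + ‖P - 1‖ := norm_add_le _ _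
    _ ≤ 1 + pd := by simpa using hP

/-- (K1) -/
theorem uvn_K1 (s e P : ℂ) (y pd σ : ℝ) (hy : 0 ≤ y) (he : ‖e‖ ≤ 2 * y) (hP : ‖P - 1‖ ≤ pd) (hs : ‖s‖ ≤ σ) :
    ‖Complex.exp (s / 2 * e) * P - 1‖ ≤ ‖s‖ * ((1 + y) ^ 2 * Real.exp (σ * y)) * (1 + pd) + pd := by
  have hv := uvn_half s e y he
  have hpd : 0 ≤ pd := (norm_nonneg _).trans hP
  have h1 : Complex.exp (s / 2 * e) * P - 1 = (Complex.exp (s / 2 * e) - 1) * P + (P - 1) := by ring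
  have h2 : ‖Complex.exp (s / 2 * e) - 1‖ ≤ ‖s‖ * ((1 + y) ^ 2 * Real.exp (σ * y)) := by
    refine (uvn_exp1 _).trans ?_
    have h3 : Real.exp ‖s / 2 * e‖ ≤ Real.exp (σ * y) :=
      Real.exp_le_exp.2 (hv.trans (mul_le_mul_of_nonneg_right hs hy))
    calc ‖s / 2 * e‖ * Real.exp ‖s / 2 * e‖ ≤ (‖s‖ * y) * Real.exp (σ * y) :=
          mul_le_mul hv h3 (Real.exp_pos _).le (by positivity)
      _ ≤ (‖s‖ * (1 + y) ^ 2) * Real.exp (σ * y) := by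
          apply mul_le_mul_of_nonneg_right _ (Real.exp_pos _).le
          apply mul_le_mul_of_nonneg_left _ (norm_nonneg _)
          nlinarith
      _ = _ := by ring
  rw [h1]
  refine (norm_add_le _ _).trans (add_le_add ?_ hP)
  rw [norm_mul]
  exact mul_le_mul h2 (uvn_P P pd hP) (norm_nonneg _) (by positivity)

/-- (K2) -/
theorem uvn_K2 (s e P : ℂ) (y pd σ : ℝ) (hy : 0 ≤ y) (he : ‖e‖ ≤ 2 * y) (hP : ‖P - 1‖ ≤ pd) (hs : ‖s‖ ≤ σ) :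
    ‖Complex.exp (s / 2 * e) * P - 1 - s / 2 * e‖ ≤ ‖s‖ ^ 2 * ((1 + y) ^ 2 * Real.exp (σ * y)) * (1 + pd)
      + ‖s‖ * ((1 + y) ^ 2 * Real.exp (σ * y)) * pd + pd := by
  have hv := uvn_half s e y he
  have hpd : 0 ≤ pd := (norm_nonneg _).trans hP
  have hσ : 0 ≤ σ := (norm_nonneg _).trans hs
  have h1 : Complex.exp (s / 2 * e) * P - 1 - s / 2 * e
      = (Complex.exp (s / 2 * e) - 1 - s / 2 * e) * P + s / 2 * e * (P - 1) + (P - 1) := by ring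
  have h3 : Real.exp ‖s / 2 * e‖ ≤ Real.exp (σ * y) :=
    Real.exp_le_exp.2 (hv.trans (mul_le_mul_of_nonneg_right hs hy))
  have h2 : ‖Complex.exp (s / 2 * e) - 1 - s / 2 * e‖ ≤ ‖s‖ ^ 2 * ((1 + y) ^ 2 * Real.exp (σ * y)) := by
    refine (uvn_exp2 _).trans ?_
    calc ‖s / 2 * e‖ ^ 2 * Real.exp ‖s / 2 * e‖ ≤ (‖s‖ * y) ^ 2 * Real.exp (σ * y) :=
          mul_le_mul (pow_le_pow_left₀ (norm_nonneg _) hv 2) h3 (Real.exp_pos _).le (by positivity)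
      _ ≤ (‖s‖ ^ 2 * (1 + y) ^ 2) * Real.exp (σ * y) := by
          apply mul_le_mul_of_nonneg_right _ (Real.exp_pos _).le
          rw [mul_pow]
          apply mul_le_mul_of_nonneg_left _ (by positivity)
          nlinarith
      _ = _ := by ring
  have h4 : ‖s / 2 * e‖ ≤ ‖s‖ * ((1 + y) ^ 2 * Real.exp (σ * y)) := by
    refine hv.trans (mul_le_mul_of_nonneg_left ?_ (norm_nonneg _))
    have h5 : 1 ≤ Real.exp (σ * y) := Real.one_le_exp (by positivity)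
    have h6 : y ≤ (1 + y) ^ 2 := by nlinarith
    calc y ≤ (1 + y) ^ 2 * 1 := by linarith
      _ ≤ _ := mul_le_mul_of_nonneg_left h5 (by positivity)
  rw [h1]
  refine (norm_add_le _ _).trans (add_le_add ((norm_add_le _ _).trans (add_le_add ?_ ?_)) hP)
  · rw [norm_mul]
    exact mul_le_mul h2 (uvn_P P pd hP) (norm_nonneg _) (by positivity)
  · rw [norm_mul]
    exact mul_le_mul h4 hP (norm_nonneg _) (by positivity)

/-- (K3) -/
theorem uvn_K3 (s s' e P : ℂ) (y pd σ : ℝ) (hy : 0 ≤ y) (he : ‖e‖ ≤ 2 * y) (hP : ‖P - 1‖ ≤ pd) (hs : ‖s - s'‖ + ‖s'‖ ≤ σ) :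
    ‖(Complex.exp (s / 2 * e) * P - 1) - (Complex.exp (s' / 2 * e) * P - 1)‖ ≤ ‖s - s'‖ * ((1 + y) ^ 2 * Real.exp (σ * y)) * (1 + pd) := by
  have hpd : 0 ≤ pd := (norm_nonneg _).trans hP
  have h1 : (Complex.exp (s / 2 * e) * P - 1) - (Complex.exp (s' / 2 * e) * P - 1)
      = (Complex.exp (s / 2 * e) - Complex.exp (s' / 2 * e)) * P := by ring
  have hd : s / 2 * e - s' / 2 * e = (s - s') / 2 * e := by ring
  have hv := uvn_half (s - s') e y he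
  have hv' := uvn_half s' e y he
  have h2 : ‖Complex.exp (s / 2 * e) - Complex.exp (s' / 2 * e)‖ ≤ ‖s - s'‖ * ((1 + y) ^ 2 * Real.exp (σ * y)) := by
    refine (uvn_expd _ _).trans ?_
    rw [hd]
    have h3 : Real.exp (‖(s - s') / 2 * e‖ + ‖s' / 2 * e‖) ≤ Real.exp (σ * y) := by
      apply Real.exp_le_exp.2
      have := mul_le_mul_of_nonneg_right hs hy
      linarith
    calc ‖(s - s') / 2 * e‖ * Real.exp (‖(s - s') / 2 * e‖ + ‖s' / 2 * e‖) ≤ (‖s - s'‖ * y) * Real.exp (σ * y) :=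
          mul_le_mul hv h3 (Real.exp_pos _).le (by positivity)
      _ ≤ (‖s - s'‖ * (1 + y) ^ 2) * Real.exp (σ * y) := by
          apply mul_le_mul_of_nonneg_right _ (Real.exp_pos _).le
          apply mul_le_mul_of_nonneg_left _ (norm_nonneg _)
          nlinarith
      _ = _ := by ring
  rw [h1, norm_mul]
  exact mul_le_mul h2 (uvn_P P pd hP) (norm_nonneg _) (by positivity)

/-- products -/
theorem uvn_prod_le {ι : Type} (S : Finset ι) (a : ι → ℂ) (r : ι → ℝ) (q : ℝ) (ha : ∀ i ∈ S, ‖a i‖ ≤ q * r i) :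
    ‖∏ i ∈ S, a i‖ ≤ q ^ S.card * ∏ i ∈ S, r i := by
  rw [norm_prod]
  calc ∏ i ∈ S, ‖a i‖ ≤ ∏ i ∈ S, (q * r i) := Finset.prod_le_prod (fun i _ => norm_nonneg _) ha
    _ = _ := by rw [Finset.prod_mul_distrib, Finset.prod_const]

theorem uvn_prod_sub_le {ι : Type} (S : Finset ι) (a b : ι → ℂ) (r : ι → ℝ) (q D : ℝ) (hq : 0 < q) (hD : 0 ≤ D) (hr : ∀ i ∈ S, 0 ≤ r i)
    (ha : ∀ i ∈ S, ‖a i‖ ≤ q * r i) (hb : ∀ i ∈ S, ‖b i‖ ≤ q * r i) (hab : ∀ i ∈ S, ‖a i - b i‖ ≤ D * r i) :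
    ‖∏ i ∈ S, a i - ∏ i ∈ S, b i‖ ≤ S.card * (D / q) * q ^ S.card * ∏ i ∈ S, r i := by
  classical
  induction S using Finset.induction_on with
  | empty => simp
  | insert i S hi ih =>
    have ih' := ih (fun j hj => hr j (Finset.mem_insert_of_mem hj)) (fun j hj => ha j (Finset.mem_insert_of_mem hj))
      (fun j hj => hb j (Finset.mem_insert_of_mem hj)) (fun j hj => hab j (Finset.mem_insert_of_mem hj))
    have hbS := uvn_prod_le S b r q (fun j hj => hb j (Finset.mem_insert_of_mem hj))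
    have hri := hr i (Finset.mem_insert_self i S)
    have hrS : 0 ≤ ∏ j ∈ S, r j := Finset.prod_nonneg fun j hj => hr j (Finset.mem_insert_of_mem hj)
    rw [Finset.prod_insert hi, Finset.prod_insert hi, Finset.prod_insert hi, Finset.card_insert_of_notMem hi]
    have h1 : a i * ∏ j ∈ S, a j - b i * ∏ j ∈ S, b j = a i * (∏ j ∈ S, a j - ∏ j ∈ S, b j) + (a i - b i) * ∏ j ∈ S, b j := by ring
    rw [h1]
    refine (norm_add_le _ _).trans ?_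
    rw [norm_mul, norm_mul]
    have h2 : ‖a i‖ * ‖∏ j ∈ S, a j - ∏ j ∈ S, b j‖ ≤ (q * r i) * (S.card * (D / q) * q ^ S.card * ∏ j ∈ S, r j) :=
      mul_le_mul (ha i (Finset.mem_insert_self i S)) ih' (norm_nonneg _) (by positivity)
    have h3 : ‖a i - b i‖ * ‖∏ j ∈ S, b j‖ ≤ (D * r i) * (q ^ S.card * ∏ j ∈ S, r j) :=
      mul_le_mul (hab i (Finset.mem_insert_self i S)) hbS (norm_nonneg _) (by positivity)
    refine (add_le_add h2 h3).trans (le_of_eq ?_)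
    push_cast
    field_simp
    ring


/-! ## 2. the grid -/

variable {G : Geom}

theorem uvn_sum_gE (g : Grid G) (X : Finset g.I) (φ : G.V → ℝ) : ∑ B ∈ X, gE G (g.sites {B}) φ = gE G (g.sites X) φ := by
  classical
  unfold gE
  rw [← Finset.mul_sum]
  congr 1
  have h1 : ∀ x ∈ g.sites X, g.blk x ∈ X := fun x hx => by simpa [Grid.sites] using hx
  rw [← Finset.sum_fiberwise_of_maps_to h1]
  refine Finset.sum_congr rfl fun B hB => Finset.sum_congr ?_ fun _ _ => rfl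
  ext v
  simp only [Grid.sites, Finset.mem_filter, Finset.mem_univ, true_and, Finset.mem_singleton]
  constructor
  · intro h
    exact ⟨h ▸ hB, h⟩
  · intro h
    exact h.2

theorem uvn_prod_le_Wt (g : Grid G) (δ κ : ℝ) (hδ : 0 ≤ δ) (hκ : 0 ≤ κ) (X : Finset g.I) (φ : G.V → ℝ) :
    ∏ B ∈ X, Real.exp (κ * gE G (g.sites {B}) φ) ≤ Wt g δ κ (Extra.zero g) X φ := by
  rw [← Real.exp_sum, ← Finset.mul_sum, uvn_sum_gE]
  refine le_trans (Real.exp_le_exp.2 (mul_le_mul_of_nonneg_left ?_ hκ)) (exp_le_Wt g δ κ _ X φ)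
  exact (gE_mono (sites_subset_Dm g X) φ).trans (gE_le_U g hδ X φ)

theorem uvn_actNorm_le (p : Par) (hδ : 0 ≤ p.δ) (hκ : 0 ≤ p.κ) (hA : 0 ≤ p.A) (g : Grid G) (K : Act g) (c : ℝ)
    (h : ∀ X : Finset g.I, ∃ M : ℝ, 0 ≤ M ∧ p.A ^ X.card * M ≤ c ∧ ∀ (φ : G.V → ℝ) (f : G.V → ℂ), tnorm g X f < p.h0 →
      ‖K X (toC φ + f)‖ ≤ M * ∏ B ∈ X, Real.exp (p.κ * gE G (g.sites {B}) φ)) :
    actNorm p g (Extra.zero g) K ≤ ENNReal.ofReal c := by
  rw [w_actNorm_le_iff]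
  intro X
  obtain ⟨M, hM0, hMc, hb⟩ := h X
  have h1 : fnSize p g (Extra.zero g) X (K X) ≤ ENNReal.ofReal M := by
    rw [fnSize_le_iff]
    intro φ f hf
    rw [← ENNReal.ofReal_mul hM0]
    exact coe_nnnorm_le_ofReal ((hb φ f hf).trans (mul_le_mul_of_nonneg_left (uvn_prod_le_Wt g p.δ p.κ hδ hκ X φ) hM0))
  calc ENNReal.ofReal (p.A ^ X.card) * fnSize p g (Extra.zero g) X (K X) ≤ ENNReal.ofReal (p.A ^ X.card) * ENNReal.ofReal M :=
        mul_le_mul' le_rfl h1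
    _ = ENNReal.ofReal (p.A ^ X.card * M) := (ENNReal.ofReal_mul (pow_nonneg hA _)).symm
    _ ≤ ENNReal.ofReal c := ENNReal.ofReal_le_ofReal hMc

/-- `N e^N`, `N = 4 m²` -/
def uvNp (m : ℕ) : ℝ := 4 * (m : ℝ) ^ 2 * Real.exp (4 * (m : ℝ) ^ 2)

theorem uvn_Np_nonneg (m : ℕ) : 0 ≤ uvNp m := by
  unfold uvNp
  positivity

theorem uvn_site_prod (g : Grid G) (hg : g.Ok) (ω : ℝ) (hh : ℝ≥0) (dw : ℝ) (w : ℂ → ℂ) (hw : SiteOK ω hh dw w) (hdw : dw ≤ 1)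
    (X : Finset g.I) (B : g.I) (hB : B ∈ X) (φ : G.V → ℝ) (f : G.V → ℂ) (hf : tnorm g X f < hh) :
    ‖∏ x ∈ g.sites {B}, w ((toC φ + f) x) - 1‖ ≤ uvNp g.m * dw := by
  have hdw0 : 0 ≤ dw := (norm_nonneg _).trans (hw.small 0 (by simp))
  have h1 : ∀ x ∈ g.sites {B}, ‖w ((toC φ + f) x) - 1‖ ≤ dw := by
    intro x hx
    apply hw.small
    have hx' : x ∈ g.Dm X := sites_subset_Dm g X (sites_mono g (Finset.singleton_subset_iff.2 hB) hx)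
    have h2 : ‖f x‖ ≤ hh := by exact_mod_cast ((tnorm_spec g X f x hx').1.trans hf.le)
    have h3 : ((toC φ + f) x).im = (f x).im := by simp [toC]
    rw [h3]
    exact (Complex.abs_im_le_norm _).trans h2
  have h2 : ∏ x ∈ g.sites {B}, w ((toC φ + f) x) = ∏ x ∈ g.sites {B}, (1 + (w ((toC φ + f) x) - 1)) :=
    Finset.prod_congr rfl fun x _ => by ring
  rw [h2]
  refine (Finset.norm_prod_one_add_sub_one_le _ _).trans ?_
  have hcard : ((g.sites {B}).card : ℝ) ≤ 4 * (g.m : ℝ) ^ 2 := by exact_mod_cast card_sites_singleton_le g hg B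
  have h3 : ∑ x ∈ g.sites {B}, ‖w ((toC φ + f) x) - 1‖ ≤ 4 * (g.m : ℝ) ^ 2 * dw := by
    calc ∑ x ∈ g.sites {B}, ‖w ((toC φ + f) x) - 1‖ ≤ ∑ _x ∈ g.sites {B}, dw := Finset.sum_le_sum h1
      _ = (g.sites {B}).card * dw := by rw [Finset.sum_const, nsmul_eq_mul]
      _ ≤ _ := mul_le_mul_of_nonneg_right hcard hdw0
  have h4 : ∀ u : ℝ, 0 ≤ u → Real.exp u - 1 ≤ u * Real.exp u := by
    intro u hu
    have h5 : 1 - u ≤ Real.exp (-u) := by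
      have := Real.add_one_le_exp (-u)
      linarith
    have h6 : (1 - u) * Real.exp u ≤ 1 := by
      calc (1 - u) * Real.exp u ≤ Real.exp (-u) * Real.exp u := mul_le_mul_of_nonneg_right h5 (Real.exp_pos _).le
        _ = 1 := by rw [← Real.exp_add]; simp
    linarith
  have h7 : 0 ≤ 4 * (g.m : ℝ) ^ 2 * dw := by positivity
  calc Real.exp (∑ x ∈ g.sites {B}, ‖w ((toC φ + f) x) - 1‖) - 1 ≤ Real.exp (4 * (g.m : ℝ) ^ 2 * dw) - 1 :=
        sub_le_sub_right (Real.exp_le_exp.2 h3) 1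
    _ ≤ 4 * (g.m : ℝ) ^ 2 * dw * Real.exp (4 * (g.m : ℝ) ^ 2 * dw) := h4 _ h7
    _ ≤ 4 * (g.m : ℝ) ^ 2 * dw * Real.exp (4 * (g.m : ℝ) ^ 2) := by
        apply mul_le_mul_of_nonneg_left _ h7
        apply Real.exp_le_exp.2
        calc 4 * (g.m : ℝ) ^ 2 * dw ≤ 4 * (g.m : ℝ) ^ 2 * 1 := mul_le_mul_of_nonneg_left hdw (by positivity)
          _ = _ := mul_one _
    _ = uvNp g.m * dw := by unfold uvNp; ring

theorem uvn_eBC (g : Grid G) (hg : g.Ok) (hh : ℝ≥0) (X : Finset g.I) (B : g.I) (hB : B ∈ X) (φ : G.V → ℝ) (f : G.V → ℂ) (hf : tnorm g X f < hh) :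
    ‖eBC g B (toC φ + f)‖ ≤ 2 * (gE G (g.sites {B}) φ + 16 * (hh : ℝ) ^ 2 / 2) := by
  have h := norm_eBC_le g hg B φ f ((tnorm_mono g {B} X (Finset.singleton_subset_iff.2 hB) f).trans_lt hf)
  linarith

/-! ## 3. one block -/

/-- bound of `|∏ w|` -/
def uvPm (m : ℕ) : ℝ := 1 + uvNp m

theorem uvn_Pm_pos (m : ℕ) : 0 < uvPm m := by
  have := uvn_Np_nonneg m
  unfold uvPm
  linarith

section block

variable (g : Grid G) (hg : g.Ok) (ω : ℝ) (hh : ℝ≥0) (dw : ℝ) (w : ℂ → ℂ) (hw : SiteOK ω hh dw w) (hdw : dw ≤ 1) (κ : ℝ) (hκ : 0 < κ)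
  (X : Finset g.I) (B : g.I) (hB : B ∈ X) (φ : G.V → ℝ) (f : G.V → ℂ) (hf : tnorm g X f < hh)

include hκ in
theorem uvn_M_le : (1 + (gE G (g.sites {B}) φ + 16 * (hh : ℝ) ^ 2 / 2)) ^ 2 * Real.exp (κ / 2 * (gE G (g.sites {B}) φ + 16 * (hh : ℝ) ^ 2 / 2))
    ≤ uvQ κ (16 * (hh : ℝ) ^ 2) * Real.exp (κ * gE G (g.sites {B}) φ) :=
  uvn_absorb κ (16 * (hh : ℝ) ^ 2) _ (κ / 2) hκ (by positivity) (gE_nonneg _ φ) (by positivity) le_rfl

include hg hw hdw hκ hB hf in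
theorem uvn_B1 (s : ℂ) (hs : ‖s‖ ≤ κ / 2) :
    ‖kB g w s B (toC φ + f)‖ ≤ (uvQ κ (16 * (hh : ℝ) ^ 2) * uvPm g.m * ‖s‖ + uvNp g.m * dw) * Real.exp (κ * gE G (g.sites {B}) φ) := by
  have hdw0 : 0 ≤ dw := (norm_nonneg _).trans (hw.small 0 (by simp))
  have ht := gE_nonneg (g.sites {B}) φ
  have hE : 1 ≤ Real.exp (κ * gE G (g.sites {B}) φ) := Real.one_le_exp (by positivity)
  have hN := uvn_Np_nonneg g.m
  have hQ := uvn_Q_pos κ (16 * (hh : ℝ) ^ 2) hκ (by positivity)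
  have h1 := uvn_K1 s _ _ _ _ (κ / 2) (by positivity) (uvn_eBC g hg hh X B hB φ f hf) (uvn_site_prod g hg ω hh dw w hw hdw X B hB φ f hf) hs
  have hM := uvn_M_le g hh κ hκ B φ
  have hP : 1 + uvNp g.m * dw ≤ uvPm g.m := by
    unfold uvPm
    have := mul_le_mul_of_nonneg_left hdw hN
    linarith
  unfold kB
  refine h1.trans ?_
  rw [add_mul]
  refine add_le_add ?_ (le_mul_of_one_le_right (by positivity) hE)
  calc ‖s‖ * _ * (1 + uvNp g.m * dw) ≤ ‖s‖ * (uvQ κ (16 * (hh : ℝ) ^ 2) * Real.exp (κ * gE G (g.sites {B}) φ)) * uvPm g.m :=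
        mul_le_mul (mul_le_mul_of_nonneg_left hM (norm_nonneg _)) hP (by positivity) (by positivity)
    _ = _ := by ring

include hg hw hdw hκ hB hf in
theorem uvn_B2 (s : ℂ) (hs : ‖s‖ ≤ κ / 2) :
    ‖kB g w s B (toC φ + f) - s / 2 * eBC g B (toC φ + f)‖ ≤ (uvQ κ (16 * (hh : ℝ) ^ 2) * uvPm g.m * ‖s‖ ^ 2
      + uvQ κ (16 * (hh : ℝ) ^ 2) * uvNp g.m * (‖s‖ * dw) + uvNp g.m * dw) * Real.exp (κ * gE G (g.sites {B}) φ) := by
  have hdw0 : 0 ≤ dw := (norm_nonneg _).trans (hw.small 0 (by simp))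
  have ht := gE_nonneg (g.sites {B}) φ
  have hE : 1 ≤ Real.exp (κ * gE G (g.sites {B}) φ) := Real.one_le_exp (by positivity)
  have hN := uvn_Np_nonneg g.m
  have hQ := uvn_Q_pos κ (16 * (hh : ℝ) ^ 2) hκ (by positivity)
  have h1 := uvn_K2 s _ _ _ _ (κ / 2) (by positivity) (uvn_eBC g hg hh X B hB φ f hf) (uvn_site_prod g hg ω hh dw w hw hdw X B hB φ f hf) hs
  have hM := uvn_M_le g hh κ hκ B φ
  have hP : 1 + uvNp g.m * dw ≤ uvPm g.m := by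
    unfold uvPm
    have := mul_le_mul_of_nonneg_left hdw hN
    linarith
  unfold kB
  refine h1.trans ?_
  rw [add_mul, add_mul]
  refine add_le_add (add_le_add ?_ ?_) (le_mul_of_one_le_right (by positivity) hE)
  · calc ‖s‖ ^ 2 * _ * (1 + uvNp g.m * dw) ≤ ‖s‖ ^ 2 * (uvQ κ (16 * (hh : ℝ) ^ 2) * Real.exp (κ * gE G (g.sites {B}) φ)) * uvPm g.m :=
          mul_le_mul (mul_le_mul_of_nonneg_left hM (by positivity)) hP (by positivity) (by positivity)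
      _ = _ := by ring
  · calc ‖s‖ * _ * (uvNp g.m * dw) ≤ ‖s‖ * (uvQ κ (16 * (hh : ℝ) ^ 2) * Real.exp (κ * gE G (g.sites {B}) φ)) * (uvNp g.m * dw) :=
          mul_le_mul_of_nonneg_right (mul_le_mul_of_nonneg_left hM (norm_nonneg _)) (by positivity)
      _ = _ := by ring

include hg hw hdw hκ hB hf in
theorem uvn_B3 (s s' : ℂ) (hs : ‖s - s'‖ + ‖s'‖ ≤ κ / 2) :
    ‖kB g w s B (toC φ + f) - kB g w s' B (toC φ + f)‖ ≤ (uvQ κ (16 * (hh : ℝ) ^ 2) * uvPm g.m * ‖s - s'‖) * Real.exp (κ * gE G (g.sites {B}) φ) := by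
  have hdw0 : 0 ≤ dw := (norm_nonneg _).trans (hw.small 0 (by simp))
  have ht := gE_nonneg (g.sites {B}) φ
  have hN := uvn_Np_nonneg g.m
  have hQ := uvn_Q_pos κ (16 * (hh : ℝ) ^ 2) hκ (by positivity)
  have h1 := uvn_K3 s s' _ _ _ _ (κ / 2) (by positivity) (uvn_eBC g hg hh X B hB φ f hf) (uvn_site_prod g hg ω hh dw w hw hdw X B hB φ f hf) hs
  have hM := uvn_M_le g hh κ hκ B φ
  have hP : 1 + uvNp g.m * dw ≤ uvPm g.m := by
    unfold uvPm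
    have := mul_le_mul_of_nonneg_left hdw hN
    linarith
  unfold kB
  refine h1.trans ?_
  calc ‖s - s'‖ * _ * (1 + uvNp g.m * dw) ≤ ‖s - s'‖ * (uvQ κ (16 * (hh : ℝ) ^ 2) * Real.exp (κ * gE G (g.sites {B}) φ)) * uvPm g.m :=
        mul_le_mul (mul_le_mul_of_nonneg_left hM (norm_nonneg _)) hP (by positivity) (by positivity)
    _ = _ := by ring

include hg hκ hB hf in
theorem uvn_B4 (s : ℂ) :
    ‖s / 2 * eBC g B (toC φ + f)‖ ≤ (uvQ κ (16 * (hh : ℝ) ^ 2) * ‖s‖) * Real.exp (κ * gE G (g.sites {B}) φ) := by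
  have ht := gE_nonneg (g.sites {B}) φ
  have h1 := uvn_half s _ _ (uvn_eBC g hg hh X B hB φ f hf)
  have hM := uvn_M_le g hh κ hκ B φ
  refine h1.trans ?_
  have h2 : gE G (g.sites {B}) φ + 16 * (hh : ℝ) ^ 2 / 2 ≤ (1 + (gE G (g.sites {B}) φ + 16 * (hh : ℝ) ^ 2 / 2)) ^ 2 * Real.exp (κ / 2 * (gE G (g.sites {B}) φ + 16 * (hh : ℝ) ^ 2 / 2)) := by
    obtain ⟨y, hy⟩ : ∃ y, y = gE G (g.sites {B}) φ + 16 * (hh : ℝ) ^ 2 / 2 := ⟨_, rfl⟩
    have hy0 : 0 ≤ y := by rw [hy]; positivity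
    rw [← hy]
    have h5 : 1 ≤ Real.exp (κ / 2 * y) := Real.one_le_exp (by positivity)
    have h6 : y ≤ (1 + y) ^ 2 := by nlinarith
    calc y ≤ (1 + y) ^ 2 * 1 := by linarith
      _ ≤ _ := mul_le_mul_of_nonneg_left h5 (by positivity)
  calc ‖s‖ * _ ≤ ‖s‖ * (uvQ κ (16 * (hh : ℝ) ^ 2) * Real.exp (κ * gE G (g.sites {B}) φ)) :=
        mul_le_mul_of_nonneg_left (h2.trans hM) (norm_nonneg _)
    _ = _ := by ring

end block

/-! ## 4. polymers -/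

theorem uvn_R0_single (g : Grid G) (R : ℕ) (w : ℂ → ℂ) (α : ℝ) (s : ℂ) (B : g.I) (z : G.V → ℂ) :
    R0 g R w α s {B} z = kB g w s B z - s / 2 * eBC g B z := by
  unfold R0
  rw [Pi.sub_apply, Pi.sub_apply, uv_K0_apply g R w s {B} (w_conn_singleton g R B), Finset.prod_singleton, w_single_singleton]
  simp

theorem uvn_R0_of_ne (g : Grid G) (R : ℕ) (w : ℂ → ℂ) (α : ℝ) (s : ℂ) (X : Finset g.I) (h : ∀ B, X ≠ {B}) :
    R0 g R w α s X = K0 g R w s X := by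
  unfold R0
  rw [Pi.sub_apply, w_single_of_ne g α s 0 X h, sub_zero]

def uvC3 (κ : ℝ) (hh : ℝ≥0) (m : ℕ) : ℝ := uvQ κ (16 * (hh : ℝ) ^ 2) * uvPm m + uvNp m

def uvC4 (κ : ℝ) (hh : ℝ≥0) (m : ℕ) : ℝ := uvQ κ (16 * (hh : ℝ) ^ 2) * uvPm m + uvQ κ (16 * (hh : ℝ) ^ 2) * uvNp m + uvNp m

theorem uvn_C3_pos (κ : ℝ) (hκ : 0 < κ) (hh : ℝ≥0) (m : ℕ) : 0 < uvC3 κ hh m := by
  have h1 := uvn_Q_pos κ (16 * (hh : ℝ) ^ 2) hκ (by positivity)
  have h2 := uvn_Pm_pos m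
  have h3 := uvn_Np_nonneg m
  unfold uvC3
  positivity

theorem uvn_C4_pos (κ : ℝ) (hκ : 0 < κ) (hh : ℝ≥0) (m : ℕ) : 0 < uvC4 κ hh m := by
  have h1 := uvn_Q_pos κ (16 * (hh : ℝ) ^ 2) hκ (by positivity)
  have h2 := uvn_Pm_pos m
  have h3 := uvn_Np_nonneg m
  unfold uvC4
  positivity

theorem uvn_card_ge (g : Grid G) (R : ℕ) (X : Finset g.I) (hc : g.Conn R X) (h : ¬ ∃ B, X = {B}) : 2 ≤ X.card := by
  have h0 : X.card ≠ 0 := Finset.card_ne_zero.2 hc.1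
  have h1 : X.card ≠ 1 := fun h1 => h (Finset.card_eq_one.1 h1)
  omega

theorem uvn_norm (δ κ : ℝ) (hh : ℝ≥0) (A ω : ℝ) (hδ : 0 < δ) (hκ : 0 < κ) (hA : 1 ≤ A) (g : Grid G) (hg : g.Ok) (R : ℕ) (dw : ℝ) (w : ℂ → ℂ)
    (hw : SiteOK ω hh dw w) (hdw : dw ≤ 1) (α : ℝ) (s : ℂ) (hs : ‖s‖ ≤ κ / 2) (hs1 : ‖s‖ ≤ 1) (hsm : A * (uvC3 κ hh g.m * (‖s‖ + dw)) ≤ 1) :
    actNorm ⟨δ, κ, hh, A, ω⟩ g (Extra.zero g) (R0 g R w α s)
      ≤ ENNReal.ofReal ((A * uvC4 κ hh g.m + 2 * A ^ 2 * uvC3 κ hh g.m ^ 2) * (‖s‖ ^ 2 + dw)) := by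
  have hdw0 : 0 ≤ dw := (norm_nonneg _).trans (hw.small 0 (by simp))
  have hA0 : 0 < A := by linarith
  have hQ := uvn_Q_pos κ (16 * (hh : ℝ) ^ 2) hκ (by positivity)
  have hPm := uvn_Pm_pos g.m
  have hNp := uvn_Np_nonneg g.m
  have hC3 := uvn_C3_pos κ hκ hh g.m
  have hC4 := uvn_C4_pos κ hκ hh g.m
  refine uvn_actNorm_le ⟨δ, κ, hh, A, ω⟩ hδ.le hκ.le hA0.le g _ _ fun X => ?_
  by_cases hX : ∃ B, X = {B}
  · obtain ⟨B, rfl⟩ := hX
    refine ⟨uvC4 κ hh g.m * (‖s‖ ^ 2 + dw), by positivity, ?_, fun φ f hf => ?_⟩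
    · rw [Finset.card_singleton, pow_one]
      show A * _ ≤ _
      have : 0 ≤ 2 * A ^ 2 * uvC3 κ hh g.m ^ 2 * (‖s‖ ^ 2 + dw) := by positivity
      nlinarith
    · rw [uvn_R0_single, Finset.prod_singleton]
      refine (uvn_B2 g hg ω hh dw w hw hdw κ hκ {B} B (Finset.mem_singleton_self B) φ f hf s hs).trans ?_
      refine mul_le_mul_of_nonneg_right ?_ (Real.exp_pos _).le
      have h1 : ‖s‖ * dw ≤ dw := by
        have := mul_le_mul_of_nonneg_right hs1 hdw0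
        linarith
      have h2 : uvQ κ (16 * (hh : ℝ) ^ 2) * uvNp g.m * (‖s‖ * dw) ≤ uvQ κ (16 * (hh : ℝ) ^ 2) * uvNp g.m * dw :=
        mul_le_mul_of_nonneg_left h1 (by positivity)
      have h3 : 0 ≤ uvQ κ (16 * (hh : ℝ) ^ 2) * uvPm g.m * dw := by positivity
      have h4 : 0 ≤ (uvQ κ (16 * (hh : ℝ) ^ 2) * uvNp g.m + uvNp g.m) * ‖s‖ ^ 2 := by positivity
      unfold uvC4
      nlinarith
  · by_cases hc : g.Conn R X
    · have hn := uvn_card_ge g R X hc hX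
      refine ⟨(uvC3 κ hh g.m * (‖s‖ + dw)) ^ X.card, by positivity, ?_, fun φ f hf => ?_⟩
      · show A ^ X.card * _ ≤ _
        rw [← mul_pow]
        have hb0 : 0 ≤ A * (uvC3 κ hh g.m * (‖s‖ + dw)) := by positivity
        refine (pow_le_pow_of_le_one hb0 hsm hn).trans ?_
        have h1 : (‖s‖ + dw) ^ 2 ≤ 2 * (‖s‖ ^ 2 + dw) := by
          have h2 : dw ^ 2 ≤ dw := by nlinarith
          nlinarith [sq_nonneg (‖s‖ - dw)]
        have h3 : 0 ≤ A * uvC4 κ hh g.m * (‖s‖ ^ 2 + dw) := by positivity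
        calc (A * (uvC3 κ hh g.m * (‖s‖ + dw))) ^ 2 = A ^ 2 * uvC3 κ hh g.m ^ 2 * (‖s‖ + dw) ^ 2 := by ring
          _ ≤ A ^ 2 * uvC3 κ hh g.m ^ 2 * (2 * (‖s‖ ^ 2 + dw)) := mul_le_mul_of_nonneg_left h1 (by positivity)
          _ ≤ _ := by nlinarith
      · rw [uvn_R0_of_ne g R w α s X fun B hB => hX ⟨B, hB⟩, uv_K0_apply g R w s X hc]
        refine uvn_prod_le X _ _ _ fun B hB => ?_
        refine (uvn_B1 g hg ω hh dw w hw hdw κ hκ X B hB φ f hf s hs).trans ?_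
        refine mul_le_mul_of_nonneg_right ?_ (Real.exp_pos _).le
        have h3 : 0 ≤ uvQ κ (16 * (hh : ℝ) ^ 2) * uvPm g.m * dw := by positivity
        have h4 : 0 ≤ uvNp g.m * ‖s‖ := by positivity
        unfold uvC3
        nlinarith
    · refine ⟨0, le_rfl, ?_, fun φ f _ => ?_⟩
      · rw [mul_zero]
        positivity
      · rw [uvn_R0_of_ne g R w α s X fun B hB => hX ⟨B, hB⟩, uv_K0_of_not g R w s X hc]
        simp

theorem uvn_lip (δ κ : ℝ) (hh : ℝ≥0) (A ω : ℝ) (hδ : 0 < δ) (hκ : 0 < κ) (hA : 1 ≤ A) (g : Grid G) (hg : g.Ok) (R : ℕ) (dw : ℝ) (w : ℂ → ℂ)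
    (hw : SiteOK ω hh dw w) (hdw : dw ≤ 1) (α : ℝ) (s s' : ℂ) (hs : ‖s‖ ≤ κ / 2) (hs' : ‖s'‖ ≤ κ / 2) (hss : ‖s - s'‖ + ‖s'‖ ≤ κ / 2)
    (q : ℝ) (hq : 0 < q) (hqs : uvC3 κ hh g.m * (‖s‖ + dw) ≤ q) (hqs' : uvC3 κ hh g.m * (‖s'‖ + dw) ≤ q) (hAq : A * q ≤ 1 / 2) :
    actNorm ⟨δ, κ, hh, A, ω⟩ g (Extra.zero g) (R0 g R w α s - R0 g R w α s')
      ≤ ENNReal.ofReal ((A * (uvQ κ (16 * (hh : ℝ) ^ 2) * uvPm g.m + uvQ κ (16 * (hh : ℝ) ^ 2)) + uvQ κ (16 * (hh : ℝ) ^ 2) * uvPm g.m / q) * ‖s - s'‖) := by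
  have hdw0 : 0 ≤ dw := (norm_nonneg _).trans (hw.small 0 (by simp))
  have hA0 : 0 < A := by linarith
  have hQ := uvn_Q_pos κ (16 * (hh : ℝ) ^ 2) hκ (by positivity)
  have hPm := uvn_Pm_pos g.m
  have hNp := uvn_Np_nonneg g.m
  have hC3 := uvn_C3_pos κ hκ hh g.m
  refine uvn_actNorm_le ⟨δ, κ, hh, A, ω⟩ hδ.le hκ.le hA0.le g _ _ fun X => ?_
  by_cases hX : ∃ B, X = {B}
  · obtain ⟨B, rfl⟩ := hX
    refine ⟨(uvQ κ (16 * (hh : ℝ) ^ 2) * uvPm g.m + uvQ κ (16 * (hh : ℝ) ^ 2)) * ‖s - s'‖, by positivity, ?_, fun φ f hf => ?_⟩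
    · rw [Finset.card_singleton, pow_one]
      show A * _ ≤ _
      have : 0 ≤ uvQ κ (16 * (hh : ℝ) ^ 2) * uvPm g.m / q * ‖s - s'‖ := by positivity
      nlinarith
    · rw [Pi.sub_apply, Pi.sub_apply, uvn_R0_single, uvn_R0_single, Finset.prod_singleton]
      have h1 : kB g w s B (toC φ + f) - s / 2 * eBC g B (toC φ + f) - (kB g w s' B (toC φ + f) - s' / 2 * eBC g B (toC φ + f))
          = (kB g w s B (toC φ + f) - kB g w s' B (toC φ + f)) - (s - s') / 2 * eBC g B (toC φ + f) := by ring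
      rw [h1]
      refine (norm_sub_le _ _).trans ?_
      refine (add_le_add (uvn_B3 g hg ω hh dw w hw hdw κ hκ {B} B (Finset.mem_singleton_self B) φ f hf s s' hss)
        (uvn_B4 g hg hh κ hκ {B} B (Finset.mem_singleton_self B) φ f hf (s - s'))).trans (le_of_eq ?_)
      ring
  · by_cases hc : g.Conn R X
    · refine ⟨X.card * (uvQ κ (16 * (hh : ℝ) ^ 2) * uvPm g.m * ‖s - s'‖ / q) * q ^ X.card, by positivity, ?_, fun φ f hf => ?_⟩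
      · show A ^ X.card * _ ≤ _
        have h1 : (X.card : ℝ) * (A * q) ^ X.card ≤ 1 := by
          have h2 : (A * q) ^ X.card ≤ (1 / 2 : ℝ) ^ X.card := pow_le_pow_left₀ (by positivity) hAq _
          have h3 : (X.card : ℝ) ≤ 2 ^ X.card := by exact_mod_cast (Nat.lt_two_pow_self (n := X.card)).le
          calc (X.card : ℝ) * (A * q) ^ X.card ≤ 2 ^ X.card * (1 / 2 : ℝ) ^ X.card :=
                mul_le_mul h3 h2 (by positivity) (by positivity)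
            _ = 1 := by rw [← mul_pow]; norm_num
        have h4 : 0 ≤ uvQ κ (16 * (hh : ℝ) ^ 2) * uvPm g.m / q * ‖s - s'‖ := by positivity
        have h5 : 0 ≤ A * (uvQ κ (16 * (hh : ℝ) ^ 2) * uvPm g.m + uvQ κ (16 * (hh : ℝ) ^ 2)) * ‖s - s'‖ := by positivity
        calc A ^ X.card * (X.card * (uvQ κ (16 * (hh : ℝ) ^ 2) * uvPm g.m * ‖s - s'‖ / q) * q ^ X.card)
            = ((X.card : ℝ) * (A * q) ^ X.card) * (uvQ κ (16 * (hh : ℝ) ^ 2) * uvPm g.m / q * ‖s - s'‖) := by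
              rw [mul_pow]; ring
          _ ≤ 1 * (uvQ κ (16 * (hh : ℝ) ^ 2) * uvPm g.m / q * ‖s - s'‖) := mul_le_mul_of_nonneg_right h1 h4
          _ ≤ _ := by nlinarith
      · rw [Pi.sub_apply, Pi.sub_apply, uvn_R0_of_ne g R w α s X fun B hB => hX ⟨B, hB⟩, uvn_R0_of_ne g R w α s' X fun B hB => hX ⟨B, hB⟩,
          uv_K0_apply g R w s X hc, uv_K0_apply g R w s' X hc]
        have hb : ∀ t : ℂ, ‖t‖ ≤ κ / 2 → uvC3 κ hh g.m * (‖t‖ + dw) ≤ q → ∀ B ∈ X, ‖kB g w t B (toC φ + f)‖ ≤ q * Real.exp (κ * gE G (g.sites {B}) φ) := by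
          intro t ht htq B hB
          refine (uvn_B1 g hg ω hh dw w hw hdw κ hκ X B hB φ f hf t ht).trans ?_
          refine mul_le_mul_of_nonneg_right (le_trans ?_ htq) (Real.exp_pos _).le
          have h3 : 0 ≤ uvQ κ (16 * (hh : ℝ) ^ 2) * uvPm g.m * dw := by positivity
          have h4 : 0 ≤ uvNp g.m * ‖t‖ := by positivity
          unfold uvC3
          nlinarith
        exact uvn_prod_sub_le X _ _ _ q _ hq (by positivity) (fun B _ => (Real.exp_pos _).le) (hb s hs hqs) (hb s' hs' hqs')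
          fun B hB => uvn_B3 g hg ω hh dw w hw hdw κ hκ X B hB φ f hf s s' hss
    · refine ⟨0, le_rfl, ?_, fun φ f _ => ?_⟩
      · rw [mul_zero]
        positivity
      · rw [Pi.sub_apply, uvn_R0_of_ne g R w α s X fun B hB => hX ⟨B, hB⟩, uvn_R0_of_ne g R w α s' X fun B hB => hX ⟨B, hB⟩,
          uv_K0_of_not g R w s X hc, uv_K0_of_not g R w s' X hc]
        simp

/-! ## 5. (U2) -/

/-- **(U2)**, statement of `uv_bound` (`Dg/Uv.lean`) verbatim -/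
theorem uv_bound_pf (c : Geo) (hc : c.Ok) (δ κ : ℝ) (hh : ℝ≥0) (A : ℝ) (hδ : 0 < δ) (hκ : 0 < κ) (hA : 1 ≤ A) (m0 : ℕ) :
    ∃ (C s1 d1 : ℝ), 0 < C ∧ 0 < s1 ∧ 0 < d1 ∧ ∀ (ω dw : ℝ) (w : ℂ → ℂ), 0 < ω → SiteOK ω hh dw w → dw ≤ d1 →
      ∀ (G : Geom) (g gs : Grid G), G.bc = BC.per → g.Ok → g.m = m0 → ∀ s : ℂ, ‖s‖ ≤ s1 →
        Adm ⟨δ, κ, hh, A, ω⟩ c gs (R0 g c.R w (Step.alpha ω) s) ∧
        actNorm ⟨δ, κ, hh, A, ω⟩ g (Extra.zero g) (R0 g c.R w (Step.alpha ω) s) ≤ ENNReal.ofReal (C * (‖s‖ ^ 2 + dw)) ∧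
        (s.im = 0 → conjAct (R0 g c.R w (Step.alpha ω) s) = R0 g c.R w (Step.alpha ω) s) ∧
        ∀ s' : ℂ, ‖s'‖ ≤ s1 →
          actNorm ⟨δ, κ, hh, A, ω⟩ g (Extra.zero g) (R0 g c.R w (Step.alpha ω) s - R0 g c.R w (Step.alpha ω) s') ≤ ENNReal.ofReal (C * ‖s - s'‖) := by
  have hA0 : 0 < A := by linarith
  have hQ := uvn_Q_pos κ (16 * (hh : ℝ) ^ 2) hκ (by positivity)
  have hPm := uvn_Pm_pos m0
  have hC3 := uvn_C3_pos κ hκ hh m0
  have hC4 := uvn_C4_pos κ hκ hh m0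
  obtain ⟨r, hr⟩ : ∃ r : ℝ, r = 1 / (4 * A * uvC3 κ hh m0) := ⟨_, rfl⟩
  have hr0 : 0 < r := by rw [hr]; positivity
  have hrA : A * (uvC3 κ hh m0 * (r + r)) = 1 / 2 := by
    rw [hr]
    field_simp
    norm_num
  obtain ⟨s1, hs1⟩ : ∃ s1 : ℝ, s1 = min (min (κ / 6) 1) r := ⟨_, rfl⟩
  obtain ⟨d1, hd1⟩ : ∃ d1 : ℝ, d1 = min 1 r := ⟨_, rfl⟩
  have hs1p : 0 < s1 := by rw [hs1]; exact lt_min (lt_min (by positivity) one_pos) hr0
  have hd1p : 0 < d1 := by rw [hd1]; exact lt_min one_pos hr0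
  have hs1κ : s1 ≤ κ / 6 := by rw [hs1]; exact (min_le_left _ _).trans (min_le_left _ _)
  have hs11 : s1 ≤ 1 := by rw [hs1]; exact (min_le_left _ _).trans (min_le_right _ _)
  have hs1r : s1 ≤ r := by rw [hs1]; exact min_le_right _ _
  have hd11 : d1 ≤ 1 := by rw [hd1]; exact min_le_left _ _
  have hd1r : d1 ≤ r := by rw [hd1]; exact min_le_right _ _
  obtain ⟨q, hq⟩ : ∃ q : ℝ, q = uvC3 κ hh m0 * (s1 + d1) := ⟨_, rfl⟩
  have hq0 : 0 < q := by rw [hq]; positivity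
  have hAq : A * q ≤ 1 / 2 := by
    rw [hq, ← hrA]
    exact mul_le_mul_of_nonneg_left (mul_le_mul_of_nonneg_left (add_le_add hs1r hd1r) hC3.le) hA0.le
  obtain ⟨Ca, hCa⟩ : ∃ Ca : ℝ, Ca = A * uvC4 κ hh m0 + 2 * A ^ 2 * uvC3 κ hh m0 ^ 2 := ⟨_, rfl⟩
  obtain ⟨Cb, hCb⟩ : ∃ Cb : ℝ, Cb = A * (uvQ κ (16 * (hh : ℝ) ^ 2) * uvPm m0 + uvQ κ (16 * (hh : ℝ) ^ 2)) + uvQ κ (16 * (hh : ℝ) ^ 2) * uvPm m0 / q := ⟨_, rfl⟩
  have hCa0 : 0 < Ca := by rw [hCa]; positivity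
  have hCb0 : 0 < Cb := by rw [hCb]; positivity
  refine ⟨Ca + Cb, s1, d1, by positivity, hs1p, hd1p, ?_⟩
  intro ω dw w hω hw hdw G g gs hG hg hm s hs
  subst hm
  have hdw0 : 0 ≤ dw := (norm_nonneg _).trans (hw.small 0 (by simp))
  have hdw1 : dw ≤ 1 := hdw.trans hd11
  have hqb : ∀ t : ℂ, ‖t‖ ≤ s1 → uvC3 κ hh g.m * (‖t‖ + dw) ≤ q := by
    intro t ht
    rw [hq]
    exact mul_le_mul_of_nonneg_left (add_le_add ht hdw) hC3.le
  refine ⟨uv_R0_adm c hc ⟨δ, κ, hh, A, ω⟩ hω hG g gs hg w dw hw s, ?_, fun him => uv_R0_conj g c.R w hw.conj _ s him, fun s' hs' => ?_⟩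
  · refine (uvn_norm δ κ hh A ω hδ hκ hA g hg c.R dw w hw hdw1 _ s (by linarith) (hs.trans hs11) ?_).trans ?_
    · have := mul_le_mul_of_nonneg_left (hqb s hs) hA0.le
      linarith
    · rw [← hCa]
      refine ENNReal.ofReal_le_ofReal (mul_le_mul_of_nonneg_right (by linarith) (by positivity))
  · have hss : ‖s - s'‖ + ‖s'‖ ≤ κ / 2 := by
      have := norm_sub_le s s'
      linarith
    refine (uvn_lip δ κ hh A ω hδ hκ hA g hg c.R dw w hw hdw1 _ s s' (by linarith) (by linarith) hss q hq0 (hqb s hs) (hqb s' hs') hAq).trans ?_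
    rw [← hCb]
    exact ENNReal.ofReal_le_ofReal (mul_le_mul_of_nonneg_right (by linarith) (norm_nonneg _))

end

end Claimed.Agent.R285.BC2
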