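import Claimed.Agent.R285.Dg.Defs
import Claimed.Agent.R285.Dg.UvNorm

/-!
# ROW 285, unit BC2, file Dg/Uv: the ULTRAVIOLET side of the reference model (contracts U1, U2, U4, S4 of `Read/BC2.lean`, statements verbatim).
Owners: `Z0_eq_ZA` (leaf L-DG-ZA), `Z0_conv_nonneg` (leaf L-DG-POS): free provers;  `uv_bound`, `kof_bound`: architect helper136.   Prove IN PLACE, helper lemmas just above.
-/

set_option autoImplicit false

namespace Claimed.Agent.R285.BC2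

open scoped BigOperators ENNReal NNReal
open MeasureTheory ProbabilityTheory Polynomial Filter Topology
open Claimed.Agent.R285.RG Claimed.Agent.R285.B8

noncomputable section

variable {G : Geom}

theorem dgu_prod_comps {𝔸 : Type} [CommMonoid 𝔸] (g : Grid G) (R : ℕ) (k : g.I → 𝔸) (V : Finset g.I) :
    ∏ X ∈ g.comps R V, ∏ B ∈ X, k B = ∏ B ∈ V, k B := by
  classical
  conv_rhs => rw [← Alg.comps_biUnion (R := R) V]
  rw [Finset.prod_biUnion]
  · rfl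
  · intro X hX X' hX' hne
    exact Alg.comps_disjoint hX hX' hne

theorem dgu_sites_single (g : Grid G) (B : g.I) : g.sites {B} = Finset.univ.filter (fun v => g.blk v = B) := by
  ext v
  simp [Grid.sites]

/-- **(U1)** the product over blocks is a polymer sum (pure algebra: the `R`-components partition `V`; `∑_B e_B = (z, A z)`; the blocks partition the sites) -/
theorem Z0_eq_ZA (g : Grid G) (R : ℕ) (w : ℂ → ℂ) (s : ℂ) : ZA g R (K0 g R w s) = Z0 G w s := by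
  classical
  unfold ZA
  have h1 : ∀ V : Finset g.I, ∏ X ∈ g.comps R V, K0 g R w s X = ∏ B ∈ V, kB g w s B := by
    intro V
    rw [← dgu_prod_comps g R (kB g w s) V]
    refine Finset.prod_congr rfl fun X hX => ?_
    unfold K0
    rw [if_pos (Alg.comps_conn hX)]
  simp only [h1]
  have h2 : ∑ V : Finset g.I, ∏ B ∈ V, kB g w s B = ∏ B : g.I, (1 + kB g w s B) := by
    rw [Finset.prod_one_add, Finset.powerset_univ]
  rw [h2]
  funext z
  rw [Finset.prod_apply]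
  unfold Z0
  have h3 : ∀ B : g.I, (1 + kB g w s B) z = Complex.exp (s / 2 * eBC g B z) * ∏ x ∈ g.sites {B}, w (z x) := by
    intro B
    simp [kB]
  simp only [h3]
  rw [Finset.prod_mul_distrib, ← Complex.exp_sum, ← Finset.mul_sum]
  congr 1
  · congr 2
    unfold eBC enC
    rw [← Finset.mul_sum]
    congr 1
    simp only [dgu_sites_single]
    exact Finset.sum_fiberwise Finset.univ g.blk _
  · simp only [dgu_sites_single]
    exact Finset.prod_fiberwise Finset.univ g.blk _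

/-- **(U2)** = [B] P8.2 for the reference model: `K₀ = 1_{X = {B}} s e_B/2 + 𝓡₀`, `‖𝓡₀‖ ≤ C (|s|² + dw)`, Lipschitz in `s`.  Elementary: no expansion, no integration.
`C, s₁, d₁` depend on the norm parameters and on the side `m0` of the blocks only. -/
theorem uv_bound (c : Geo) (hc : c.Ok) (δ κ : ℝ) (hh : ℝ≥0) (A : ℝ) (hδ : 0 < δ) (hκ : 0 < κ) (hA : 1 ≤ A) (m0 : ℕ) :
    ∃ (C s1 d1 : ℝ), 0 < C ∧ 0 < s1 ∧ 0 < d1 ∧ ∀ (ω dw : ℝ) (w : ℂ → ℂ), 0 < ω → SiteOK ω hh dw w → dw ≤ d1 →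
      ∀ (G : Geom) (g gs : Grid G), G.bc = BC.per → g.Ok → g.m = m0 → ∀ s : ℂ, ‖s‖ ≤ s1 →
        Adm ⟨δ, κ, hh, A, ω⟩ c gs (R0 g c.R w (Step.alpha ω) s) ∧
        actNorm ⟨δ, κ, hh, A, ω⟩ g (Extra.zero g) (R0 g c.R w (Step.alpha ω) s) ≤ ENNReal.ofReal (C * (‖s‖ ^ 2 + dw)) ∧
        (s.im = 0 → conjAct (R0 g c.R w (Step.alpha ω) s) = R0 g c.R w (Step.alpha ω) s) ∧
        ∀ s' : ℂ, ‖s'‖ ≤ s1 →
          actNorm ⟨δ, κ, hh, A, ω⟩ g (Extra.zero g) (R0 g c.R w (Step.alpha ω) s - R0 g c.R w (Step.alpha ω) s') ≤ ENNReal.ofReal (C * ‖s - s'‖) :=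
  uv_bound_pf c hc δ κ hh A hδ hκ hA m0

theorem dgu_w_real {ω : ℝ} {h0 : ℝ≥0} {dw : ℝ} {w : ℂ → ℂ} (hw : SiteOK ω h0 dw w) (y : ℝ) : w (y : ℂ) = (((w (y : ℂ)).re : ℝ) : ℂ) := by
  have h1 := hw.conj (y : ℂ)
  rw [Complex.conj_ofReal] at h1
  have h2 : (w (y : ℂ)).im = 0 := Complex.conj_eq_iff_im.1 h1.symm
  apply Complex.ext
  · simp
  · simp [h2]

theorem dgu_enC_real (ψ : G.V → ℝ) :
    enC G (toC ψ) = (((1 / 2) * ∑ v, ∑ e : Fin 4, dif (dir e) (G.lift ψ) (G.ι v) ^ 2 : ℝ) : ℂ) := by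
  unfold enC
  push_cast
  congr 1
  refine Finset.sum_congr rfl fun v _ => Finset.sum_congr rfl fun e _ => ?_
  congr 1
  simp [dif, Geom.lift, toC]

theorem dgu_Z0_real {ω : ℝ} {h0 : ℝ≥0} {dw : ℝ} {w : ℂ → ℂ} (hw : SiteOK ω h0 dw w) (s : ℝ) (ψ : G.V → ℝ) :
    Z0 G w s (toC ψ) = ((Real.exp (s / 2 * ((1 / 2) * ∑ v, ∑ e : Fin 4, dif (dir e) (G.lift ψ) (G.ι v) ^ 2)) * ∏ x, (w (ψ x : ℂ)).re : ℝ) : ℂ) := by
  unfold Z0
  rw [dgu_enC_real]
  push_cast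
  congr 1
  exact Finset.prod_congr rfl fun x _ => dgu_w_real hw (ψ x)

/-- **(U4)** on real fields the reference integrand is positive -/
theorem Z0_conv_nonneg (C1 : Matrix G.V G.V ℝ) (ω : ℝ) (h0 : ℝ≥0) (dw : ℝ) (w : ℂ → ℂ) (hw : SiteOK ω h0 dw w) (s : ℝ) (φ : G.V → ℝ) :
    (conv C1 (Z0 G w s) (toC φ)).im = 0 ∧ 0 ≤ (conv C1 (Z0 G w s) (toC φ)).re := by
  have h1 : conv C1 (Z0 G w s) (toC φ) = ((∫ ζ, (Real.exp (s / 2 * ((1 / 2) * ∑ v, ∑ e : Fin 4, dif (dir e) (G.lift (φ + ζ)) (G.ι v) ^ 2))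
      * ∏ x, (w ((φ + ζ) x : ℂ)).re) ∂(gauss G C1) : ℝ) : ℂ) := by
    unfold conv
    refine Eq.trans ?_ integral_complex_ofReal
    refine integral_congr_ae (Filter.Eventually.of_forall fun ζ => ?_)
    have h2 : toC φ + toC ζ = toC (φ + ζ) := by
      funext v
      simp [toC]
    simp only [h2]
    exact dgu_Z0_real hw s (φ + ζ)
  rw [h1]
  refine ⟨Complex.ofReal_im _, ?_⟩
  rw [Complex.ofReal_re]
  refine integral_nonneg fun ζ => ?_
  exact mul_nonneg (Real.exp_pos _).le (Finset.prod_nonneg fun x _ => (hw.pos _).le)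

/-- **(S4)** the full activity `K = t e/2 + R` is admissible and small (`B4.eB_size`) -/
theorem kof_bound (δ κ : ℝ) (hh : ℝ≥0) (hδ : 0 < δ) (hκ : 0 < κ) : ∃ Ce : ℝ, 0 < Ce ∧ ∀ (A ω : ℝ) (c : Geo), 1 ≤ A → c.Ok → ∀ (G : Geom) (g gs : Grid G), g.Ok →
    ∀ x : ℂ × ℂ × Act g, x.2.1 = 0 → Adm ⟨δ, κ, hh, A, ω⟩ c gs x.2.2 → ∀ y : ℝ, size3 ⟨δ, κ, hh, A, ω⟩ g (Extra.zero g) x ≤ ENNReal.ofReal y →
      Act.Ok ⟨δ, κ, hh, A, ω⟩ c.col c.R (Kof g (Step.alpha ω) x) ∧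
      actNorm ⟨δ, κ, hh, A, ω⟩ g (Extra.zero g) (Kof g (Step.alpha ω) x) ≤ ENNReal.ofReal (Ce * A * y) := by
  obtain ⟨C, hC⟩ := B4.eB_size δ κ hh hδ hκ
  refine ⟨(C : ℝ) + 1, by positivity, fun A ω c hA hc G g gs hg x hx0 hx y hy => ?_⟩
  set p : Par := ⟨δ, κ, hh, A, ω⟩ with hp
  have hs1 : ∀ B : g.I, single g (Step.alpha ω) x.1 0 {B} = (x.1 / 2) • eBC g B := fun B => by
    rw [w_single_singleton, zero_smul, add_zero]
  have hsok : (single g (Step.alpha ω) x.1 0).Ok p c.col c.R :=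
    { fn := fun X => by
        by_cases h : ∃ B, X = {B}
        · obtain ⟨B, rfl⟩ := h
          rw [hs1]
          exact w_localFn_smul p c.col g _ _ (w_eBC_local p c.col hc.col_pos g B)
        · rw [w_single_of_ne _ _ _ _ _ fun B hB => h ⟨B, hB⟩]
          exact w_localFn_zero p c.col g X
      poly := fun X hX => w_single_of_ne _ _ _ _ _ fun B hB => hX (hB ▸ w_conn_singleton g c.R B) }
  have hK : Kof g (Step.alpha ω) x = single g (Step.alpha ω) x.1 0 + x.2.2 := by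
    unfold Kof; rw [hx0]
  refine ⟨by rw [hK]; exact w_actOk_add p c.col c.R hsok hx.ok, ?_⟩
  have hA1 : (1 : ℝ≥0∞) ≤ ENNReal.ofReal A := by
    rw [← ENNReal.ofReal_one]; exact ENNReal.ofReal_le_ofReal hA
  have hsn : actNorm p g (Extra.zero g) (single g (Step.alpha ω) x.1 0) ≤ ENNReal.ofReal A * (C * (‖x.1‖₊ : ℝ≥0∞)) := by
    rw [w_actNorm_le_iff]
    intro X
    by_cases h : ∃ B, X = {B}
    · obtain ⟨B, rfl⟩ := h
      rw [hs1, Finset.card_singleton, pow_one]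
      refine mul_le_mul' le_rfl ((w_fnSize_smul_le p g _ _ _ _).trans ?_)
      have h2 : (‖x.1 / 2‖₊ : ℝ≥0∞) ≤ ‖x.1‖₊ := by
        have : ‖x.1 / 2‖₊ ≤ ‖x.1‖₊ := by
          rw [← NNReal.coe_le_coe, coe_nnnorm, coe_nnnorm, norm_div]
          have : ‖(2 : ℂ)‖ = 2 := by simp
          rw [this]
          have := norm_nonneg x.1
          linarith
        exact_mod_cast this
      calc (‖x.1 / 2‖₊ : ℝ≥0∞) * fnSize p g (Extra.zero g) {B} (eBC g B) ≤ ‖x.1‖₊ * C :=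
            mul_le_mul' h2 (hC p rfl rfl rfl G g hg _ B)
        _ = C * ‖x.1‖₊ := mul_comm _ _
    · rw [w_single_of_ne _ _ _ _ _ fun B hB => h ⟨B, hB⟩, w_fnSize_zero, mul_zero]
      exact zero_le
  have hsz : size3 p g (Extra.zero g) x = (‖x.1‖₊ : ℝ≥0∞) + actNorm p g (Extra.zero g) x.2.2 := by
    unfold size3; rw [hx0]; simp
  have hCe : ENNReal.ofReal (((C : ℝ) + 1) * A) = ENNReal.ofReal A * ((C : ℝ≥0∞) + 1) := by
    rw [ENNReal.ofReal_mul (by positivity), ENNReal.ofReal_add (NNReal.coe_nonneg C) zero_le_one, ENNReal.ofReal_coe_nnreal,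
      ENNReal.ofReal_one, mul_comm]
  rw [hK]
  calc actNorm p g (Extra.zero g) (single g (Step.alpha ω) x.1 0 + x.2.2)
      ≤ ENNReal.ofReal A * (C * (‖x.1‖₊ : ℝ≥0∞)) + actNorm p g (Extra.zero g) x.2.2 :=
        (w_actNorm_add_le _ _ _ _ _).trans (add_le_add hsn le_rfl)
    _ ≤ ENNReal.ofReal A * (C * (‖x.1‖₊ : ℝ≥0∞)) + ENNReal.ofReal A * actNorm p g (Extra.zero g) x.2.2 :=
        add_le_add le_rfl (le_mul_of_one_le_left' hA1)
    _ ≤ ENNReal.ofReal A * (((C : ℝ≥0∞) + 1) * size3 p g (Extra.zero g) x) := by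
        rw [← mul_add, hsz]
        refine mul_le_mul' le_rfl ?_
        rw [add_mul, mul_add, one_mul]
        exact add_le_add le_self_add le_add_self
    _ ≤ ENNReal.ofReal A * (((C : ℝ≥0∞) + 1) * ENNReal.ofReal y) := mul_le_mul' le_rfl (mul_le_mul' le_rfl hy)
    _ = ENNReal.ofReal (((C : ℝ) + 1) * A * y) := by
        rw [ENNReal.ofReal_mul (by positivity), hCe, mul_assoc]
end

end Claimed.Agent.R285.BC2
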