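import Claimed.Agent.R285.Dg.Defs
import Claimed.Agent.R285.Map.WSym

/-!
# ROW 285, unit BC2, file Dg/UvAdm: the initial remainder `R0` of the reference model is admissible and real   (helper259)
Part "Adm + conj" of `uv_bound` (U2).  Everything is algebra of the block factor `kB g w s B z = exp (s e_B (z)/2) ∏_{x ∈ B} w (z x) - 1`.
Exits: `uv_R0_adm`, `uv_R0_conj`.
-/

set_option autoImplicit false

namespace Claimed.Agent.R285.BC2

open scoped BigOperators ENNReal NNReal
open Claimed.Agent.R285.RG Claimed.Agent.R285.B8 Claimed.Agent.R285.Hol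

noncomputable section

variable {G : Geom}

theorem uv_kB_diff (g : Grid G) (w : ℂ → ℂ) (hw : Differentiable ℂ w) (s : ℂ) (B : g.I) : Differentiable ℂ (kB g w s B) := by
  have h1 : Differentiable ℂ (eBC g B) := by
    unfold eBC dif Geom.lift
    fun_prop
  have h2 : Differentiable ℂ fun z : G.V → ℂ => ∏ x ∈ g.sites {B}, w (z x) := by
    classical
    intro z
    exact (HasFDerivAt.finsetProd fun x _ => ((hw.comp (differentiable_apply x)) z).hasFDerivAt).differentiableAt
  unfold kB
  exact (((h1.const_mul (s / 2)).cexp).mul h2).sub_const 1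

theorem uv_kB_loc (g : Grid G) (w : ℂ → ℂ) (s : ℂ) (B : g.I) (z z' : G.V → ℂ)
    (h : ∀ v, (∃ x ∈ g.sites {B}, G.dist x v ≤ 1) → z v = z' v) : kB g w s B z = kB g w s B z' := by
  have h1 : eBC g B z = eBC g B z' := by
    unfold eBC dif Geom.lift
    congr 1
    refine Finset.sum_congr rfl fun v hv => Finset.sum_congr rfl fun e _ => ?_
    rw [h _ ⟨v, hv, w_dist_step_le v e⟩, h _ ⟨v, hv, (w_dist_self_le v).trans (Nat.zero_le _)⟩]
  have h2 : ∏ x ∈ g.sites {B}, w (z x) = ∏ x ∈ g.sites {B}, w (z' x) := by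
    refine Finset.prod_congr rfl fun x hx => ?_
    have := h (G.π (G.ι x)) ⟨x, hx, (w_dist_self_le x).trans (Nat.zero_le _)⟩
    rw [Reg.reg_pi_iota] at this
    rw [this]
  unfold kB
  rw [h1, h2]

theorem uv_kB_per (g : Grid G) (w : ℂ → ℂ) (ω : ℝ) (hper : ∀ y, w (y + ω) = w y) (s : ℂ) (B : g.I) (z : G.V → ℂ) :
    kB g w s B (fun v => z v + (ω : ℂ)) = kB g w s B z := by
  unfold kB
  rw [w_eBC_const]
  simp only [hper]

theorem uv_kB_neg (g : Grid G) (w : ℂ → ℂ) (heven : ∀ y, w (-y) = w y) (s : ℂ) (B : g.I) (z : G.V → ℂ) :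
    kB g w s B (-z) = kB g w s B z := by
  unfold kB
  rw [w_eBC_neg]
  simp only [Pi.neg_apply, heven]

theorem uv_kB_conj (g : Grid G) (w : ℂ → ℂ) (hconj : ∀ y, w (starRingEnd ℂ y) = starRingEnd ℂ (w y)) (s : ℂ) (hs : s.im = 0) (B : g.I)
    (z : G.V → ℂ) : starRingEnd ℂ (kB g w s B fun v => starRingEnd ℂ (z v)) = kB g w s B z := by
  have hs' : starRingEnd ℂ s = s := Complex.conj_eq_iff_im.2 hs
  unfold kB
  rw [w_eBC_conj]
  simp only [hconj, map_sub, map_mul, map_prod, map_one, ← Complex.exp_conj, Complex.conj_conj, map_div₀, hs', map_ofNat]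

theorem uv_kB_sym (hG : G.bc = BC.per) (g : Grid G) (w : ℂ → ℂ) (s : ℂ) (σ : GridSym g) (B : g.I) (z : G.V → ℂ) :
    kB g w s (σ.τ B) (symF σ z) = kB g w s B z := by
  unfold kB
  rw [w_sym_eBC hG]
  congr 2
  have h1 : g.sites {σ.τ B} = (g.sites {B}).map σ.σ.toEmbedding := by
    rw [← w_sym_sites, symX, Finset.map_singleton]; rfl
  rw [h1, Finset.prod_map]
  refine Finset.prod_congr rfl fun x _ => ?_
  simp [symF]

/-! ## the product activity -/

theorem uv_K0_apply (g : Grid G) (R : ℕ) (w : ℂ → ℂ) (s : ℂ) (X : Finset g.I) (h : g.Conn R X) (z : G.V → ℂ) :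
    K0 g R w s X z = ∏ B ∈ X, kB g w s B z := by
  unfold K0
  rw [if_pos h, Finset.prod_apply]

theorem uv_K0_of_not (g : Grid G) (R : ℕ) (w : ℂ → ℂ) (s : ℂ) (X : Finset g.I) (h : ¬ g.Conn R X) : K0 g R w s X = 0 := by
  unfold K0
  rw [if_neg h]

theorem uv_idist1_le (g : Grid G) (a b : Fin g.n) : g.idist1 a b ≤ ((a : ℤ) - b).natAbs := by
  unfold Grid.idist1
  cases G.bc
  · exact min_le_left _ _
  · exact le_rfl

/-- symmetries preserve polymers (also on the tori of side `≤ 2`, where every non-empty set is a polymer) -/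
theorem uv_conn_sym (hG : G.bc = BC.per) (g : Grid G) (hg : g.Ok) (R : ℕ) (hR : 1 ≤ R) (σ : GridSym g) (X : Finset g.I) :
    g.Conn R (X.map σ.τ.toEmbedding) ↔ g.Conn R X := by
  by_cases hM : 3 ≤ G.M
  · exact w_sym_conn hG hM hg σ R X
  · have hn : g.n ≤ G.M := by
      have := Fintype.card_le_of_surjective g.blk1 hg.surj
      simpa using this
    have h1 : ∀ a b : Fin g.n, g.idist1 a b ≤ R := by
      intro a b
      refine (uv_idist1_le g a b).trans (le_trans ?_ hR)
      have ha := a.2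
      have hb := b.2
      omega
    have h2 : ∀ a b : g.I, g.idist a b ≤ R := fun a b => max_le (h1 _ _) (h1 _ _)
    have h3 : ∀ Y : Finset g.I, g.Conn R Y ↔ Y.Nonempty := fun Y =>
      ⟨fun h => h.1, fun h => ⟨h, fun a ha b hb => Relation.ReflTransGen.single ⟨ha, hb, h2 a b⟩⟩⟩
    rw [h3, h3, Finset.map_nonempty]

theorem uv_K0_cls (p : Par) (col R : ℕ) (hcol : 1 ≤ col) (hR : 1 ≤ R) (hG : G.bc = BC.per) (g gs : Grid G) (hg : g.Ok) (w : ℂ → ℂ) (dw : ℝ)
    (hw : SiteOK p.ω p.h0 dw w) (s : ℂ) : (K0 g R w s).Cls p col R gs where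
  ok :=
    { fn := by
        intro X
        by_cases hX : g.Conn R X
        · refine ⟨?_, ?_, ?_⟩
          · have : Differentiable ℂ (K0 g R w s X) := by
              classical
              have h1 : K0 g R w s X = fun z => ∏ B ∈ X, kB g w s B z := funext fun z => uv_K0_apply g R w s X hX z
              rw [h1]
              intro z
              exact (HasFDerivAt.finsetProd fun B _ => (uv_kB_diff g w hw.hol s B z).hasFDerivAt).differentiableAt
            exact this.differentiableOn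
          · intro z _ z' _ h
            rw [uv_K0_apply g R w s X hX, uv_K0_apply g R w s X hX]
            refine Finset.prod_congr rfl fun B hB => uv_kB_loc g w s B z z' fun v hv => ?_
            obtain ⟨x, hx, hd⟩ := hv
            exact h v ⟨x, sites_mono g (Finset.singleton_subset_iff.2 hB) hx, hd.trans hcol⟩
          · intro z _
            rw [uv_K0_apply g R w s X hX, uv_K0_apply g R w s X hX]
            exact Finset.prod_congr rfl fun B _ => uv_kB_per g w p.ω hw.per s B z
        · rw [uv_K0_of_not g R w s X hX]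
          exact w_localFn_zero p col g X
      poly := fun X hX => uv_K0_of_not g R w s X hX }
  even := by
    intro X z _
    by_cases hX : g.Conn R X
    · rw [uv_K0_apply g R w s X hX, uv_K0_apply g R w s X hX]
      exact Finset.prod_congr rfl fun B _ => uv_kB_neg g w hw.even s B z
    · rw [uv_K0_of_not g R w s X hX]; rfl
  sym := by
    intro σ _ X z _ _
    by_cases hX : g.Conn R X
    · have hX' : g.Conn R (X.map σ.τ.toEmbedding) := (uv_conn_sym hG g hg R hR σ X).2 hX
      rw [uv_K0_apply g R w s X hX, uv_K0_apply g R w s _ hX', Finset.prod_map]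
      exact Finset.prod_congr rfl fun B _ => uv_kB_sym hG g w s σ B z
    · have hX' : ¬ g.Conn R (X.map σ.τ.toEmbedding) := fun h => hX ((uv_conn_sym hG g hg R hR σ X).1 h)
      rw [uv_K0_of_not g R w s X hX, uv_K0_of_not g R w s _ hX']; rfl

/-- **EXIT 1**: the initial remainder is admissible -/
theorem uv_R0_adm (c : Geo) (hc : c.Ok) (p : Par) (hω : 0 < p.ω) (hG : G.bc = BC.per) (g gs : Grid G) (hg : g.Ok) (w : ℂ → ℂ) (dw : ℝ)
    (hw : SiteOK p.ω p.h0 dw w) (s : ℂ) : Adm p c gs (R0 g c.R w (Step.alpha p.ω) s) := by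
  have hR : 1 ≤ c.R := by have := hc.hrR; omega
  exact w_cls_sub p c.col c.R gs (uv_K0_cls p c.col c.R hc.col_pos hR hG g gs hg w dw hw s)
    (w_single_cls p hω c.col c.R hc.col_pos hG gs s 0)

/-- **EXIT 2**: for real `s` the initial remainder is real -/
theorem uv_R0_conj (g : Grid G) (R : ℕ) (w : ℂ → ℂ) (hconj : ∀ y, w (starRingEnd ℂ y) = starRingEnd ℂ (w y)) (α : ℝ) (s : ℂ) (hs : s.im = 0) :
    conjAct (R0 g R w α s) = R0 g R w α s := by
  have hs' : starRingEnd ℂ s = s := Complex.conj_eq_iff_im.2 hs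
  have h1 : conjAct (K0 g R w s) = K0 g R w s := by
    funext X z
    unfold conjAct
    by_cases hX : g.Conn R X
    · rw [uv_K0_apply g R w s X hX, uv_K0_apply g R w s X hX, map_prod]
      exact Finset.prod_congr rfl fun B _ => uv_kB_conj g w hconj s hs B z
    · rw [uv_K0_of_not g R w s X hX]; simp
  have h2 := w_conjAct_single g α s 0
  have h3 : conjAct (R0 g R w α s) = conjAct (K0 g R w s) - conjAct (single g α s 0) := by
    funext X z
    simp [conjAct, R0]
  rw [h3, h1, h2]
  simp [R0, hs']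

end

end Claimed.Agent.R285.BC2
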